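import Crest.Agent.X212.Nd18.Aps

/-!
# Row 212, DICT (helper72): leaves around the index of the cylinder
-/

set_option autoImplicit false
set_option linter.unusedSectionVars false
noncomputable section
open scoped Manifold ContDiff Topology InnerProductSpace
open MeasureTheory Set Function Filter

namespace Crest.Agent.X212.Crt72
open An M Cyf70 Mod61 Map77 Nk89 Nd18

variable {κ lam : Type} [Fintype κ] [Fintype lam] {Y : Mf 3} [CompactSpace Y.M]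

/-- the cylinder with the neck terms `N false` at `-∞` and `N true` at `+∞` -/
@[reducible] def zB (D : YD Y.I Y.M κ lam) (N : Bool → ND Y.M lam) : BG κ lam (cylM Y) :=
  ⟨D.B, D.G, univ, Bool, fun o => ⟨⟨Y, D, N o⟩, D.nk, o⟩⟩

variable (κ lam) (k : ℕ)

/-- LEAF IX-MON: the index is locally monotone in the weight -/
def MonStmt : Prop := ∀ (Z : Mf 4) (b : BG κ lam Z) O c β δ₀, b.OK O → b.Std c β → δ₀ ≤ Cht98.dl0 →
  (∀ δ ∈ Ioo 0 δ₀, ∀ a, ∃ f s, (∀ x ∈ (b.E a).U s, x ∈ O ↔ f = true) ∧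
    Fz κ lam k (b.E a).X f (β a) δ) → ∀ δ ∈ Ioo 0 δ₀, ∀ᶠ δ' in 𝓝 δ, ∀ d d',
  b.Ix O c k δ d → b.Ix O c k δ' d' → (δ ≤ δ' → d' ≤ d) ∧ (δ' ≤ δ → d ≤ d')

/-- LEAF IX-NATZ: the index of the cylinder is constant on orbits -/
def NatzStmt : Prop := ∀ (X : XD κ lam) δ O' β β' (h : X.D.Adm β) (h0 : ∀ x ∉ O', β.Φ x.1 = 0)
  (h' : X.D.Adm β') (h0' : ∀ x ∉ O', β'.Φ x.1 = 0) d, X.OK → 0 < δ → O' = univ ∨ O' = ∅ →
  X.D.Eqv β β' → Aff (refZ T0 δ h h0) (Fs (famZ T0 X.D δ O')) 0 0 0 (fun _ => eZ X.N X.D) →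
  Aff (refZ T0 δ h' h0') (Fs (famZ T0 X.D δ O')) 0 0 0 (fun _ => eZ X.N X.D) →
  Inv (δ := δ) h h0 k (eZ X.N X.D) d → Inv (δ := δ) h' h0' k (eZ X.N X.D) d

/-- LEAF IX-CZ: the structure and the locality of the equations at critical points -/
def CzStmt : Prop := ∀ X : XD κ lam, X.OK → ∃ δ₀ > 0, ∀ δ ∈ Ioo 0 δ₀, ∀ O' β (h : X.D.Adm β)
  (h0 : ∀ x ∉ O', β.Φ x.1 = 0), O' = univ ∨ O' = ∅ → X.N.Crit X.D β →
  Aff (refZ T0 δ h h0) (Fs (famZ T0 X.D δ O')) 0 0 0 (fun _ => eZ X.N X.D) ∧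
    ∀ sg, sg = 1 ∨ sg = -1 → LocZ (δ := δ) h h0 k (eZ X.N X.D) sg

/-- LEAF IX-CHZ: charts of the cylinder -/
def ChzStmt : Prop := ∃ δ₀ > 0, ∀ δ ∈ Ioo 0 δ₀, ∀ (Y : Mf 3) [CompactSpace Y.M]
  (D : YD Y.I Y.M κ lam) (N : Bool → ND Y.M lam) f β (h : D.Adm β)
  (h0 : ∀ x ∉ spO f (univ : Set (Y.M × ℝ)), β.Φ x.1 = 0) (e : PtX (Y.M × ℝ) (Option κ) lam 0 0 0) d,
  D.OK → ConnectedSpace Y.M → Aff (refZ T0 δ h h0) (Fs (famZ T0 D δ (spO f univ))) 0 0 0 (fun _ => e) →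
  (∀ o, CylOK (δ := δ) h h0 k (eZ (N o) D) ∧ ∀ c (x : Y.M × ℝ), 2 ≤ (bif o then 1 else -1 : ℝ) * x.2 →
    e.D c x = (eZ (N o) D).D c x ∧ e.C c x = (eZ (N o) D).C c x) →
  Inv (δ := δ) h h0 k e d → (zB D N).Ix (spO f univ) (cy β) k δ d

/-- LEAF IX-MIX: the gradings exist, and their change is the index of the mixed cylinder -/
def MixStmt : Prop := ∀ (Y : Mf 3) [CompactSpace Y.M] (D : YD Y.I Y.M κ lam) (H : Hd D)
  (N : Bool → ND Y.M lam) f β, H.OK → H.k = k → (∀ o, (XD.mk Y D (N o)).OK ∧ Gd (N o) D β) →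
  f = true ∨ D.Zr β → ∀ᶠ δ in 𝓝[>] (0 : ℝ), ∀ d, (zB D N).Ix (spO f univ) (cy β) k δ d →
    d = Classical.epsilon (H.Ix (N false) f β) - Classical.epsilon (H.Ix (N true) f β) + nz D f β

end Crest.Agent.X212.Crt72
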