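import Crest.Agent.X212.Crt72.Step
import Crest.Agent.X212.Sard93.Smale

/-!
# Row 212, CRIT (helper72): slices, lower bounds, local Sard on the range of a projector
-/

set_option autoImplicit false
set_option linter.unusedSectionVars false
noncomputable section
open Set Filter Topology Function Module
open scoped ContDiff

namespace Crest.Agent.X212.Crt72
open Fred93 Sard93

variable {C L H G Z Y P : Type*} [NormedAddCommGroup C] [NormedSpace ℝ C] [CompleteSpace C]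
  [NormedAddCommGroup L] [NormedSpace ℝ L] [CompleteSpace L]
  [NormedAddCommGroup H] [NormedSpace ℝ H] [CompleteSpace H]
  [NormedAddCommGroup G] [NormedSpace ℝ G] [CompleteSpace G]
  [NormedAddCommGroup Z] [NormedSpace ℝ Z] [CompleteSpace Z]
  [NormedAddCommGroup Y] [NormedSpace ℝ Y] [CompleteSpace Y]
  [NormedAddCommGroup P] [NormedSpace ℝ P] [CompleteSpace P]

/-- points near `0` can be moved into the slice -/
theorem slice {a : L × C → C} {d : L →L[ℝ] C} {σ : C →L[ℝ] H}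
    (ha : HasStrictFDerivAt a (d.coprod (ContinuousLinearMap.id ℝ C)) (0, 0)) (h0 : a (0, 0) = 0)
    (hb : Bijective (σ ∘L d)) {N : Set C} (hN : N ∈ 𝓝 (0 : C)) :
    ∀ᶠ v in 𝓝 (0 : C), ∃ ξ, a (ξ, v) ∈ N ∧ σ (a (ξ, v)) = 0 := by
  let θ' : L × C →L[ℝ] H × C :=
    (σ ∘L d.coprod (ContinuousLinearMap.id ℝ C)).prod (ContinuousLinearMap.snd ℝ L C)
  have hθ : Bijective θ' := by
    constructor
    · rw [injective_iff_map_eq_zero]
      rintro ⟨ξ, v⟩ h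
      obtain ⟨h1, h2⟩ := Prod.mk_eq_zero.1 h
      obtain rfl : v = 0 := h2
      have : ξ = 0 := hb.1 (by simpa using h1)
      simp [this]
    · rintro ⟨w, v⟩
      obtain ⟨ξ, hξ⟩ := hb.2 (w - σ v)
      exact ⟨(ξ, v), Prod.ext (by simpa [θ'] using eq_sub_iff_add_eq.1 hξ) rfl⟩
  let A := ContinuousLinearEquiv.ofBijective θ' (LinearMap.ker_eq_bot.2 hθ.1)
    (LinearMap.range_eq_top.2 hθ.2)
  have h1 : HasStrictFDerivAt (fun q : L × C => (σ (a q), q.2)) (A : L × C →L[ℝ] H × C) (0, 0) :=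
    (σ.hasStrictFDerivAt.comp (0, 0) ha).prodMk hasStrictFDerivAt_snd
  have h2 : a ⁻¹' N ∈ 𝓝 ((0, 0) : L × C) := ha.continuousAt.preimage_mem_nhds (h0.symm ▸ hN)
  have h3 := image_mem_map (m := fun q : L × C => (σ (a q), q.2)) h2
  rw [h1.map_nhds_eq_of_equiv, h0, map_zero] at h3
  filter_upwards [(Continuous.prodMk_right (0 : H)).continuousAt.preimage_mem_nhds h3] with v hv
  obtain ⟨⟨ξ, w⟩, h4, h5⟩ := hv
  obtain ⟨h6, rfl⟩ := Prod.mk.inj h5
  exact ⟨ξ, h4, h6⟩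

theorem cpt_fin {K : Type*} [NormedAddCommGroup K] [NormedSpace ℝ K] [FiniteDimensional ℝ K]
    (A : Z →L[ℝ] K) : IsCompactOperator A := isCompactOperator_of_locallyCompactSpace_dom A

theorem low_of_fr {T : Z →L[ℝ] Y} (hT : T.IsFredholm) (j : C →L[ℝ] Z) (hj : ∀ u, ‖u‖ ≤ ‖j u‖)
    (R : C →L[ℝ] G) (hi : ∀ u, T (j u) = 0 → R u = 0 → u = 0) :
    ∃ c > (0 : ℝ), ∀ u, ‖u‖ ≤ c * ‖((T ∘L j).prod R) u‖ := by
  obtain ⟨π, c, hc, -, h⟩ := exists_est hT
  have : FiniteDimensional ℝ T.ker := hT.finite_ker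
  refine Est.bound_of_inj (K := π ∘L j) (C := c) (fun u => (hj u).trans ((h _).trans ?_))
    (cpt_fin _) ((injective_iff_map_eq_zero _).2 fun u hu =>
      hi u (congrArg Prod.fst hu) (congrArg Prod.snd hu))
  exact mul_le_mul_of_nonneg_left
    (add_le_add (norm_fst_le (((T ∘L j).prod R) u)) le_rfl) hc.le

theorem ev_inj {A : C →L[ℝ] G} {c : ℝ} (hc : 0 < c) (h : ∀ u, ‖u‖ ≤ c * ‖A u‖) :
    ∀ᶠ A' in 𝓝 A, ∀ u, A' u = 0 → u = 0 := by
  filter_upwards [Metric.ball_mem_nhds A (inv_pos.2 hc)] with A' hA u hu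
  rw [mem_ball_iff_norm'] at hA
  by_contra hne
  have h1 : ‖A u‖ ≤ ‖A - A'‖ * ‖u‖ := by simpa [hu] using (A - A').le_opNorm u
  have h2 := norm_pos_iff.2 hne
  have h3 : c * ‖A - A'‖ < 1 := by rwa [← lt_inv_mul_iff₀ hc, mul_one]
  nlinarith [h u, mul_le_mul_of_nonneg_left h1 hc.le]

/-- isolation with parameters -/
theorem eq_of_low {Φ : C × P → Y} {Φ' : C × P →L[ℝ] Y} {p₀ : P}
    (h : HasStrictFDerivAt Φ Φ' (0, p₀)) (h0 : ∀ p, Φ (0, p) = 0) {R : C →L[ℝ] G} {c : ℝ}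
    (hc : 0 < c) (hl : ∀ u, ‖u‖ ≤ c * ‖(Φ' (u, 0), R u)‖) :
    ∀ᶠ z in 𝓝 ((0 : C), p₀), Φ z = 0 → R z.1 = 0 → z.1 = 0 := by
  have h1 := (h.isLittleO.def (show 0 < (2 * c)⁻¹ by positivity))
  have h2 : Tendsto (fun z : C × P => (z, ((0 : C), z.2))) (𝓝 (0, p₀)) (𝓝 ((0, p₀), (0, p₀))) :=
    Continuous.tendsto' (by fun_prop) _ _ rfl
  filter_upwards [h2.eventually h1] with z hz h3 h4
  have e : z - (0, z.2) = (z.1, 0) := by ext <;> simp
  rw [h3, h0, e, sub_self, zero_sub, norm_neg, Prod.norm_mk, norm_zero,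
    max_eq_left (norm_nonneg _)] at hz
  have h5 := hl z.1
  rw [h4, Prod.norm_mk, norm_zero, max_eq_left (norm_nonneg _)] at h5
  have h6 := mul_le_mul_of_nonneg_left hz hc.le
  have h7 : c * ((2 * c)⁻¹ * ‖z.1‖) = ‖z.1‖ / 2 := by field_simp
  exact norm_le_zero_iff.1 (by linarith)

/-- a symmetric operator of index zero -/
structure SY (B : Y →L[ℝ] Z →L[ℝ] ℝ) (ι T : Z →L[ℝ] Y) : Prop where
  symT : ∀ z z', B (T z) z' = B (T z') z
  symι : ∀ z z', B (ι z) z' = B (ι z') z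
  pos : ∀ z, B (ι z) z = 0 → z = 0
  fr : Fr T 0

/-- `∑ ⟨f i, ·⟩ f i` -/
def fk (B : Y →L[ℝ] Z →L[ℝ] ℝ) (ι : Z →L[ℝ] Y) {κ : Type} [Fintype κ] (f : κ → Z) : Z →L[ℝ] Y :=
  ∑ i, (B (ι (f i))).smulRight (ι (f i))

theorem fk_apply (B : Y →L[ℝ] Z →L[ℝ] ℝ) (ι : Z →L[ℝ] Y) {κ : Type} [Fintype κ] (f : κ → Z)
    (z : Z) : fk B ι f z = ι (∑ i, B (ι (f i)) z • f i) := by
  simp [fk, sum_apply, map_sum]

theorem cpt_smulRight (l : Z →L[ℝ] ℝ) (y : Y) : IsCompactOperator (l.smulRight y) :=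
  (cpt_fin l).clm_comp ((ContinuousLinearMap.id ℝ ℝ).smulRight y)

theorem cpt_sum {κ : Type*} (s : Finset κ) {A : κ → Z →L[ℝ] Y}
    (h : ∀ i ∈ s, IsCompactOperator (A i)) : IsCompactOperator (∑ i ∈ s, A i : Z →L[ℝ] Y) :=
  Finset.sum_induction A (fun T : Z →L[ℝ] Y => IsCompactOperator T) (fun _ _ ha hb => ha.add hb)
    isCompactOperator_zero h

theorem cpt_fk (B : Y →L[ℝ] Z →L[ℝ] ℝ) (ι : Z →L[ℝ] Y) {κ : Type} [Fintype κ] (f : κ → Z) :
    IsCompactOperator (fk B ι f) := cpt_sum _ fun _ _ => cpt_smulRight _ _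

namespace SY
variable {B : Y →L[ℝ] Z →L[ℝ] ℝ} {ι T : Z →L[ℝ] Y} (h : SY B ι T)
  {κ : Type} [Fintype κ] {f : κ → Z}
include h

theorem ker_of (hf : ∀ i, T (f i) = 0) {z : Z} (hz : ∀ i, B (T z + fk B ι f z) (f i) = 0) :
    ∀ i, B (ι (f i)) z = 0 := by
  set w := ∑ i, B (ι (f i)) z • f i with hw
  have h1 : ∀ i, B (ι w) (f i) = 0 := fun i => by
    have := hz i
    rwa [map_add, add_apply, h.symT, hf, map_zero, zero_apply, zero_add, fk_apply] at this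
  have h2 : w = 0 := h.pos _ (by
    conv_lhs => rw [hw, map_sum (B _)]
    simp only [map_smul, ← hw, h1, smul_zero, Finset.sum_const_zero])
  have h3 : ∑ i, B (ι (f i)) z * B (ι (f i)) z = B (ι w) z := by simp [hw, map_sum, sum_apply]
  rw [h2, map_zero, map_zero, zero_apply] at h3
  exact fun i => mul_self_eq_zero.1
    ((Finset.sum_eq_zero_iff_of_nonneg fun i _ => mul_self_nonneg _).1 h3 i (Finset.mem_univ i))

theorem bij (hf : ∀ i, T (f i) = 0) (hs : ∀ k, T k = 0 → k ∈ Submodule.span ℝ (range f)) :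
    Bijective (T + fk B ι f) := by
  have hi : Injective (T + fk B ι f) := (injective_iff_map_eq_zero _).2 fun z hz => by
    have h1 := h.ker_of hf (z := z) fun i => by rw [← add_apply, hz]; simp
    have h2 : T z = 0 := by simpa [fk_apply, h1] using hz
    obtain ⟨c, hc⟩ := (Submodule.mem_span_range_iff_exists_fun ℝ).1 (hs z h2)
    refine h.pos z ?_
    conv_lhs => rw [← hc, map_sum ι, map_sum B]
    simp [hc, sum_apply, h1]
  exact ⟨hi, (h.fr.add_compact (cpt_fk B ι f)).surj_of_inj hi⟩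

theorem exists_fam : ∃ (n : ℕ) (b : Fin n → Z), (∀ i, T (b i) = 0) ∧
    ∀ k, T k = 0 → k ∈ Submodule.span ℝ (range b) := by
  have : FiniteDimensional ℝ T.ker := h.fr.1.finite_ker
  refine ⟨_, fun i => Module.finBasis ℝ T.ker i, fun i => (Module.finBasis ℝ T.ker i).2,
    fun k hk => (Submodule.mem_span_range_iff_exists_fun ℝ).2
      ⟨(Module.finBasis ℝ T.ker).repr ⟨k, hk⟩, ?_⟩⟩
  simpa only [map_sum, map_smul, Submodule.subtype_apply] using
    congrArg T.ker.subtype ((Module.finBasis ℝ T.ker).sum_repr ⟨k, hk⟩)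

/-- the range is the annihilator of the kernel -/
theorem mem_range {y : Y} (hy : ∀ k, T k = 0 → B y k = 0) : ∃ z, T z = y := by
  obtain ⟨n, b, h1, h2⟩ := h.exists_fam
  obtain ⟨z, hz⟩ := (h.bij h1 h2).2 y
  have h3 := h.ker_of h1 (z := z) fun i => by rw [← add_apply, hz]; exact hy _ (h1 i)
  exact ⟨z, by simpa [fk_apply, h3] using hz⟩

end SY

/-- a projector which commutes with everything -/
structure PJ (B : Y →L[ℝ] Z →L[ℝ] ℝ) (ι T : Z →L[ℝ] Y) (π : Z →L[ℝ] Z) (π' : Y →L[ℝ] Y) :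
    Prop where
  pp : ∀ z, π (π z) = π z
  T : ∀ z, π' (T z) = T (π z)
  ι : ∀ z, π' (ι z) = ι (π z)
  B : ∀ y z, B (π' y) z = B y (π z)

/-- **Local Sard on the range of a projector.** -/
theorem sard_pj {B : Y →L[ℝ] Z →L[ℝ] ℝ} {ι T : Z →L[ℝ] Y} (h : SY B ι T) {π : Z →L[ℝ] Z}
    {π' : Y →L[ℝ] Y} (hp : PJ B ι T π π') (hp' : ∀ y, π' (π' y) = π' y) {Φ : Z × P → Y}
    (hΦ : ContDiff ℝ ∞ Φ) {p₀ : P} (h0 : Φ (0, p₀) = 0) (hT : dE Φ (0, p₀) = T)
    (hπ : ∀ p, π' (Φ (0, p)) = Φ (0, p))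
    (ho : ∀ k, T k = 0 → π k = k → (∀ c, B (fderiv ℝ Φ (0, p₀) (0, c)) k = 0) → k = 0) :
    ∃ N ∈ 𝓝 ((0 : Z), p₀), ∀ᶠ p in residual P, ∀ z, (z, p) ∈ N → π z = z → Φ (z, p) = 0 →
      ∀ n, π n = n → dE Φ (z, p) n = 0 → n = 0 := by
  obtain ⟨n, b, hb1, hb2⟩ := h.exists_fam
  have hTπ : ∀ k, T k = 0 → T (π k) = 0 := fun k hk => by rw [← hp.T, hk, map_zero]
  let f0 : Fin n → Z := fun i => π (b i)
  let f1 : Fin n → Z := fun i => b i - π (b i)
  let S := T + fk B ι f1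
  let ρ : Z →L[ℝ] Z := ContinuousLinearMap.id ℝ Z - π
  let m : Z × P →L[ℝ] Z × P := π.prodMap (ContinuousLinearMap.id ℝ P)
  let Ψ : Z × P → Y := fun z => Φ (m z) + (S ∘L ρ ∘L ContinuousLinearMap.fst ℝ Z P) z
  have hΨ : ContDiff ℝ ∞ Ψ := (hΦ.comp m.contDiff).add (ContinuousLinearMap.contDiff _)
  have hd : ∀ z, fderiv ℝ Ψ z =
      fderiv ℝ Φ (m z) ∘L m + S ∘L ρ ∘L ContinuousLinearMap.fst ℝ Z P := fun z =>
    (((hΦ.differentiable (by simp) _).hasFDerivAt.comp z m.hasFDerivAt).add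
      (ContinuousLinearMap.hasFDerivAt _)).fderiv
  have hm0 : m (0, p₀) = (0, p₀) := by simp [m]
  have hsp : ∀ z c, fderiv ℝ Φ (0, p₀) (z, c) = T z + fderiv ℝ Φ (0, p₀) (0, c) := fun z c => by
    rw [← hT, dE_apply, ← map_add]; simp
  have hF : Fr (dE Ψ (0, p₀)) 0 :=
    (h.fr.add_compact (T := fk B ι f1 ∘L ρ) ((cpt_fk B ι f1).comp_clm ρ)).congr fun z => by
      rw [dE_apply, hd, hm0]
      simp [m, S, ρ, hsp (π z), Prod.mk_zero_zero]
      abel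
  have hD : ∀ c, π' (fderiv ℝ Φ (0, p₀) (0, c)) = fderiv ℝ Φ (0, p₀) (0, c) := fun c => by
    have h1 : HasFDerivAt (fun p => Φ (0, p)) (fderiv ℝ Φ (0, p₀) ∘L ContinuousLinearMap.inr ℝ Z P)
        p₀ := (hΦ.differentiable (by simp) _).hasFDerivAt.comp p₀ (hasFDerivAt_prodMk_right 0 p₀)
    have h2 := (π'.hasFDerivAt.comp p₀ h1).unique (h1.congr_of_eventuallyEq (.of_forall hπ))
    exact congrArg (fun A : P →L[ℝ] Y => A c) h2
  have hS : Surjective (fderiv ℝ Ψ (0, p₀)) := by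
    intro y
    have hbij := h.bij (f := Sum.elim f0 f1) (by
      rintro (i | i)
      · exact hTπ _ (hb1 i)
      · simp [f1, hb1, hTπ _ (hb1 i)]) fun k hk => Submodule.span_le.2 (by
        rintro _ ⟨i, rfl⟩
        have : b i = Sum.elim f0 f1 (.inl i) + Sum.elim f0 f1 (.inr i) := by simp [f0, f1]
        rw [this]
        exact add_mem (Submodule.subset_span ⟨_, rfl⟩) (Submodule.subset_span ⟨_, rfl⟩)) (hb2 k hk)
    have e : ∀ z, (T + fk B ι (Sum.elim f0 f1)) z = S z + fk B ι f0 z := fun z => by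
      simp [S, fk, Fintype.sum_sum_type]; abel
    have a0 : ∀ i z, B (ι (f0 i)) z = B (ι (f0 i)) (π z) := fun i z => by
      rw [← hp.B, hp.ι, hp.pp]
    have a1 : ∀ i z, B (ι (f1 i)) (π z) = 0 := fun i z => by
      rw [← hp.B, hp.ι]; simp [f1, hp.pp]
    obtain ⟨z1, hz1⟩ := hbij.2 (y - π' y)
    have h1 : π z1 = 0 := hbij.1 (by
      have h2 := congrArg π' hz1
      rw [map_sub, hp', sub_self] at h2
      rw [map_zero, ← h2, e, e]
      simp only [S, add_apply, map_add, fk_apply, hp.T, hp.ι, map_sum π, map_smul, a1, ← a0]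
      simp [f0, f1, hp.pp])
    have h2 : S z1 = y - π' y := by
      rw [← hz1, e, fk_apply]
      simp [fun i => a0 i z1, h1]
    have : FiniteDimensional ℝ T.ker := h.fr.1.finite_ker
    let N0 : Submodule ℝ Z := T.ker ⊓ ρ.ker
    have : FiniteDimensional ℝ N0 := Submodule.finiteDimensional_of_le inf_le_left
    let r : Y →ₗ[ℝ] Dual ℝ N0 := N0.subtype.dualMap ∘ₗ
      ContinuousLinearMap.coeLM ℝ ∘ₗ (B : Y →ₗ[ℝ] Z →L[ℝ] ℝ)
    let Λ : P →ₗ[ℝ] Dual ℝ N0 :=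
      r ∘ₗ (fderiv ℝ Φ (0, p₀) ∘L ContinuousLinearMap.inr ℝ Z P : P →L[ℝ] Y)
    have h3 : Λ.range = ⊤ := by
      rw [← Subspace.dualCoannihilator_dualAnnihilator_eq (W := Λ.range), eq_top_iff,
        ← Submodule.dualAnnihilator_bot]
      refine Submodule.dualAnnihilator_anti fun k hk => Subtype.ext ?_
      exact ho k k.2.1 (sub_eq_zero.1 k.2.2).symm fun c =>
        (Submodule.mem_dualCoannihilator _).1 hk _ ⟨c, rfl⟩
    obtain ⟨c, hc⟩ := LinearMap.range_eq_top.1 h3 (r (π' y))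
    obtain ⟨z0, hz0⟩ := h.mem_range (y := π' y - fderiv ℝ Φ (0, p₀) (0, c)) fun k hk => by
      have h4 := LinearMap.congr_fun hc ⟨π k, hTπ k hk, sub_eq_zero.2 (hp.pp k).symm⟩
      rw [← hp', ← hD, ← map_sub, hp.B, map_sub, sub_apply, sub_eq_zero]
      exact h4.symm
    have h5 : T (π z0) = π' y - fderiv ℝ Φ (0, p₀) (0, c) := by rw [← hp.T, hz0, map_sub, hp', hD]
    refine ⟨(π z0 + z1, c), ?_⟩
    rw [hd, hm0]
    simp [m, ρ, hsp (π z0), hp.pp, h1, h2, h5]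
  obtain ⟨N, hN, hres⟩ := param_loc isOpen_univ hΨ.contDiffOn (mem_univ (0, p₀))
    (by simp [Ψ, hm0, h0]) hF.1 hS
  have hc : Continuous (dE Ψ) := (hΨ.continuous_fderiv (by simp)).clm_comp continuous_const
  refine ⟨_, inter_mem hN (hc.continuousAt.eventually hF.eventually), ?_⟩
  filter_upwards [hres] with p hp1 z hz h1 h2 k h3 h4
  have hm : m (z, p) = (z, p) := by simp [m, h1]
  refine (Fr.inj_of_surj hz.2 (hp1 z hz.1 (by simp [Ψ, hm, h2, ρ, h1]))) ?_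
  rw [map_zero, dE_apply, hd, hm]
  simpa [m, ρ, h3, dE_apply] using h4

end Crest.Agent.X212.Crt72
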