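import Crest.Agent.X212.Crt72.Props

/-!
# Row 212, CRIT (helper72): two more leaves (masses at finitely many points; all axioms)
-/

set_option autoImplicit false
set_option linter.unusedSectionVars false
noncomputable section
open scoped Manifold ContDiff Topology InnerProductSpace
open MeasureTheory Set Function Filter

namespace Crest.Agent.X212.Crt72
open An Cyf70 Dgr80 Nd18

section
variable {ι : Type} {X₁ X₀ : ι → Type} [∀ m, NormedAddCommGroup (X₁ m)] [∀ m, NormedSpace ℝ (X₁ m)]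
  [∀ m, CompleteSpace (X₁ m)] [∀ m, NormedAddCommGroup (X₀ m)] [∀ m, InnerProductSpace ℝ (X₀ m)]
  [∀ m, CompleteSpace (X₀ m)]

/-- masses `𝒲` at finitely many points, which approximate the rank one masses `rk J ψ`, `ψ ∈ Ψ` -/
structure MsH (i L : ∀ m, X₁ m →L[ℝ] X₀ m)
    (sf : ∀ m, (X₀ m →L[ℝ] X₀ m) → (X₀ m →L[ℝ] X₀ m) → ℤ) (J₁ : ∀ m, X₁ m →L[ℝ] X₁ m)
    (J : ∀ m, X₀ m →L[ℝ] X₀ m) (𝒲 : Submodule ℝ (∀ m, X₀ m →L[ℝ] X₀ m)) (Ψ : ∀ m, Set (X₀ m)) :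
    Prop where
  sf : ∀ m, SF (i m) (L m) (symA _) (sf m)
  iJ : ∀ m u, i m (J₁ m u) = J m (i m u)
  LJ : ∀ m u, L m (J₁ m u) = J m (L m u)
  skew : ∀ m x y, ⟪J m x, y⟫_ℝ = -⟪x, J m y⟫_ℝ
  sym : ∀ K ∈ 𝒲, ∀ m, K m ∈ symA (X₀ m) ∧ ∀ x, K m (J m x) = J m (K m x)
  nrm : ∀ m, ∀ ψ ∈ Ψ m, J m (J m ψ) = -ψ
  app : ∀ m, ∀ ψ ∈ Ψ m, ∀ δ > (0 : ℝ), ∃ K ∈ 𝒲, ‖K m - rk (J m) ψ‖ ≤ δ ∧ ∀ m', m' ≠ m → ‖K m'‖ ≤ δ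
  sgn : ∀ m (ε : ℝ), ε = 1 ∨ ε = -1 → ∀ R : ℝ, ∃ ψ ∈ Ψ m, ∃ v,
    R * (‖L m v - ψ‖ ^ 2 + ‖i m v‖ ^ 2) < ε * ⟪i m v, ψ⟫_ℝ

end

/-- MASS -/
def MsStmt : Prop := ∀ (ι : Type) [Fintype ι] (X₁ X₀ : ι → Type) [∀ m, NormedAddCommGroup (X₁ m)]
  [∀ m, NormedSpace ℝ (X₁ m)] [∀ m, CompleteSpace (X₁ m)] [∀ m, NormedAddCommGroup (X₀ m)]
  [∀ m, InnerProductSpace ℝ (X₀ m)] [∀ m, CompleteSpace (X₀ m)] (i L : ∀ m, X₁ m →L[ℝ] X₀ m)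
  (sf : ∀ m, (X₀ m →L[ℝ] X₀ m) → (X₀ m →L[ℝ] X₀ m) → ℤ) (J₁ : ∀ m, X₁ m →L[ℝ] X₁ m)
  (J : ∀ m, X₀ m →L[ℝ] X₀ m) (𝒲 : Submodule ℝ (∀ m, X₀ m →L[ℝ] X₀ m)) (Ψ : ∀ m, Set (X₀ m)),
  MsH i L sf J₁ J 𝒲 Ψ → ∀ a : ∀ m, X₀ m →L[ℝ] X₀ m, (∀ m, a m ∈ symA (X₀ m)) →
  ((∀ m k, Op (i m) (L m) (a m) k = 0 →
      (∀ ψ ∈ Ψ m, ⟪ψ, i m k⟫_ℝ = 0 ∧ ⟪J m ψ, i m k⟫_ℝ = 0) → k = 0) →
    ∃ K ∈ 𝒲, ∀ m, Bijective (Op (i m) (L m) (a m + K m))) ∧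
  ((∀ m x, a m (J m x) = J m (a m x)) → (∀ m, Bijective (Op (i m) (L m) (a m))) → ∀ n : ι → ℤ,
    ∃ K ∈ 𝒲, ∀ m, Bijective (Op (i m) (L m) (a m + K m)) ∧ sf m (a m) (a m + K m) = 2 * n m)

variable {E3 : Type} [NormedAddCommGroup E3] [NormedSpace ℝ E3] [FiniteDimensional ℝ E3]
  [MeasurableSpace E3] [BorelSpace E3]
  {H3 : Type} [TopologicalSpace H3] {I3 : ModelWithCorners ℝ E3 H3} [I3.Boundaryless]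
  {Y : Type} [TopologicalSpace Y] [ChartedSpace H3 Y] [IsManifold I3 ∞ Y] [T2Space Y]
  [MeasurableSpace Y] [BorelSpace Y] [SecondCountableTopology Y] [CompactSpace Y]
  {κ : Type} [Fintype κ] {lam : Type} [Fintype lam] (D : YD I3 Y κ lam)

/-- AX: the three axioms which are stated on `Y` -/
def AxStmt : Prop := HY D → AdmV D → Op3 D → (∀ j, Sm1 D j) → (∀ j, Lift D j) → CptStmt D →
  DerStmt D → SepStmt D → DerIStmt D → ∀ k, 7 ≤ k → ∀ act sf,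
    (gm D k act sf).AxCp ∧ (gm D k act sf).AxDr ∧ (gm D k act sf).AxDI

end Crest.Agent.X212.Crt72
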