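import Crest.Agent.X212.Fred93.Cpt

/-! Masses with a prescribed spectral flow (format free).  `L : X₁ → X₀` is symmetric, Fredholm
of index `0`; `sf` is any function with the three properties of the spectral flow. -/

set_option autoImplicit false
set_option linter.unusedSectionVars false

noncomputable section

namespace Crest.Agent.X212.Crt72

open Set Filter Topology Function Module
open scoped InnerProductSpace
open Fred93 (Fr)

variable {X₁ X₀ : Type*} [NormedAddCommGroup X₁] [NormedSpace ℝ X₁] [CompleteSpace X₁]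
  [NormedAddCommGroup X₀] [InnerProductSpace ℝ X₀] [CompleteSpace X₀]

/-- `P` is the orthogonal projector onto `i K`. -/
structure IsPj (i : X₁ →L[ℝ] X₀) (K : Submodule ℝ X₁) (P : X₀ →L[ℝ] X₀) : Prop where
  symm : ∀ x y, ⟪P x, y⟫_ℝ = ⟪x, P y⟫_ℝ
  fix : ∀ k ∈ K, P (i k) = i k
  mem : ∀ x, ∃ k ∈ K, P x = i k

theorem exists_isPj (i : X₁ →L[ℝ] X₀) (K : Submodule ℝ X₁) [FiniteDimensional ℝ K] :
    ∃ P, IsPj i K P := by
  have : CompleteSpace (K.map (i : X₁ →ₗ[ℝ] X₀)) := FiniteDimensional.complete ℝ _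
  refine ⟨(K.map (i : X₁ →ₗ[ℝ] X₀)).starProjection, fun x y =>
    Submodule.inner_starProjection_left_eq_right _ x y, fun k hk =>
    Submodule.starProjection_eq_self_iff.2 ⟨k, hk, rfl⟩, fun x => ?_⟩
  obtain ⟨k, hk, h⟩ := (K.map (i : X₁ →ₗ[ℝ] X₀)).starProjection_apply_mem x
  exact ⟨k, hk, h.symm⟩

theorem isOpen_bij {E F : Type*} [NormedAddCommGroup E] [NormedSpace ℝ E] [CompleteSpace E]
    [NormedAddCommGroup F] [NormedSpace ℝ F] [CompleteSpace F] :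
    IsOpen {T : E →L[ℝ] F | Bijective T} := by
  convert ContinuousLinearEquiv.isOpen (𝕜 := ℝ) (E := E) (F := F) using 1
  ext T
  constructor
  · intro h
    exact ⟨ContinuousLinearEquiv.ofBijective T (LinearMap.ker_eq_bot.2 h.1)
      (LinearMap.range_eq_top.2 h.2), rfl⟩
  · rintro ⟨e, rfl⟩
    exact e.bijective

/-- first order perturbation of a symmetric Fredholm operator. -/
theorem pert {i T : X₁ →L[ℝ] X₀} (hi : IsCompactOperator i) (hT : Fr T 0)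
    (hs : ∀ u v, ⟪T u, i v⟫_ℝ = ⟪i u, T v⟫_ℝ) {c : ℝ → X₀ →L[ℝ] X₀} (hc : Continuous c)
    (hn : ∀ s ∈ Icc (0 : ℝ) 1, ∀ k, T k = 0 → (∀ k', T k' = 0 → ⟪c s (i k), i k'⟫_ℝ = 0) → k = 0) :
    ∀ᶠ ε in 𝓝[≠] (0 : ℝ), ∀ s ∈ Icc (0 : ℝ) 1, Bijective (T + (ε • c s).comp i) := by
  have := hT.1.finite_ker
  obtain ⟨π, hπ⟩ := Submodule.ClosedComplemented.of_finiteDimensional T.ker
  let Q : X₁ →L[ℝ] X₁ := T.ker.subtypeL.comp π
  have hQ : ∀ u, T (Q u) = 0 := fun u => (π u).2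
  have hQk : ∀ u, T u = 0 → Q u = u := fun u hu => congrArg Subtype.val (hπ ⟨u, hu⟩)
  let S : ℝ → ℝ → X₁ →L[ℝ] X₀ := fun ε s =>
    T + (c s).comp (i.comp Q) + ε • (c s).comp (i.comp (1 - Q))
  have hS : Continuous fun z : ℝ × ℝ => S z.1 z.2 := by
    have := hc.comp (continuous_snd (X := ℝ) (Y := ℝ))
    exact (continuous_const.add (this.clm_comp continuous_const)).add
      (continuous_fst.smul (this.clm_comp continuous_const))
  have h0 : ∀ s ∈ Icc (0 : ℝ) 1, Bijective (S 0 s) := fun s hs' => by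
    have e : S 0 s = T + (c s).comp (i.comp Q) := by simp [S]
    have hinj : Injective (T + (c s).comp (i.comp Q)) := by
      rw [injective_iff_map_eq_zero]
      intro u hu
      have hu' : T u + c s (i (Q u)) = 0 := hu
      have h1 : Q u = 0 := hn s hs' _ (hQ u) fun k' hk' => by
        have := congrArg (fun y => ⟪y, i k'⟫_ℝ) hu'
        simpa [inner_add_left, hs, hk'] using this
      rw [h1, map_zero, map_zero, add_zero] at hu'
      rw [← hQk u hu', h1]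
    rw [e]
    exact ⟨hinj, (hT.add_compact ((hi.comp_clm Q).clm_comp (c s))).surj_of_inj hinj⟩
  have h1 : ∀ᶠ ε in 𝓝 (0 : ℝ), ∀ s ∈ Icc (0 : ℝ) 1, Bijective (S ε s) :=
    isCompact_Icc.eventually_forall_of_forall_eventually fun s hs' =>
      (hS.continuousAt (x := (0, s))).eventually (isOpen_bij.mem_nhds (h0 s hs'))
  filter_upwards [nhdsWithin_le_nhds h1, self_mem_nhdsWithin] with ε h hε s hs'
  have hinj : Injective (T + (ε • c s).comp i) := by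
    rw [injective_iff_map_eq_zero]
    intro u hu
    have hu' : T u + ε • c s (i u) = 0 := hu
    have hQQ : Q (Q u) = Q u := hQk _ (hQ u)
    have h2 : S ε s (u - Q u + ε • Q u) = 0 := by
      rw [← hu']
      simp only [S, add_apply, ContinuousLinearMap.comp_apply, smul_apply, sub_apply,
        one_apply_eq_self, map_add, map_sub, map_smul, hQQ, hQ]
      module
    have h3 := (injective_iff_map_eq_zero _).1 (h s hs').1 _ h2
    have h4 := congrArg Q h3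
    rw [map_add, map_sub, map_smul, hQQ, sub_self, zero_add, map_zero] at h4
    have h5 : Q u = 0 := (smul_eq_zero.1 h4).resolve_left hε
    simpa [h5] using h3
  exact ⟨hinj, (hT.add_compact (hi.clm_comp (ε • c s))).surj_of_inj hinj⟩

/-- a symmetric form that is positive on `K₁`, negative on `K₂` is nondegenerate on `K₁ + K₂`. -/
theorem nondeg {i : X₁ →L[ℝ] X₀} {c : X₀ →L[ℝ] X₀} (hc : ∀ x y, ⟪c x, y⟫_ℝ = ⟪x, c y⟫_ℝ)
    {K₁ K₂ : Submodule ℝ X₁} (h1 : ∀ k ∈ K₁, k ≠ 0 → 0 < ⟪c (i k), i k⟫_ℝ)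
    (h2 : ∀ k ∈ K₂, k ≠ 0 → ⟪c (i k), i k⟫_ℝ < 0) {k : X₁} (hk : k ∈ K₁ ⊔ K₂)
    (h : ∀ k' ∈ K₁ ⊔ K₂, ⟪c (i k), i k'⟫_ℝ = 0) : k = 0 := by
  obtain ⟨p, hp, q, hq, rfl⟩ := Submodule.mem_sup.1 hk
  have a1 := h p (Submodule.mem_sup_left hp)
  have a2 := h q (Submodule.mem_sup_right hq)
  simp only [map_add, inner_add_left] at a1 a2
  have a3 : ⟪c (i q), i p⟫_ℝ = ⟪c (i p), i q⟫_ℝ := by rw [hc, real_inner_comm]
  by_cases hp0 : p = 0
  · by_cases hq0 : q = 0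
    · rw [hp0, hq0, add_zero]
    · have := h2 q hq hq0
      simp only [hp0, map_zero, inner_zero_left, zero_add] at a2
      linarith
  · have b1 := h1 p hp hp0
    by_cases hq0 : q = 0
    · simp only [hq0, map_zero, inner_zero_left, add_zero] at a1
      linarith
    · have := h2 q hq hq0
      linarith

/-- the operator `L + a`. -/
def Op (i L : X₁ →L[ℝ] X₀) (a : X₀ →L[ℝ] X₀) : X₁ →L[ℝ] X₀ := L + a.comp i

theorem Op_apply (i L : X₁ →L[ℝ] X₀) (a : X₀ →L[ℝ] X₀) (u : X₁) : Op i L a u = L u + a (i u) := rfl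

theorem Op_add (i L : X₁ →L[ℝ] X₀) (a b : X₀ →L[ℝ] X₀) : Op i L (a + b) = Op i L a + b.comp i := by
  ext u; simp [Op_apply, add_assoc]

/-- The properties of the spectral flow `sf a b` from `L + a` to `L + b`, `a b ∈ A`. -/
structure SF (i L : X₁ →L[ℝ] X₀) (A : Submodule ℝ (X₀ →L[ℝ] X₀))
    (sf : (X₀ →L[ℝ] X₀) → (X₀ →L[ℝ] X₀) → ℤ) : Prop where
  inj : Injective i
  cpt : IsCompactOperator i
  sym : ∀ u v, ⟪L u, i v⟫_ℝ = ⟪i u, L v⟫_ℝ
  fr : Fr L 0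
  symA : ∀ a ∈ A, ∀ x y, ⟪a x, y⟫_ℝ = ⟪x, a y⟫_ℝ
  pj : ∀ a ∈ A, ∀ K ≤ (Op i L a).ker, ∀ P, IsPj i K P → P ∈ A
  add : ∀ a ∈ A, ∀ b ∈ A, ∀ c ∈ A, Bijective (Op i L a) → Bijective (Op i L b) →
    Bijective (Op i L c) → sf a b + sf b c = sf a c
  hom : ∀ a ∈ A, ∀ b ∈ A, (∀ s ∈ Icc (0 : ℝ) 1, Bijective (Op i L (a + s • (b - a)))) → sf a b = 0
  flip : ∀ a ∈ A, ∀ (K : Submodule ℝ X₁) (P : X₀ →L[ℝ] X₀) (ε : ℝ), 0 < ε → P ∈ A → IsPj i K P →
    FiniteDimensional ℝ K → (∀ k ∈ K, Op i L a k = -ε • i k) → Bijective (Op i L a) →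
    Bijective (Op i L (a + (2 * ε) • P)) → sf a (a + (2 * ε) • P) = finrank ℝ K

namespace SF

variable {i L : X₁ →L[ℝ] X₀} {A : Submodule ℝ (X₀ →L[ℝ] X₀)}
  {sf : (X₀ →L[ℝ] X₀) → (X₀ →L[ℝ] X₀) → ℤ} (H : SF i L A sf)
include H

theorem frOp (a : X₀ →L[ℝ] X₀) : Fr (Op i L a) 0 := H.fr.add_compact (H.cpt.clm_comp a)

theorem bij_of_inj {a : X₀ →L[ℝ] X₀} (h : ∀ u, Op i L a u = 0 → u = 0) : Bijective (Op i L a) :=
  have h' := (injective_iff_map_eq_zero _).2 h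
  ⟨h', (H.frOp a).surj_of_inj h'⟩

theorem symOp {a : X₀ →L[ℝ] X₀} (ha : a ∈ A) (u v : X₁) :
    ⟪Op i L a u, i v⟫_ℝ = ⟪i u, Op i L a v⟫_ℝ := by
  rw [Op_apply, Op_apply, inner_add_left, inner_add_right, H.sym, H.symA a ha]

theorem self {a : X₀ →L[ℝ] X₀} (ha : a ∈ A) (h : Bijective (Op i L a)) : sf a a = 0 :=
  H.hom a ha a ha fun s _ => by simpa using h

theorem anti {a b : X₀ →L[ℝ] X₀} (ha : a ∈ A) (hb : b ∈ A) (h : Bijective (Op i L a))
    (h' : Bijective (Op i L b)) : sf b a = -sf a b := by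
  have := H.add a ha b hb a ha h h' h
  rw [H.self ha h] at this
  omega

/-- **Crossing formula.** -/
theorem cross {a c P : X₀ →L[ℝ] X₀} (ha : a ∈ A) (hc : c ∈ A) (hP : IsPj i (Op i L a).ker P)
    {K₁ K₂ : Submodule ℝ X₁} (hK : K₁ ⊔ K₂ = (Op i L a).ker)
    (ho : ∀ p ∈ K₁, ∀ q ∈ K₂, ⟪i p, i q⟫_ℝ = 0)
    (h1 : ∀ k ∈ K₁, k ≠ 0 → 0 < ⟪c (i k), i k⟫_ℝ) (h2 : ∀ k ∈ K₂, k ≠ 0 → ⟪c (i k), i k⟫_ℝ < 0) :
    ∀ᶠ ε in 𝓝[>] (0 : ℝ), Bijective (Op i L (a + ε • c)) ∧ Bijective (Op i L (a - ε • P)) ∧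
      sf (a - ε • P) (a + ε • c) = finrank ℝ K₁ := by
  have hfin := (H.frOp a).1.finite_ker
  have hK1 : K₁ ≤ (Op i L a).ker := hK ▸ le_sup_left
  have hK2 : K₂ ≤ (Op i L a).ker := hK ▸ le_sup_right
  have hf1 : FiniteDimensional ℝ K₁ := Submodule.finiteDimensional_of_le hK1
  obtain ⟨P₁, hP₁⟩ := exists_isPj i K₁
  have hPA := H.pj a ha _ le_rfl P hP
  have hP₁A := H.pj a ha _ hK1 P₁ hP₁
  have hpos : ∀ k : X₁, k ≠ 0 → 0 < ⟪i k, i k⟫_ℝ := fun k hk =>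
    real_inner_self_pos.2 fun h => hk (H.inj (h.trans (map_zero i).symm))
  let q : X₀ →L[ℝ] X₀ := (2 : ℝ) • P₁ - P
  have hqA : q ∈ A := A.sub_mem (A.smul_mem _ hP₁A) hPA
  have q1 : ∀ k ∈ K₁, q (i k) = i k := fun k hk => by
    simp only [q, sub_apply, smul_apply, hP₁.fix k hk, hP.fix k (hK1 hk)]; module
  have q2 : ∀ k ∈ K₂, q (i k) = -i k := fun k hk => by
    have : P₁ (i k) = 0 := by
      refine ext_inner_right ℝ fun y => ?_
      obtain ⟨p, hp, e⟩ := hP₁.mem y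
      rw [hP₁.symm, e, real_inner_comm, ho p hp k hk, inner_zero_left]
    simp only [q, sub_apply, smul_apply, this, hP.fix k (hK2 hk)]; module
  have e1 := pert H.cpt (H.frOp a) (H.symOp ha) (c := fun s => q + s • (c - q)) (by fun_prop)
    fun s hs k hk h => by
      refine nondeg (H.symA _ (A.add_mem hqA (A.smul_mem s (A.sub_mem hc hqA)))) (K₁ := K₁)
        (K₂ := K₂) (fun k hk h0 => ?_) (fun k hk h0 => ?_) (hK ▸ hk) fun k' hk' => h k' (hK ▸ hk' :)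
      · have a1 := h1 k hk h0
        have a2 := hpos k h0
        simp only [add_apply, smul_apply, sub_apply, q1 k hk, inner_add_left, inner_sub_left,
          real_inner_smul_left]
        rcases eq_or_lt_of_le hs.1 with rfl | h
        · simpa using a2
        · nlinarith [mul_pos h a1, mul_nonneg (sub_nonneg.2 hs.2) a2.le]
      · have a1 := h2 k hk h0
        have a2 := hpos k h0
        simp only [add_apply, smul_apply, sub_apply, q2 k hk, inner_add_left, inner_sub_left,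
          real_inner_smul_left, inner_neg_left]
        rcases eq_or_lt_of_le hs.1 with rfl | h
        · simpa using a2
        · nlinarith [mul_pos h (neg_pos.2 a1), mul_nonneg (sub_nonneg.2 hs.2) a2.le]
  have e2 := pert H.cpt (H.frOp a) (H.symOp ha) (c := fun _ => -P) continuous_const
    fun s _ k hk h => by
      by_contra h0
      have := h k hk
      rw [neg_apply, hP.fix k hk, inner_neg_left, neg_eq_zero] at this
      exact (hpos k h0).ne' this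
  filter_upwards [nhdsGT_le_nhdsNE _ e1, nhdsGT_le_nhdsNE _ e2, self_mem_nhdsWithin] with ε h h' hε
  have b1 : Bijective (Op i L (a - ε • P)) := by
    have := h' 0 ⟨le_rfl, zero_le_one⟩
    rwa [← Op_add, smul_neg, ← sub_eq_add_neg] at this
  have b2 : ∀ s ∈ Icc (0 : ℝ) 1,
      Bijective (Op i L (a + ε • q + s • (a + ε • c - (a + ε • q)))) := fun s hs => by
    have := h s hs
    rw [← Op_add] at this
    convert this using 3
    module
  have b3 : Bijective (Op i L (a + ε • q)) := by simpa using b2 0 ⟨le_rfl, zero_le_one⟩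
  have b4 : Bijective (Op i L (a + ε • c)) := by simpa using b2 1 ⟨zero_le_one, le_rfl⟩
  have m1 := A.sub_mem ha (A.smul_mem ε hPA)
  have m2 := A.add_mem ha (A.smul_mem ε hqA)
  have m3 := A.add_mem ha (A.smul_mem ε hc)
  have e : a - ε • P + (2 * ε) • P₁ = a + ε • q := by simp only [q]; module
  have f1 := H.flip _ m1 K₁ P₁ ε hε hP₁A hP₁ hf1 (fun k hk => by
    have : Op i L a k = 0 := hK1 hk
    rw [sub_eq_add_neg, Op_add, add_apply, this]
    simp [hP.fix k (hK1 hk)]) b1 (e ▸ b3)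
  rw [e] at f1
  refine ⟨b4, b1, ?_⟩
  rw [← H.add _ m1 _ m2 _ m3 b1 b3 b4, f1, H.hom _ m2 _ m3 b2, add_zero]

/-- one step through the first crossing in the direction `σ b`, `σ = ± 1`. -/
theorem step {a b c : X₀ →L[ℝ] X₀} (ha : a ∈ A) (hb : b ∈ A) (hc : c ∈ A) {τ σ : ℝ} (hτ : 0 < τ)
    (hσ : σ = 1 ∨ σ = -1) (hinv : ∀ t ∈ Ico 0 τ, Bijective (Op i L (a + (σ * t) • b)))
    (hbp : ∀ k ∈ (Op i L (a + (σ * τ) • b)).ker, k ≠ 0 → 0 < ⟪b (i k), i k⟫_ℝ)
    {K₁ K₂ : Submodule ℝ X₁} (hK : K₁ ⊔ K₂ = (Op i L (a + (σ * τ) • b)).ker)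
    (ho : ∀ p ∈ K₁, ∀ q ∈ K₂, ⟪i p, i q⟫_ℝ = 0)
    (h1 : ∀ k ∈ K₁, k ≠ 0 → 0 < ⟪c (i k), i k⟫_ℝ) (h2 : ∀ k ∈ K₂, k ≠ 0 → ⟪c (i k), i k⟫_ℝ < 0) :
    ∃ ε > (0 : ℝ), Bijective (Op i L (a + (σ * τ) • b + ε • c)) ∧
      sf a (a + (σ * τ) • b + ε • c) = if σ = 1 then (finrank ℝ K₁ : ℤ) else -finrank ℝ K₂ := by
  set a' := a + (σ * τ) • b with ha'
  have ha'A : a' ∈ A := A.add_mem ha (A.smul_mem _ hb)
  have hfin := (H.frOp a').1.finite_ker
  obtain ⟨P, hP⟩ := exists_isPj i (Op i L a').ker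
  have hPA := H.pj a' ha'A _ le_rfl P hP
  have e1 := H.cross ha'A hc hP hK ho h1 h2
  have e2 : ∀ᶠ ε in 𝓝[>] (0 : ℝ), Bijective (Op i L (a' + ε • (-σ • b))) ∧
      sf (a' - ε • P) (a' + ε • (-σ • b)) =
        if σ = 1 then 0 else (finrank ℝ (Op i L a').ker : ℤ) := by
    rcases hσ with rfl | rfl
    · filter_upwards [H.cross ha'A (A.smul_mem (-1) hb) hP (K₁ := ⊥) (bot_sup_eq _) (by simp)
        (by simp) (fun k hk h0 => by simpa using hbp k hk h0)] with ε h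
      exact ⟨h.1, by simpa using h.2.2⟩
    · filter_upwards [H.cross ha'A (A.smul_mem (- -1) hb) hP (K₂ := ⊥) (sup_bot_eq _) (by simp)
        (fun k hk h0 => by simpa using hbp k hk h0) (by simp)] with ε h
      exact ⟨h.1, by rw [if_neg (by norm_num)]; exact h.2.2⟩
  obtain ⟨ε, ⟨⟨b1, b2, f1⟩, b3, f2⟩, hε, hετ⟩ := ((e1.and e2).and (Ioo_mem_nhdsGT hτ)).exists
  refine ⟨ε, hε, b1, ?_⟩
  have m1 := A.sub_mem ha'A (A.smul_mem ε hPA)
  have m2 := A.add_mem ha'A (A.smul_mem ε (A.smul_mem (-σ) hb))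
  have m3 := A.add_mem ha'A (A.smul_mem ε hc)
  have b0 : Bijective (Op i L a) := by simpa using hinv 0 ⟨le_rfl, hτ⟩
  have f0 : sf a (a' + ε • (-σ • b)) = 0 := H.hom _ ha _ m2 fun s hs => by
    have := hinv (s * (τ - ε)) ⟨mul_nonneg hs.1 (by linarith), by nlinarith [hs.1, hs.2]⟩
    convert this using 3
    rw [ha']; module
  have g1 := H.add _ ha _ m2 _ m3 b0 b3 b1
  have g2 := H.add _ m1 _ m2 _ m3 b2 b3 b1
  have hd : Disjoint K₁ K₂ := Submodule.disjoint_def.2 fun k p q =>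
    H.inj ((inner_self_eq_zero.1 (ho k p k q)).trans (map_zero i).symm)
  have hf1 : FiniteDimensional ℝ K₁ := Submodule.finiteDimensional_of_le (hK ▸ le_sup_left)
  have hf2 : FiniteDimensional ℝ K₂ := Submodule.finiteDimensional_of_le (hK ▸ le_sup_right)
  have hr := Submodule.finrank_sup_add_finrank_inf_eq K₁ K₂
  rw [hK, hd.eq_bot, finrank_bot] at hr
  split_ifs at f2 ⊢ <;> omega

/-- all multiples of `r` are reached by steps `± r`. -/
theorem reach {W : Set (X₀ →L[ℝ] X₀)} (hW : W ⊆ A) {r : ℤ}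
    (hp : ∀ a ∈ W, Bijective (Op i L a) → ∃ b ∈ W, Bijective (Op i L b) ∧ sf a b = r)
    (hm : ∀ a ∈ W, Bijective (Op i L a) → ∃ b ∈ W, Bijective (Op i L b) ∧ sf a b = -r)
    {a : X₀ →L[ℝ] X₀} (ha : a ∈ W) (h : Bijective (Op i L a)) (n : ℤ) :
    ∃ b ∈ W, Bijective (Op i L b) ∧ sf a b = n * r := by
  induction n using Int.induction_on with
  | zero => exact ⟨a, ha, h, by rw [H.self (hW ha) h, zero_mul]⟩
  | succ n ih =>
    obtain ⟨b, hb, h1, h2⟩ := ih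
    obtain ⟨c, hc, h3, h4⟩ := hp b hb h1
    exact ⟨c, hc, h3, by rw [← H.add a (hW ha) b (hW hb) c (hW hc) h h1 h3, h2, h4]; ring⟩
  | pred n ih =>
    obtain ⟨b, hb, h1, h2⟩ := ih
    obtain ⟨c, hc, h3, h4⟩ := hm b hb h1
    exact ⟨c, hc, h3, by rw [← H.add a (hW ha) b (hW hb) c (hW hc) h h1 h3, h2, h4]; ring⟩

end SF

end Crest.Agent.X212.Crt72
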