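import Crest.Agent.X212.Crt72.Defs
import Crest.Agent.X212.Nd18.Props
import Crest.Agent.X212.Eqv71.Alg
import Crest.Agent.X212.Mp86.Ctl

/-!
# Row 212, CRIT (helper72): the leaves
-/

set_option autoImplicit false
set_option linter.unusedSectionVars false
noncomputable section
open scoped Manifold ContDiff Topology InnerProductSpace
open MeasureTheory Set Function Filter

namespace Crest.Agent.X212.Crt72
open An Cyf70 Dgr80 Nd18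
open Map77 (Cf)

variable {E3 : Type} [NormedAddCommGroup E3] [NormedSpace ℝ E3] [FiniteDimensional ℝ E3]
  [MeasurableSpace E3] [BorelSpace E3]
  {H3 : Type} [TopologicalSpace H3] {I3 : ModelWithCorners ℝ E3 H3} [I3.Boundaryless]
  {Y : Type} [TopologicalSpace Y] [ChartedSpace H3 Y] [IsManifold I3 ∞ Y] [T2Space Y]
  [MeasurableSpace Y] [BorelSpace Y] [SecondCountableTopology Y] [CompactSpace Y]
  {κ : Type} [Fintype κ] {lam : Type} [Fintype lam] (D : YD I3 Y κ lam)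

/-- standing hypotheses -/
structure HY : Prop where
  ok : D.OK
  conn : ConnectedSpace Y
  dim : Module.finrank ℝ E3 = 3

/-- the indices of the invariants which vanish with the spinor -/
def Sw {D : YD I3 Y κ lam} (j : BB D) : Prop := ∀ c, j ≠ .cy c

/-- `t`-independent isomorphisms -/
def YIso (β β' : YC Y κ lam) (w : Y → CL β.m.V β'.m.V) (ζ : Circle) : Prop :=
  CEq D.Z (cy β) (cy β') univ id (fun x b a => D.B.P b a x) D.B.l (fun x => w x.1) ζ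

/-- the derivative of `u` at `β` in the direction `(α, φ)` -/
def ipg (u : YF Y κ lam) (β : YC Y κ lam) (α : Y → Fm κ β.m.A) (φ : Y → β.m.V) : ℝ :=
  ∫ y, (⟪u.gA β y, α y⟫_ℝ + ⟪u.gP β y, φ y⟫_ℝ) ∂D.F.μ

/-- the perturbed equation on `Y` with the coefficients `c` -/
def SolY (S : Finset (BB D)) (c : BB D → ℝ) (β : YC Y κ lam) : Prop := ∀ y,
  pc D β y ((YF.z0 D).gA β y + ∑ j ∈ S, c j • (yf D j).gA β y) = 0 ∧
  pv D β y ((YF.z0 D).gP β y + ∑ j ∈ S, c j • (yf D j).gP β y) = 0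

/-- the extended Hessian is a symmetric operator of Dirac type -/
def OpY (β : YC Y κ lam) : Prop := ∃ σ B C,
  (⟨ph D β, ph D β, σ, B⟩ : An.Op Y κ (Cf (Option κ) (Fin β.m.N)) (Cf (Option κ) (Fin β.m.N))).Good
    D.F C ∧
  (⟨ph D β, ph D β, σ, B⟩ : An.Op Y κ (Cf (Option κ) (Fin β.m.N)) (Cf (Option κ) (Fin β.m.N))).Cliff
    D.F ∧ (∀ w : Sec I3 (ph D β), D.F.op σ B w.1 = lf D β w.1) ∧
  ∀ w w' : Sec I3 (ph D β), ∫ y, ⟪lf D β w.1 y, w'.1 y⟫_ℝ ∂D.F.μ = ∫ y, ⟪w.1 y, lf D β w'.1 y⟫_ℝ ∂D.F.μ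

/-- output of OP3 -/
def Op3 : Prop := ∀ β, D.Adm β → OpY D β ∧ ∀ k, 7 ≤ k → ∃ T, RpT D β (YF.z0 D) (k + 1) k T

/-- a basic invariant is smooth on the models, natural and bounded -/
structure Sm1 (j : BB D) : Prop where
  T : ∀ β, D.Adm β → ∀ k, 7 ≤ k → ∃ T, RpT D β (yf D j) (k + 1) (k + 1) T
  f : ∀ β, D.Adm β → ∀ k, 7 ≤ k → ∃ f, Rpf D β (yf D j) (k + 1) f
  grad : ∀ β, D.Adm β → ∀ y : SP D β,
    HasDerivAt (fun ε : ℝ => (yf D j).f (cf (ε • y))) (ipg D (yf D j) β y.1.1 y.2.1) 0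
  hs : ∀ k, 7 ≤ k → ∀ act sf o, ∃ K, (gm D k act sf).IsHs o (fderiv ℝ ((gm D k act sf).τ j o) 0) K
  bd : ∃ R, ∀ β, D.Adm β → |(yf D j).f β| ≤ R ∧
    Mp86.Ctl D.F (Mp86.gr2 I3 D.F.e (cn β) β.Φ) 1 R (cn β) ((yf D j).gP β) ∧
    ∃ g, Mp86.Dom D.F R g ∧ ∀ y, ‖(yf D j).gA β y‖ ^ 2 ≤ R + g y

/-- the invariants on the cylinder are those on `Y` -/
def Lift (j : BB D) : Prop := ∀ β, D.Adm β →
  (∀ δ t : ℝ, 0 < δ → wn D.Z.μ D.nk.τ δ ((den D j).h (cy β)) t = (yf D j).f β) ∧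
  ∀ (a : ℝ) (x : Y × ℝ), dw κ _ ((den D j).gA (cy β) (fun _ => a) x) = a • (yf D j).gA β x.1 ∧
    (den D j).gP (cy β) (fun _ => a) x = a • (yf D j).gP β x.1

/-- naturality -/
structure Nat : Prop where
  eqv : ∀ β β', D.Adm β → D.Adm β' → D.Eqv β β' → ∃ w ζ, YIso D β β' w ζ
  A : ∀ β β' w ζ, D.Adm β → D.Adm β' → YIso D β β' w ζ → ∀ y a,
    (YF.z0 D).gA β' y a = Eqv71.cj (w y) ((YF.z0 D).gA β y a)
  P : ∀ β β' w ζ, D.Adm β → D.Adm β' → YIso D β β' w ζ → ∀ y,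
    (YF.z0 D).gP β' y = cs β'.m.J ζ (w y ((YF.z0 D).gP β y))
  sw : ∀ β β' w ζ, D.Adm β → D.Adm β' → YIso D β β' w ζ → ∀ j,
    (yf D (.sw j)).f β' = (yf D (.sw j)).f β
  s : ∀ β β' w ζ, D.Adm β → D.Adm β' → YIso D β β' w ζ → ∀ j,
    (⟨(yf D (.re j)).f β', (yf D (.im j)).f β'⟩ : ℂ) =
      (ζ : ℂ) ^ 2 * ⟨(yf D (.re j)).f β, (yf D (.im j)).f β⟩

/-- naturality of the cyclic invariants -/
def NatC : Prop := ∀ β β' w ζ, D.Adm β → D.Adm β' → YIso D β β' w ζ → ∀ j,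
  (yf D (.cy j)).f β' = (yf D (.cy j)).f β

/-- variations are admissible -/
def AdmV : Prop := ∀ β, D.Adm β → ∀ y : SP D β, D.Adm (cf y)

/-! ### the leaves -/

def Op3Stmt : Prop := HY D → Op3 D
def LinStmt : Prop := HY D → Op3 D → ∀ k, 7 ≤ k → ∀ act sf, (gm D k act sf).AxOp
def SfStmt : Prop := HY D → Op3 D → ∃ sf, ∀ k act, (gm D k act sf).AxSf
def NatStmt : Prop := HY D → AdmV D ∧ Nat D
def SmsStmt : Prop := HY D → AdmV D → ∀ j, Sw j → Sm1 D j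
def LiftStmt : Prop := HY D → ∀ j, Sw j → Lift D j
def CycStmt : Prop := HY D → AdmV D → NatC D ∧ ∀ j, Sm1 D (.cy j) ∧ Lift D (.cy j)
def RegStmt : Prop := HY D → AdmV D → Op3 D → (∀ j, Sm1 D j) →
  ∀ k, 7 ≤ k → ∀ act sf, (gm D k act sf).AxSm
def GrpStmt : Prop := HY D → AdmV D → Nat D → NatC D → Op3 D → (∀ j, Sm1 D j) →
  ∀ k, 7 ≤ k → ∃ act, ∀ sf, (gm D k act sf).AxGr
def SplStmt : Prop := HY D → ∀ k, 7 ≤ k → ∀ act sf, (gm D k act sf).AxSp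
def CptStmt : Prop := HY D → (∀ j, Sm1 D j) → (∀ j, Lift D j) →
  ∀ (S : Finset (BB D)) (R : ℝ) (ι : Type) (𝒰 : Ultrafilter ι) (c : ι → BB D → ℝ)
    (β : ι → YC Y κ lam), (∀ n j, |c n j| ≤ R) → (∀ n, D.Adm (β n) ∧ SolY D S (c n) (β n)) →
  ∃ (o : YC Y κ lam) (y : ι → SP D o), D.Adm o ∧ (∀ k, Tendsto (fun n => pt D o k (y n)) 𝒰 (𝓝 0)) ∧
    ∀ᶠ n in (𝒰 : Filter ι), D.Eqv (β n) (cf (y n))
def DerStmt : Prop := HY D → ∀ β, D.Adm β → ¬D.Zr β → ∀ y : SP D β,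
  (∀ j, Sw j → ipg D (yf D j) β y.1.1 y.2.1 = 0) →
  ∃ ξ : Sec I3 β.m.pg, y.1.1 = dga D β ξ.1 ∧ y.2.1 = dgp β ξ.1
def SepStmt : Prop := HY D → ∀ β β', D.Adm β → D.Adm β' → ¬D.Zr β →
  (∀ j, Sw j → (yf D j).f β = (yf D j).f β') → D.Eqv β β'
def DerIStmt : Prop := HY D → ∀ β, D.Adm β → D.Zr β → ¬D.Ln β → ∀ α : Sec I3 (pc D β),
  (∀ j, ipg D (yf D (.cy j)) β α.1 0 = 0) → ∃ ξ : Sec I3 β.m.pg, α.1 = dga D β ξ.1
def ImStmt : Prop := HY D → AdmV D → (∀ j, Sw j → Sm1 D j) →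
  ∀ k, 7 ≤ k → ∀ act sf, (gm D k act sf).AxIM
def SgStmt : Prop := HY D → Op3 D → (∀ j, Sw j → Sm1 D j) →
  ∀ k, 7 ≤ k → ∀ act sf, (gm D k act sf).AxSg
def NrStmt : Prop := HY D → D.NoRed → Op3 D → ∀ k, 7 ≤ k → ∀ act sf, (gm D k act sf).AxNR

/-- `N` realises the perturbation `q` -/
structure Rz {k : ℕ} {act : ActT D k} {sf : SfT D} (q : (gm D k act sf).Fd) (N : ND Y lam) :
    Prop where
  ok : N.OK D
  adm : ∀ β, N.Crit D β → D.Adm β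
  crit : ∀ x : XY D, N.Crit D x.1 ↔ (gm D k act sf).Sol q x
  nd : ∀ x : XY D, (gm D k act sf).ND q x → N.Nondeg D x.1
  val : ∀ (x : XY D) (y : SP D x.1),
    q x (pt D x.1 (k + 1) y) = N.φ (N.cx ((N.dg D.nk).Iv D.Z (cy (cf y)) 0))
  gA : ∀ (x : XY D) (y : SP D x.1) (z : Y × ℝ),
    D.F.val k _ ((gm D k act sf).gr q x (pt D x.1 (k + 1) y)).1 z.1 =
      pc D x.1 z.1 (dw κ _ ((N.dg D.nk).gA D.Z (cy (cf y)) z))
  gP : ∀ (x : XY D) (y : SP D x.1) (z : Y × ℝ),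
    D.F.val k _ ((gm D k act sf).gr q x (pt D x.1 (k + 1) y)).2 z.1 =
      pv D x.1 z.1 ((N.dg D.nk).gP D.Z (cy (cf y)) z)

def ExpStmt : Prop := HY D → AdmV D → Op3 D → (∀ j, Sm1 D j) → (∀ j, Lift D j) →
  ∀ δ : ℝ, 0 < δ → δ ≤ 1 / 8 → ∃ (ny : ℕ) (yy : Fin ny → Y → ℝ), ∀ k, 7 ≤ k → ∀ act sf,
    (gm D k act sf).AxOp → (gm D k act sf).AxSm → ∀ q ∈ (gm D k act sf).Rl,
      ∃ N : ND Y lam, Rz D q N ∧ N.δ = δ ∧ N.ny = ny ∧ HEq N.y yy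

end Crest.Agent.X212.Crt72
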