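import Crest.Agent.X212.Crt72.Stage

/-!
# Row 212, CRIT (helper72): the three stages
-/

set_option autoImplicit false
set_option linter.unusedSectionVars false
noncomputable section
open Set Filter Topology Function Module
open scoped ContDiff InnerProductSpace

namespace Crest.Agent.X212.Crt72.GM
variable {Bc Bw B2 : Type} {Q : GM Bc Bw B2}

variable (Q) in
/-- type I -/
def PI (o : Q.X) (v : Q.C o) : Prop := Q.J o v = 0
variable (Q) in
/-- type S -/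
def PS (o : Q.X) (v : Q.C o) : Prop := Q.J o v ≠ 0 ∧ Q.Fixv o v
variable (Q) in
/-- free -/
def PF (o : Q.X) (v : Q.C o) : Prop := ¬Q.Fixv o v

variable (Q) in
/-- the extended Hessian is invertible -/
def Bij (q : Q.Fd) (o : Q.X) : Prop := Bijective (Op (Q.i o) (Q.L0 o) (Q.hs q o))

variable (Q) in
/-- small combinations of cyclic invariants -/
def Lc (R : Bc → ℝ) (q : Q.Fd) : Prop := ∃ (T : Type) (_ : Fintype T) (a : T → Bc) (p : T → ℝ),
  q = ∑ j, p j • Q.f (.cy (a j)) ∧ ∑ j, |p j| * |R (a j)| < 1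

theorem Lc.open {R : Bc → ℝ} {J : Finset Bc} {p₀ : J → ℝ}
    (h : Q.Lc R (fam 0 (fun w : J => Q.f (.cy w)) p₀)) :
    ∀ᶠ p in 𝓝 p₀, Q.Lc R (fam 0 (fun w : J => Q.f (.cy w)) p) := by
  obtain ⟨T, _, a, c, h1, h2⟩ := h
  have h3 : Continuous fun p : J → ℝ => ∑ j, |c j| * |R (a j)| + ∑ w, |p w - p₀ w| * |R w| := by
    fun_prop
  filter_upwards [h3.continuousAt.eventually (gt_mem_nhds (show _ < 1 by simpa using h2))] with p hp
  refine ⟨T ⊕ J, inferInstance, Sum.elim a (↑), Sum.elim c (p - p₀), ?_, by simpa using hp⟩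
  simp [← h1, fam, sub_smul]

theorem PI.fix {o v} (h : Q.PI o v) : Q.Fixv o v := ⟨0, by rw [map_zero, h]⟩

theorem sw_mem (j) : Q.f (.sw j) ∈ Q.Rl := Algebra.subset_adjoin (.inl (.inl (.inr ⟨j, rfl⟩)))
theorem cy_mem (j) : Q.f (.cy j) ∈ Q.Rl := Algebra.subset_adjoin (.inl (.inl (.inl ⟨j, rfl⟩)))

variable (Q) in
/-- `Re (conj s * s')`, `Im (conj s * s')` -/
def hr (j k : B2) : Q.Fd := Q.f (.re j) * Q.f (.re k) + Q.f (.im j) * Q.f (.im k)
variable (Q) in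
def hi (j k : B2) : Q.Fd := Q.f (.re j) * Q.f (.im k) - Q.f (.im j) * Q.f (.re k)

theorem hr_mem (j k) : Q.hr j k ∈ Q.Rl := Algebra.subset_adjoin (.inl (.inr ⟨(j, k), rfl⟩))
theorem hi_mem (j k) : Q.hi j k ∈ Q.Rl := Algebra.subset_adjoin (.inr ⟨(j, k), rfl⟩)

namespace Ax
variable (H : Q.Ax) {p q r : Q.Fd} {o : Q.X}
include H

/-- perturbations which vanish on `P` to the order `1` (`t` false) or `2` (`t` true) -/
def Nv (P : ∀ o, Q.C o → Prop) (t : Prop) : Submodule ℝ Q.Fd where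
  carrier := {r | r ∈ Q.Rl ∧ ∀ o v, P o v →
    r o v = 0 ∧ Q.gr r o v = 0 ∧ (t → fderiv ℝ (Q.gr r o) v = 0)}
  add_mem' := fun {a b} ha hb => ⟨add_mem ha.1 hb.1, fun o v h => by
    rw [H.dgr_add (Rl_le ha.1) (Rl_le hb.1), H.gr_add (Rl_le ha.1) (Rl_le hb.1)]
    obtain ⟨a1, a2, a3⟩ := ha.2 o v h
    obtain ⟨b1, b2, b3⟩ := hb.2 o v h
    exact ⟨by simp [a1, b1], by simp [a2, b2], fun e => by simp [a3 e, b3 e]⟩⟩
  zero_mem' := ⟨zero_mem _, fun o v _ => by simp [H.gr_zero]⟩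
  smul_mem' := fun c a ha => ⟨Subalgebra.smul_mem _ ha.1 c, fun o v h => by
    rw [H.dgr_smul c (Rl_le ha.1), H.gr_smul c (Rl_le ha.1)]
    obtain ⟨a1, a2, a3⟩ := ha.2 o v h
    exact ⟨by simp [a1], by simp [a2], fun e => by simp [a3 e]⟩⟩

variable {P : ∀ o, Q.C o → Prop} {t : Prop}

theorem mul_nv (hp : p ∈ H.Nv P False) (hr : r ∈ Q.Rl) (h : t → ∀ o v, P o v → r o v = 0) :
    p * r ∈ H.Nv P t := ⟨mul_mem hp.1 hr, fun o v e => by
  obtain ⟨a1, a2, -⟩ := hp.2 o v e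
  rw [H.dgr_mul (Rl_le hp.1) (Rl_le hr), H.gr_mul (Rl_le hp.1) (Rl_le hr)]
  exact ⟨by simp [a1], by simp [a1, a2], fun e' => by simp [a1, a2, h e' o v e]⟩⟩

theorem F_nv (hq : q ∈ Q.Rl) (hr : r ∈ H.Nv P t) {v} (h : P o v) :
    Q.gr (q + r) o v = Q.gr q o v ∧ Q.F (q + r) o v = Q.F q o v ∧ (q + r) o v = q o v := by
  simp [F, H.gr_add (Rl_le hq) (Rl_le hr.1), hr.2 o v h]

theorem on_nv (hq : q ∈ Q.Rl) (hr : r ∈ H.Nv P True) {v} (h : P o v) {t} (e : Q.On t q nil o v) :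
    Q.On t (q + r) nil o v := fun u h1 h2 _ => e u (by
  rwa [H.dF_eq (Rl_le (add_mem hq hr.1)), H.dgr_add (Rl_le hq) (Rl_le hr.1), (hr.2 o v h).2.2 trivial,
    add_zero, ← H.dF_eq (Rl_le hq)] at h1) h2 fun e => e.elim

theorem hs_nv (hq : q ∈ Q.Rl) (hr : r ∈ H.Nv P True) (h : P o 0) : Q.hs (q + r) o = Q.hs q o :=
  H.hs_eq (Rl_le (add_mem hq hr.1)) (by
    rw [H.dgr_add (Rl_le hq) (Rl_le hr.1), (hr.2 o 0 h).2.2 trivial, add_zero]
    exact H.hs_spec (Rl_le hq) o)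

theorem cls_nv (hq : q ∈ Q.Rl) (hr : r ∈ H.Nv P t) {P' : ∀ o, Q.C o → Prop}
    (h : ∀ o, P' o 0 → P o 0) {ι : Type} {x : ι → Q.X} (e : Q.Cls q (P' · 0) x) :
    Q.Cls (q + r) (P' · 0) x :=
  ⟨fun n => ⟨(e.1 n).1, (H.F_nv hq hr (h _ (e.1 n).1)).2.1.trans (e.1 n).2⟩, e.2.1,
    fun y a b => e.2.2 y a ((H.F_nv hq hr (h _ a)).2.1.symm.trans b)⟩

theorem sw_nv (j) : Q.f (.sw j) ∈ H.Nv Q.PI False := ⟨sw_mem j, fun o v h => by
  simpa [H.gr_f] using H.sm.van (.sw j) o v (by simp) h⟩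

theorem gr_hr (j k) (o v) : Q.gr (Q.hr j k) o v =
    (Q.f (.re j) o v • Q.τ (.re k) o v + Q.f (.re k) o v • Q.τ (.re j) o v) +
    (Q.f (.im j) o v • Q.τ (.im k) o v + Q.f (.im k) o v • Q.τ (.im j) o v) := by
  rw [hr, H.gr_add (mul_mem (f_mem _) (f_mem _)) (mul_mem (f_mem _) (f_mem _)),
    H.gr_mul (f_mem _) (f_mem _), H.gr_mul (f_mem _) (f_mem _)]
  simp only [H.gr_f]; rfl

theorem gr_hi (j k) (o v) : Q.gr (Q.hi j k) o v =
    (Q.f (.re j) o v • Q.τ (.im k) o v + Q.f (.im k) o v • Q.τ (.re j) o v) -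
    (Q.f (.im j) o v • Q.τ (.re k) o v + Q.f (.re k) o v • Q.τ (.im j) o v) := by
  rw [hi, sub_eq_add_neg, ← neg_one_smul ℝ (_ * _), H.gr_add (mul_mem (f_mem _) (f_mem _))
    (Subalgebra.smul_mem _ (mul_mem (f_mem _) (f_mem _)) _), H.gr_smul _ (mul_mem (f_mem _) (f_mem _)),
    H.gr_mul (f_mem _) (f_mem _), H.gr_mul (f_mem _) (f_mem _), neg_one_smul, ← sub_eq_add_neg]
  simp only [H.gr_f]; rfl

theorem hr_nv (j k) : Q.hr j k ∈ H.Nv Q.Fixv False := ⟨hr_mem j k, fun o v h => by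
  rw [H.gr_hr]; simp [hr, H.s_fix h]⟩

theorem ker_z (hq : q ∈ Q.Rl) (h0 : Q.Sol q o) (hb : Bijective (Q.σ o ∘L Q.d o 0)) {z}
    (hz : Q.ext o (fderiv ℝ (Q.F q o) 0) z = 0) :
    z.2 = 0 ∧ fderiv ℝ (Q.F q o) 0 z.1 = 0 ∧ Q.σ o z.1 = 0 := by
  have h1 : fderiv ℝ (Q.F q o) 0 z.1 + Q.D o z.2 = 0 := congrArg Prod.fst hz
  have h2 : z.2 = 0 := H.kerM hb fun η => by
    have := H.dF_dd hq h0 (η, 0)
    rw [dd_apply, zero_smul, add_zero] at this
    rw [eq_neg_of_add_eq_zero_right h1, map_neg, neg_apply, H.sym_dF (Rl_le hq), this]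
    simp
  exact ⟨h2, by simpa [h2] using h1, congrArg Prod.snd hz⟩

theorem on_of_bij (hq : q ∈ Q.Rl) (h0 : Q.Sol q o) (hb : Bijective (Q.σ o ∘L Q.d o 0))
    (h : Q.Bij q o) : Q.On False q nil o 0 := fun u h1 _ _ => by
  obtain ⟨η, hη⟩ := hb.2 (Q.σ o u)
  have h2 := H.dF_dd hq h0 (η, 0)
  have h3 : Q.σ o (Q.dd o 0 (η, 0)) = Q.σ o u := by simpa [dd_apply] using hη
  have h4 : Q.j1 o (u - Q.dd o 0 (η, 0), 0) = Q.j1 o 0 := h.1 (by
    rw [H.op_j1 (Rl_le hq), ext_apply]; simp [h1, h2, h3, Prod.mk_zero_zero])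
  exact ⟨_, sub_eq_zero.1 (congrArg Prod.fst (H.op.injZ (congrArg _ h4)))⟩

theorem tan_zero {ξ l} (S : Q.Spl o ξ l) (hl : l ≠ 0) (hb : Bijective (Q.σ o ∘L Q.d o 0))
    (h : Q.On True q nil o 0) {u} (h1 : fderiv ℝ (Q.F q o) 0 u = 0) (h2 : Q.σ o u = 0)
    (h3 : Q.XC o ξ u = 0) : u = 0 := by
  have C := (H.chFix S hl hb).1
  obtain ⟨η, rfl⟩ := h u h1 (C.tn u (pk0_of l h3)) fun e => e.elim
  exact C.tr η h2 (by simp)

/-- nondegeneracy of all critical points of a stratum -/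
theorem on_cls (hq : q ∈ Q.Rl) {ι : Type} {x : ι → Q.X} {P : Q.X → Prop} (e : Q.Cls q P x)
    (h : ∀ n, Q.On False q nil (x n) 0) {y} (h1 : P y) (h2 : Q.Sol q y) : Q.On False q nil y 0 := by
  obtain ⟨n, hn⟩ := e.2.2 y h1 h2
  exact H.rep_on hq ((H.gr.rep0 _ _).2 hn) (fun e => e.elim) (h n)

theorem stageI (R₀ : Bc → ℝ) : ∃ q ∈ Q.Rl, Q.Lc R₀ q ∧
    (∀ x, Q.PI x 0 → Q.Sol q x → Q.SI x ∧ Q.On True q nil x 0) ∧
    ∃ (ι : Type) (_ : Fintype ι) (x : ι → Q.X), Q.Cls q (Q.PI · 0) x := by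
  obtain ⟨c₀, hc, h0⟩ := H.nr
  have si : ∀ q x, (∃ c < c₀, ∀ x, ‖Q.j0 x (Q.gr q x 0, 0)‖ ≤ c) → Q.PI x 0 → Q.Sol q x → Q.SI x := by
    rintro q x ⟨c, h1, h2⟩ h3 h4
    by_contra h5
    have h6 := h0 x h3 h5
    rw [eq_neg_of_add_eq_zero_left h4, ← neg_zero (G := Q.H x), ← Prod.neg_mk, map_neg,
      norm_neg] at h6
    linarith [h2 x]
  obtain ⟨q, h1, -, h2, h3, h4⟩ := H.stage (P := Q.PI) (q₀ := 0) (g := fun j => Q.f (.cy j))
    (Adm := fun q => (∃ c < c₀, ∀ x, ‖Q.j0 x (Q.gr q x 0, 0)‖ ≤ c) ∧ Q.Lc R₀ q)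
    { q0 := zero_mem _
      hg := cy_mem
      inv := fun _ _ _ _ h v => (h.J_iff v).2
      adm0 := ⟨⟨0, hc, fun x => by simp [H.gr_zero, Prod.mk_zero_zero]⟩,
        Empty, inferInstance, Empty.elim, 0, by simp, by simp⟩
      adm := fun J p₀ ⟨⟨c, h1, h2⟩, hL⟩ => by
        refine .and ?_ hL.open
        choose R hR using H.sm.bdτ
        have e : ∀ (p : J → ℝ) x, Q.j0 x (Q.gr (fam 0 (fun w : J => Q.f (.cy w)) p) x 0, 0) =
            ∑ w, p w • Q.j0 x (Q.τ (.cy w) x 0, 0) := fun p x => by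
          rw [fam, zero_add, H.gr_sum _ fun w => f_mem _]
          simp only [← map_smul, ← map_sum, H.gr_f]
          congr 1
          ext <;> simp [Prod.fst_sum, Prod.snd_sum]
        have h3 : Continuous fun p : J → ℝ => c + ∑ w, |p w - p₀ w| * R w := by fun_prop
        filter_upwards [h3.continuousAt.eventually (gt_mem_nhds (show _ < c₀ by simpa using h1))]
          with p hp
        refine ⟨_, hp, fun x => (norm_le_norm_add_norm_sub' _ _).trans (add_le_add (h2 x) ?_)⟩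
        rw [e, e, ← Finset.sum_sub_distrib]
        refine norm_sum_le_of_le _ fun w _ => ?_
        rw [← sub_smul, norm_smul]
        exact mul_le_mul_of_nonneg_left (hR _ x) (abs_nonneg _)
      ch := fun q _ h1 o h2 h3 => by
        have C := H.chFix (H.sp.I o h2) one_ne_zero (H.op.bij o (.inr (si q o h1.1 h2 h3)))
        exact ⟨_, _, C.1.mono (fun _ => PI.fix)
          fun η v => ((H.gr.mor o η).choose_spec.J_iff v).2, C.2⟩
      den := fun q _ h1 o h2 h3 u a1 _ a2 a3 => by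
        obtain ⟨η, hη⟩ := H.dI o u a1 h2 (si q o h1.1 h2 h3)
          (by simpa using (a2 0 (by rw [map_zero, h2])).symm) fun j => by simpa [H.gr_f] using a3 j
        exact ⟨(η, 0), by simpa [dd_apply] using hη⟩
      lim := fun q _ _ o h1 _ h2 => (h1 ((isClosed_eq (H.gr.cJ o)
        continuous_const).closure_subset (mem_closure_iff_frequently.2 h2))).elim }
  exact ⟨q, h1, h2.2, fun x a b => ⟨si q x h2.1 a b, h3 x a b⟩, h4⟩

/-- the generators `N ^ 2 a` -/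
theorem den_sq {N : Q.Fd} (hN : N ∈ Q.Rl) (h0 : N o 0 ≠ 0) {u}
    (h : ∀ a : Q.Rl, Q.b o (Q.gr (N * (N * a)) o 0) u = 0) (hr : r ∈ Q.Rl) :
    Q.b o (Q.gr r o 0) u = 0 := by
  have h1 := h 1
  have h2 := h ⟨r, hr⟩
  have hN' := Rl_le hN
  simp only [OneMemClass.coe_one, mul_one, H.gr_mul hN' hN', H.gr_mul hN' (Rl_le hr),
    H.gr_mul hN' (mul_mem hN' (Rl_le hr)), Pi.add_apply, Pi.smul_apply', map_add, map_smul, add_apply,
    smul_apply, smul_eq_mul, Pi.mul_apply] at h1 h2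
  have h3 : Q.b o (Q.gr N o 0) u = 0 := (mul_eq_zero.1 (add_self_eq_zero.1 h1)).resolve_left h0
  simpa [h3, h0] using h2

theorem stageS (hq : q ∈ Q.Rl) (hI : ∀ x, Q.PI x 0 → Q.Sol q x → Q.SI x ∧ Q.On False q nil x 0) :
    ∃ r ∈ H.Nv Q.PI True, (∀ x, Q.PS x 0 → Q.Sol (q + r) x → Q.On True (q + r) nil x 0) ∧
      ∃ (ι : Type) (_ : Fintype ι) (x : ι → Q.X), Q.Cls (q + r) (Q.PS · 0) x := by
  let g : Bw × Q.Rl → Q.Fd := fun j => Q.f (.sw j.1) * (Q.f (.sw j.1) * j.2)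
  have hg : Submodule.span ℝ (range g) ≤ H.Nv Q.PI True := Submodule.span_le.2 (by
    rintro _ ⟨j, rfl⟩
    exact H.mul_nv (H.sw_nv _) (mul_mem (sw_mem _) j.2.2) fun _ o v h => by
      simp [((H.sw_nv j.1).2 o v h).1])
  have inv : ∀ o o' (T : Q.C o → Q.C o') A, Q.Mor T A → ∀ v, Q.PS o v → Q.PS o' (T v) :=
    fun _ _ _ _ h v e => ⟨(h.J_iff v).not.2 e.1, (h.fix_iff v).2 e.2⟩
  obtain ⟨_, -, ⟨r, h1, rfl⟩, -, h3, h4⟩ := H.stage (P := Q.PS) (q₀ := q) (g := g)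
    (Adm := fun _ => True)
    { q0 := hq
      hg := fun j => (hg (Submodule.subset_span ⟨j, rfl⟩)).1
      inv := inv
      adm0 := trivial
      adm := fun _ _ _ => .of_forall fun _ => trivial
      ch := fun _ _ _ o ⟨h1, ξ, h2⟩ _ => by
        have C := H.chFix (H.sp.S o ξ h1 h2) two_ne_zero (H.op.bij o (.inl h1))
        exact ⟨_, _, C.1.mono (fun _ h => h.2)
          fun η => inv _ _ _ _ (H.gr.mor o η).choose_spec, C.2⟩
      den := fun _ _ _ o ⟨h1, ξ, h2⟩ _ u a1 _ a2 a3 => by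
        obtain ⟨j, hj⟩ := H.dr.pos o h1
        have S := H.sp.S o ξ h1 h2
        have h3 : Q.XC o ξ u = 0 := by rw [S.C, ← zero_add u, a2 ξ h2, sub_self]
        have h4 : ∀ k, (∀ v, Q.Fixv o v → Q.f k o v = 0) → Q.b o (Q.τ k o 0) u = 0 := fun k hk => by
          have h5 := (H.sm.grad k o 0).comp_hasDerivAt_of_eq (0 : ℝ)
            ((hasDerivAt_id (0 : ℝ)).smul_const u) (by simp)
          simpa using h5.unique ((hasDerivAt_const (0 : ℝ) (0 : ℝ)).congr_of_eventuallyEq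
            (.of_forall fun s => hk _ ⟨ξ, (sub_eq_zero.1 ((S.C _).symm.trans (by simp [h3]))).symm⟩))
        obtain ⟨η, hη⟩ := H.dr.der o u a1 h1 fun k hk => by
          rcases k with k | k | k | k
          · exact (hk k rfl).elim
          · exact H.gr_f (.sw k) ▸ H.den_sq (sw_mem j) hj (fun a => a3 (j, a)) (sw_mem k)
          · exact h4 _ fun v h => (H.s_fix h k).1
          · exact h4 _ fun v h => (H.s_fix h k).2
        exact ⟨(η, 0), by simpa [dd_apply] using hη⟩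
      lim := by
        rintro _ ⟨r, hr, rfl⟩ - o h1 h2 h3
        have h4 := H.fix_closed (h3.mono fun _ h => h.2)
        have h5 : Q.PI o 0 := by_contra fun h => h1 ⟨h, h4⟩
        have h6 := hI o h5 ((H.F_nv hq (hg hr) h5).2.1.symm.trans h2)
        exact ⟨⟨_, _, H.chFull (H.op.bij o (.inr h6.1)) h4⟩, H.on_nv hq (hg hr) h5 h6.2⟩ }
  exact ⟨r, hg h1, h3, h4⟩

theorem stageF (hq : q ∈ Q.Rl) (hI : ∀ x, Q.Fixv x 0 → Q.Sol q x →
    Bijective (Q.σ x ∘L Q.d x 0) ∧ Q.On False q nil x 0) :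
    ∃ r ∈ H.Nv Q.Fixv True, (∀ x, Q.PF x 0 → Q.Sol (q + r) x → Q.On False (q + r) nil x 0) ∧
      ∃ (ι : Type) (_ : Fintype ι) (x : ι → Q.X), Q.Cls (q + r) (Q.PF · 0) x := by
  let g : B2 × Q.Rl → Q.Fd := fun j => Q.hr j.1 j.1 * (Q.hr j.1 j.1 * j.2)
  have hg : Submodule.span ℝ (range g) ≤ H.Nv Q.Fixv True := Submodule.span_le.2 (by
    rintro _ ⟨j, rfl⟩
    exact H.mul_nv (H.hr_nv _ _) (mul_mem (hr_mem _ _) j.2.2) fun _ o v h => by
      simp [((H.hr_nv j.1 j.1).2 o v h).1])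
  have inv : ∀ o o' (T : Q.C o → Q.C o') A, Q.Mor T A → ∀ v, Q.PF o v → Q.PF o' (T v) :=
    fun _ _ _ _ h v => (h.fix_iff v).not.2
  obtain ⟨_, -, ⟨r, h1, rfl⟩, -, h3, h4⟩ := H.stage (P := Q.PF) (q₀ := q) (g := g)
    (Adm := fun _ => True)
    { q0 := hq
      hg := fun j => (hg (Submodule.subset_span ⟨j, rfl⟩)).1
      inv := inv
      adm0 := trivial
      adm := fun _ _ _ => .of_forall fun _ => trivial
      ch := fun _ _ _ o h1 _ => ⟨_, _, (H.chFree h1).1.mono (fun _ _ => trivial)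
        fun η => inv _ _ _ _ (H.gr.mor o η).choose_spec, (H.chFree h1).2⟩
      den := fun _ _ _ o h1 _ u a1 _ _ a3 => by
        have h2 : Q.J o 0 ≠ 0 := fun h => h1 (PI.fix h)
        have hJ : Q.dd o 0 (0, 1) = Q.J o 0 := by simp [dd_apply]
        have b1 : ∀ k, Q.b o (Q.τ (.sw k) o 0) (Q.J o 0) = 0 := fun k =>
          hJ ▸ H.gr_f (.sw k) ▸ H.gr_dd (sw_mem k) 0 _
        have b2 := fun k => hJ ▸ H.s_dd k (0 : Q.C o) (0, 1)
        obtain ⟨j, hj⟩ : ∃ j, Q.hr j j o 0 ≠ 0 := by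
          by_contra hn
          push Not at hn
          have b3 := fun j => mul_self_add_mul_self_eq_zero.1 (hn j)
          obtain ⟨η, hη⟩ := H.dr.der o _ (H.gr.smoJ o) h2 fun k hk => by
            rcases k with k | k | k | k
            exacts [(hk k rfl).elim, b1 k, by simp [b2, b3], by simp [b2, b3]]
          exact h1 ⟨η, hη.symm⟩
        have b3 := fun r => H.den_sq (r := r) (hr_mem j j) hj fun a => a3 (j, a)
        have b4 := fun k => b3 _ (hr_mem j k)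
        have b5 := fun k => b3 _ (hi_mem j k)
        simp only [H.gr_hr, H.gr_hi, map_add, map_sub, map_smul, add_apply, sub_apply, smul_apply,
          smul_eq_mul] at b4 b5
        set c := (Q.f (.re j) o 0 * Q.b o (Q.τ (.im j) o 0) u -
          Q.f (.im j) o 0 * Q.b o (Q.τ (.re j) o 0) u) / Q.hr j j o 0 / 2 with hc
        have hc' : c * 2 * (Q.f (.re j) o 0 * Q.f (.re j) o 0 + Q.f (.im j) o 0 * Q.f (.im j) o 0) =
            Q.f (.re j) o 0 * Q.b o (Q.τ (.im j) o 0) u -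
              Q.f (.im j) o 0 * Q.b o (Q.τ (.re j) o 0) u := by
          rw [hc, div_mul_cancel₀ _ two_ne_zero]; exact div_mul_cancel₀ _ hj
        obtain ⟨η, hη⟩ := H.dr.der o (u - c • Q.J o 0)
          (sub_mem a1 (Submodule.smul_mem _ _ (H.gr.smoJ o))) h2 fun k hk => by
          rw [map_sub, map_smul, smul_eq_mul]
          rcases k with k | k | k | k
          · exact (hk k rfl).elim
          · rw [b1, ← H.gr_f, b3 _ (sw_mem k)]; simp
          · rw [(b2 k).1]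
            refine mul_left_cancel₀ hj ?_
            simp only [hr, Pi.add_apply, Pi.mul_apply]
            linear_combination Q.f (.re j) o 0 * b4 k - Q.f (.im j) o 0 * b5 k -
              Q.f (.re k) o 0 / 2 * b4 j + Q.f (.im k) o 0 * hc'
          · rw [(b2 k).2]
            refine mul_left_cancel₀ hj ?_
            simp only [hr, Pi.add_apply, Pi.mul_apply]
            linear_combination Q.f (.im j) o 0 * b4 k + Q.f (.re j) o 0 * b5 k -
              Q.f (.im k) o 0 / 2 * b4 j - Q.f (.re k) o 0 * hc'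
        exact ⟨(η, c), by rw [dd_apply, ← hη, sub_add_cancel]⟩
      lim := by
        rintro _ ⟨r, hr, rfl⟩ - o h1 h2 -
        have h4 : Q.Fixv o 0 := not_not.1 h1
        have h6 := hI o h4 ((H.F_nv hq (hg hr) h4).2.1.symm.trans h2)
        exact ⟨⟨_, _, H.chFull h6.1 h4⟩, H.on_nv hq (hg hr) h4 h6.2⟩ }
  exact ⟨r, hg h1, fun x a b u c1 _ c2 => h3 x a b u c1 (fun _ ξ h => (a ⟨ξ, h⟩).elim) c2, h4⟩

end Ax

end Crest.Agent.X212.Crt72.GM
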