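import Crest.Agent.X212.Crt72.Mv0
import Crest.Agent.X212.Npm83.Lk1

/-!
# Row 212, MIXV (helper72): the plug
-/

set_option autoImplicit false
noncomputable section

namespace Crest.Agent.X212.Crt72
open Nd18

variable {κ lam : Type} [Fintype κ] [Fintype lam] {k : ℕ}

/-- **LEAF MIXV** -/
theorem mv (hk : 7 ≤ k) (C : CzStmt κ lam k) (P : KpAll κ lam) : Npm83.MvStmt κ lam k :=
  fun _ _ D N β K H => show SQ D.F (ph D β) (Npm83.lx D β) (Npm83.kx (K false)) (Npm83.kx (K true))
      (fun δ => (zB D N).Ix Set.univ (cy β) k δ) ∧ (D.Zr β → NK D.F (ph D β)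
        (Npm83.lx D β) (Npm83.kx (K false)) (Npm83.kx (K true)) → _) from mv0 hk C P H

end Crest.Agent.X212.Crt72
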