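import Crest.Agent.X212.Crt72.Iv3
import Crest.Agent.X212.Ixz30.Nat
import Crest.Agent.X212.Ixz30.Chz

/-!
# Row 212, INV (helper72): the index of the cylinder and of the mixed cylinder
-/

set_option autoImplicit false
set_option linter.unusedSectionVars false
noncomputable section
open scoped Manifold ContDiff Topology InnerProductSpace BoundedContinuousFunction
open MeasureTheory Set Function Filter Real

namespace Crest.Agent.X212.Crt72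
open An An.Pre Sob92 Ell97 Cyf70 Nk89 Map77 Mod61 Wz78 Op78 Nd18 Dec35

section gen
variable {E3 : Type} [NormedAddCommGroup E3] [NormedSpace ℝ E3] [FiniteDimensional ℝ E3]
  [MeasurableSpace E3] [BorelSpace E3]
  {H3 : Type} [TopologicalSpace H3] {I3 : ModelWithCorners ℝ E3 H3} [I3.Boundaryless]
  {Y : Type} [TopologicalSpace Y] [ChartedSpace H3 Y] [IsManifold I3 ∞ Y] [T2Space Y]
  [MeasurableSpace Y] [BorelSpace Y] [SecondCountableTopology Y] [CompactSpace Y]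
  {κ : Type} [Fintype κ] {lam : Type} [Fintype lam] {O' : Set (Y × ℝ)}
  {D : YD I3 Y κ lam} {β : YC Y κ lam} {δ : ℝ} {N N' : ND Y lam}
  {K K' : HZ D β 0 →L[ℝ] HZ D β 0}

theorem Wz.ir_mix {V : Type} [NormedAddCommGroup V] [InnerProductSpace ℝ V] [FiniteDimensional ℝ V]
    {F : Fr I3 Y κ} {G : Fr (IC I3) (Y × ℝ) (Option κ)} {ψ θ : ℝ → ℝ} {p : Y → V →L[ℝ] V}
    (w : Wz F G ψ) (hθ : Neck67.Sm θ) {L L' : Lam (F.H 0 p) →L[ℝ] Lam (F.H 0 p)}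
    {τ τ' : (Y × ℝ → V) → Y × ℝ → V} (h : Ir G.toPre (w.wK L) τ) (h' : Ir G.toPre (w.wK L') τ') :
    Ir G.toPre (w.wK ((Rf65.muL _).m (1 - θ) * L + (Rf65.muL _).m θ * L'))
      fun u x => (1 - θ x.2) • τ u x + θ x.2 • τ' u x := fun u => by
  have s1 := (Neck67.Sm.one).sub hθ
  rw [show w.wK ((Rf65.muL _).m (1 - θ) * L + (Rf65.muL _).m θ * L') =
      w.wK ((Rf65.muL _).m (1 - θ) ∘L L) + w.wK ((Rf65.muL _).m θ ∘L L') by
    rw [Wz.wK, ContinuousLinearMap.add_comp, ContinuousLinearMap.comp_add]; rfl,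
    w.ir_m s1, w.ir_m hθ]
  exact ((h u).smulH (w.wp.Cb.2 (cb_snd _ s1))).add ((h' u).smulH (w.wp.Cb.2 (cb_snd _ hθ)))

section dq
variable {n : ℕ} (d : Bd (Y × ℝ) (Option κ) (Fin n))
  (z : (Y × ℝ → Cf (Option κ) (Fin n)) → Y × ℝ → Cf (Option κ) (Fin n))

/-- the derivative of the perturbation -/
def tz (u : Y × ℝ → Cf (Option κ) (Fin n)) (x : Y × ℝ) : Ef (Option κ) (Fin n) := -kG d none x (z u x)

variable (D δ O') in
/-- the hypotheses of the dictionary -/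
structure DQ (W : Option κ → Y × ℝ → En (Fin n)) (Φ : Y × ℝ → Eu (Fin n)) (m : ℤ) : Prop where
  pz : ∀ u : Sec (IC I3) d.pC, ∀ x, d.pC x (z u.1 x) = z u.1 x
  gau : ∀ (ξ : Sec (IC I3) d.g) u, u = (d.d0 (GZ D δ O') (base W Φ)).app (GZ D δ O') ξ.1 → ∀ x,
    (d.lin (GZ D δ O') (base W Φ)).app (GZ D δ O') u x = kG d none x (z u x) ∧ fa (z u x) none = 0
  ex : ∃ K : Lam (D.F.H 0 (AC D.F d W Φ).p) →L[ℝ] Lam (D.F.H 0 (AC D.F d W Φ).p),
    Ir (GZ D δ O').toPre ((wZ D δ O').wK K)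
      (fun u x => sc2 _ _ 2 1 (z (fun y => sc2 _ _ 2 1 (u y)) x)) ∧
    Fred93.Fr (Dz (D.F.incl 1 0 _) (Cyf70.LH D.F (AC D.F d W Φ) 0) (Ψ D.F.toPre 1 _) (TH D.F _)
      (K - ma (Rf65.bc (deriv fun t => δ * ab t)) (D.F.mulH 0 _ _ fun _ => jC κ _))) m

end dq

theorem Hs0.inv_dq (h : Hs0 O' D β) (hδ : 0 < δ) {k : ℕ} (hk : 7 ≤ k)
    {e : PtX (Y × ℝ) (Option κ) lam 0 0 0}
    (he : Aff (refZ T0 δ h.adm h.z) (Fs (famZ T0 D δ O')) 0 0 0 fun _ => e)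
    {d : Bd (Y × ℝ) (Option κ) (Fin β.m.N)} (ed : bd (refZ T0 δ h.adm h.z) = d) {z} {m : ℤ}
    (hτ : Dr (fun _ => e) (y0 h.adm h.z δ) (tz d z)) (q : DQ O' D δ d z (cy β).W (cy β).Φ m) :
    Inv (δ := δ) h.adm h.z k e m :=
  q.ex.elim fun _ a => inv_of h.ok h.adm h.dim h.z hδ h.O hk he ed hτ q.pz q.gau a.1 a.2

variable (O') in
/-- the compressed Hessian on the cross-section -/
abbrev kS' (K : HZ D β 0 →L[ℝ] HZ D β 0) : HS' O' D β 0 →L[ℝ] HS' O' D β 0 :=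
  πY O' D β 0 ∘L kk (KZ K) ∘L ιY O' D β 0

variable (O' D β) in
/-- the spectral flow -/
abbrev sfS (σ : ℝ →ᵇ ℝ) := sf (D.F.incl 1 0 _) (Cyf70.LH D.F (AS O' D β) 0)
  (Ψ D.F.toPre 1 (AS O' D β).p) (TH D.F _) σ

variable (N) in
/-- the hypotheses on the neck terms -/
structure Hn (K : HZ D β 0 →L[ℝ] HZ D β 0) : Prop where
  kp : Kp N D β
  K : IsK N D β K
  crit : N.Crit D β
  nd : N.Nondeg D β

namespace Hs0
variable (h : Hs0 O' D β) (n : Hn N K)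
include h n

theorem tk : ∃ d C, TK (KS O' K) d C ∧ kk (KS O' K) = kS' O' K :=
  let ⟨d, _, t⟩ := n.kp.tk n.K
  ⟨d, _, tk_cmp t h.adj⟩

theorem k1 [PreconnectedSpace Y] (ir : D.Zr β → ¬D.Ln β) : ∃ v, K1 (D.F.incl 1 0 _)
    (Cyf70.LH D.F (AS O' D β) 0) (jY' O' D β) (kS' O' K) v ∧ (v = 0 ↔ D.Fx β) := by
  obtain ⟨s, s0, s1, s2⟩ := keStmt N D β n.kp h.dim ‹_› n.crit n.nd ir K n.K
  let u : Sec I3 (AS O' D β).p := ⟨s.1, s.2.1, s.2.2.1, fun y => h.p_of (s.2.2.2 y) fun e => by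
    rw [s1.2 (fx_of_zr fun y => h.z (y, 0) (e ▸ notMem_empty _))]; exact map_zero _⟩
  have e : ιY O' D β 1 (D.F.toH 1 _ u) = D.F.toH 1 _ s := h.ι_toH u
  have j : ∀ {k} {v w : HS' O' D β k}, ιY O' D β k v = ιY O' D β k w → v = w := fun e =>
    (h.πι _).symm.trans ((congrArg _ e).trans (h.πι _))
  refine ⟨D.F.toH 1 _ u, ⟨fun v => ?_, ?_⟩, Iff.trans ?_ s1⟩
  · have o := h.op_ι (h.kk_ι n.kp n.K) v
    refine ⟨fun a => ((s2 _).1 (o.trans ((congrArg _ a).trans (map_zero _)))).imp fun c b =>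
      j (by rw [b, map_smul, e]), fun ⟨c, a⟩ => j (o.symm.trans (((s2 _).2 ⟨c, ?_⟩).trans
        (map_zero _).symm))⟩
    rw [a, map_smul, e]
  · rw [incl_toH zero_le_one]
    exact RepT_toH' (rep_mulH (Cb_const _) h.cz.mj) u u (funext fun y => by
      rw [jC_apply, show pT κ _ (u.1 y) = 0 from
        (congrArg (fun v => i1 _ _ (Map77.ij _ none v)) (s0 y)).trans (by simp), smul_zero, sub_zero])
  · rw [map_eq_zero_iff _ (toH_inj D.F 1 _)]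
    exact ⟨fun e => Subtype.ext (congrArg (·.1) e :), fun e => Subtype.ext (congrArg (·.1) e :)⟩

theorem ir_KS {L : Lam (HS' O' D β 0) →L[ℝ] Lam (HS' O' D β 0)}
    (c : Cj (Rf65.muL _) (fun t => δ * ab t) (KS O' K) L) : Ir (GZ D δ O').toPre ((wZ D δ O').wK L)
      fun u x => sc2 _ _ 2 1 (zZ O' D β N (fun y => sc2 _ _ 2 1 (u y)) x) := by
  have b : (cylP D.F.toPre).Cb fun x => (AS O' D β).p x.1 := Cht98.Cb_fst _ (Cb_of_compact h.sm_p)
  have m1 : Maps (Cyf70.pc (AZ D β).p) (Cyf70.pc (AS O' D β).p) fun x => (AS O' D β).p x.1 :=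
    fun x => h.mπ x.1
  have m2 : Maps (Cyf70.pc (AS O' D β).p) (Cyf70.pc (AZ D β).p) fun x => (AS O' D β).p x.1 :=
    fun x => h.mι x.1
  refine (wZ D δ O').ir_wK c (K₀ := (cylP D.F.toPre).mulH 0 _ _ (fun x => (AS O' D β).p x.1) ∘L K ∘L
    (cylP D.F.toPre).mulH 0 _ _ fun x => (AS O' D β).p x.1) (fun x => ?_) fun u => ?_
  · exact (congrArg _ ((congrArg _ (Ψ_mul h.sm_p h.mι x b).symm).trans (KZ_Ψ _))).trans
      (Ψ_mul h.sm_p h.mπ _ b).symm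
  · have v : Vr D β u.1 := ⟨.of_hcs u.2.1 u.2.2.1, fun x =>
      pC_dS ((congrArg (fun p => p x (u.1 x)) h.cz.pe).symm.trans (u.2.2.2 x))⟩
    refine ((n.K _ _ v (((Is.toH u).mulH b m2).congr (.of_forall u.2.2.2))).mulH b m1).congr
      (.of_forall fun x => ?_)
    exact (DFunLike.congr_fun (congrFun h.cz.pe x) _).trans (sm2_sc2 2 1 _ _ _)

/-- **the index of the mixed cylinder** -/
theorem inv_mix [PreconnectedSpace Y] (ir : D.Zr β → ¬D.Ln β) (n' : Hn N' K') {k : ℕ} (hk : 7 ≤ k)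
    {σ σ' : ℝ →ᵇ ℝ} {r : ℝ} (hσ : Stp σ σ' r) {θ : ℝ → ℝ} (hθ : Neck67.Sm θ)
    (θ0 : ∀ t ≤ -2, θ t = 0) (θ1 : ∀ t, 2 ≤ t → θ t = 1) : ∀ᶠ δ in 𝓝[>] (0 : ℝ),
      (Aff (refZ T0 δ h.adm h.z) (Fs (famZ T0 D δ O')) 0 0 0 fun _ =>
        mixE (fun x => θ x.2) (eQ D N) (eQ D N')) →
      Inv (δ := δ) h.adm h.z k (mixE (fun x => θ x.2) (eQ D N) (eQ D N'))
        (sfS O' D β σ (kS' O' K + δ • jY' O' D β) (kS' O' K' - δ • jY' O' D β)) := by
  obtain ⟨d, C, t, e⟩ := h.tk n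
  obtain ⟨d', C', t', e'⟩ := h.tk n'
  obtain ⟨v, a, -⟩ := h.k1 n ir
  obtain ⟨v', a', -⟩ := h.k1 n' ir
  have o := h.cz.cyO
  have c := clo h.O
  have F := fr_mix o.cylD (o.isSF hσ).cpt (o.frL 0) hσ h.sym_j t t' e e' a a'
  have G := (ex_cj t).and (ex_cj t')
  refine ((F.and (G.filter_mono nhdsWithin_le_nhds)).and eventually_mem_nhdsWithin).mono
    fun δ H A => ?_
  obtain ⟨⟨F, ⟨-, ⟨L, l⟩, -⟩, -, ⟨L', l'⟩, -⟩, hδ⟩ := H
  have F := F L L' θ l l' hθ θ0 θ1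
  have w := wZ D δ O'
  let z : Dec35.Cz β → Dec35.Cz β := fun u x =>
    (1 - θ x.2) • zZ O' D β N u x + θ x.2 • zZ O' D β N' u x
  have t : ∀ u x, (1 - θ x.2) • tz (dZ O' D β) (zZ O' D β N) u x +
      θ x.2 • tz (dZ O' D β) (zZ O' D β N') u x = tz (dZ O' D β) z u x := fun u x => by
    simp only [tz, z, map_add, map_smul, smul_neg, neg_add]
  refine h.inv_dq hδ hk A (bd_refZ h.ok h.adm h.z) (fun u Z H x =>
    (dr_mix (dr_eZ n.kp h.z c) (dr_eZ n'.kp h.z c) u Z H x).congr_deriv (t _ x))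
    (show DQ O' D δ (dZ O' D β) z (cy β).W (cy β).Φ _ from
      ⟨fun u x => by rw [map_add, map_smul, map_smul, pz_dZ n.kp h.z c, pz_dZ n'.kp h.z c],
        fun ξ u e x => ?_, _, fun u => ?_, F⟩)
  · have g := gau_dZ n.kp h.z c n.crit h.cz ξ u e x
    have g' := gau_dZ n'.kp h.z c n'.crit h.cz ξ u e x
    rw [map_add, map_smul, map_smul, ← g.1, ← g'.1, map_add, map_smul, map_smul, PiLp.add_apply,
      PiLp.smul_apply, PiLp.smul_apply, g.2, g'.2, ← add_smul]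
    simp
  · refine (w.ir_mix hθ (h.ir_KS n l) (h.ir_KS n' l') u).congr (.of_forall fun x => ?_)
    simp only [z, map_add, map_smul]

end Hs0
end gen

theorem mixE_self {M ι lam : Type} [Fintype ι] [Fintype lam] {r : ℕ} (θ : M → ℝ)
    (e : PtX M ι lam r 0 0) : mixE θ e e = e :=
  PtX.eqv.injective (funext fun c => Prod.ext (funext fun x => Convex.combo_self (by simp) _)
    (Prod.ext (funext fun x => Convex.combo_self (by simp) _) (Subsingleton.elim _ _)))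

variable {κ lam : Type} [Fintype κ] [Fintype lam] {k : ℕ} {Y : M.Mf 3} [CompactSpace Y.M]
  {D : YD Y.I Y.M κ lam} {β : YC Y.M κ lam} {f : Bool}

theorem hs0 (hD : D.OK) (h : D.Adm β) (hf : f = true ∨ D.Zr β) : Hs0 (spO f univ) D β :=
  ⟨hD, h, Y.dim.le, by cases f; exacts [.inr rfl, .inl rfl], fun x hx => by
    rcases hf with rfl | hf
    exacts [(hx trivial).elim, hf _]⟩

theorem ix_mix (hk : 7 ≤ k) (C : CzStmt κ lam k) {N : Bool → ND Y.M lam}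
    (hX : ∀ o, (XD.mk Y D (N o)).OK) (ir : D.Zr β → ¬D.Ln β) (hf : f = true ∨ D.Zr β)
    {K : Bool → HZ D β 0 →L[ℝ] HZ D β 0} (n : ∀ o, Hn (N o) (K o)) {σ σ' : ℝ →ᵇ ℝ} {r : ℝ}
    (hσ : Stp σ σ' r) : ∀ᶠ δ in 𝓝[>] (0 : ℝ), (∀ o, Fz κ lam k ⟨Y, D, N o⟩ f β δ) ∧
      (zB D N).Ix (spO f univ) (cy β) k δ (sfS (spO f univ) D β σ
        (kS' _ (K false) + δ • jY' _ D β) (kS' _ (K true) - δ • jY' _ D β)) := by
  have := (hX true).con
  have hD := (hX true).ok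
  have h := hs0 hD (n true).kp.adm hf
  have I := fun o o' => h.inv_mix (n o) ir (n o') hk hσ sm_g1 (fun t ht => g1_neg (by linarith))
    fun t => g1_one
  choose δ₀ p₀ C using fun o => C _ (hX o)
  obtain ⟨δ₁, p₁, Z⟩ := Ixz30.chz (κ := κ) (lam := lam) k
  have e : (⟨β.m, β.W, bif f then β.Φ else 0, 0⟩ : YC Y.M κ lam) = β := by
    rw [show (bif f then β.Φ else 0) = β.Φ by
      rcases hf with rfl | hf
      exacts [rfl, by cases f; exacts [(funext hf).symm, rfl]], Subsingleton.elim 0 β.z]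
  refine (((eventually_all.2 fun o => (I o o).and (Ioo_mem_nhdsGT (p₀ o))).and (I false true)).and
    (Ioo_mem_nhdsGT p₁)).mono fun δ H => ?_
  obtain ⟨⟨H, J⟩, hδ⟩ := H
  have A : ∀ o, (Aff (refZ T0 δ h.adm h.z) (Fs (famZ T0 D δ (spO f univ))) 0 0 0 fun _ =>
      eQ D (N o)) ∧ ∀ sg, sg = 1 ∨ sg = -1 → LocZ (δ := δ) h.adm h.z k (eQ D (N o)) sg :=
    fun o => C o δ (H o).2 _ β h.adm h.z h.O (n o).crit
  have B := fun o => (H o).1 (by rw [mixE_self]; exact (A o).1)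
  simp only [mixE_self] at B
  have A' := aff_mix (ok_famZ hD h.dim hδ.1.le (clo h.O)) ((wZ D δ _).wp.Cb.2 (cb_snd _ sm_g1))
    (A false).1 (A true).1
  have J := J A'
  refine ⟨fun o β' h' O' h0 eO q => ?_, Z δ hδ Y D N f β h.adm h.z _ _ hD this A'
    (fun o => ⟨⟨(A o).1, ⟨_, B o⟩, (A o).2⟩, fun c x hx => ?_⟩) (by with_reducible exact J)⟩
  · subst eO
    rw [e] at q
    have a := C o δ (H o).2 _ β' h' h0 h.O
      (Eqv71.crit_iso ⟨hD, tame_Z hD⟩ (hX o).nd (n o).crit h' q)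
    exact ⟨a.1, ⟨_, Ixz30.natz κ lam hk ⟨Y, D, N o⟩ δ _ β β' h.adm h.z h' h0 _ (hX o) hδ.1 h.O q
      (A o).1 a.1 (B o)⟩, a.2⟩
  · cases o
    · have : g1 x.2 = 0 := g1_neg (by simp at hx; linarith)
      simp [mixE, this, eZ]
    · have : g1 x.2 = 1 := g1_one (by simpa using hx)
      simp [mixE, this, eZ]

variable (κ lam) in
/-- the package of the Hessian on all cross-sections -/
def KpAll : Prop := ∀ (Y : M.Mf 3) [CompactSpace Y.M], All Y.I Y.M κ lam Kp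

theorem ex_hn (P : KpAll κ lam) {N : ND Y.M lam} (hX : (XD.mk Y D N).OK) (g : Gd N D β) :
    ∃ K : HZ D β 0 →L[ℝ] HZ D β 0, Hn N K :=
  have p := P Y N D β ⟨hX.ok, hX.nd, g.crit.sol.toAdm, g.crit.tmp⟩
  (p.exists_K (.inl rfl)).imp fun _ h => ⟨p, h, g.crit, g.nd⟩

/-- **IX-INV** -/
theorem inv (hk : 7 ≤ k) (C : CzStmt κ lam k) (P : KpAll κ lam) : InvStmt κ lam k :=
  fun X hX f β g hf => by
  obtain ⟨K, n⟩ := ex_hn P hX g
  obtain ⟨σ, σ', hσ⟩ := exists_stp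
  have := hX.con
  have h := hs0 hX.ok n.kp.adm hf
  have o := h.cz.cyO
  obtain ⟨v, a, b⟩ := h.k1 n g.irr
  obtain ⟨_, _, t, e⟩ := h.tk n
  refine ((ix_mix hk C (N := fun _ => X.N) (fun _ => hX) g.irr hf (fun _ => n) hσ).and (sf_one
    o.cylD (o.isSF hσ).cpt (o.frL 0) hσ h.sym_j (fun x y => ?_) a)).mono fun δ H => ⟨H.1.1 true, ?_⟩
  · exact (congrArg (⟪· x, y⟫_ℝ) e).symm.trans ((t.kk_symm x y).trans (congrArg (⟪x, · y⟫_ℝ) e))
  · refine (congrArg (X.bg.Ix (spO f univ) (cy β) k δ) (H.2.2.2.trans ?_)).mp H.1.2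
    rw [Nd18.nz]
    by_cases q : X.D.Fx β
    · simp [q, b]
    · simp [q, b, hf.resolve_right fun z => q (fx_of_zr z)]

end Crest.Agent.X212.Crt72
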