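import Crest.Agent.X212.Crt72.Loc

/-!
# Row 212, CRIT (helper72): the three charts, compactness
-/

set_option autoImplicit false
set_option linter.unusedSectionVars false
noncomputable section
open Set Filter Topology Function
open scoped ContDiff InnerProductSpace

namespace Crest.Agent.X212.Crt72.GM
open Fred93
open ContinuousLinearMap (fst snd inl inr)

variable {Bc Bw B2 : Type} {Q : GM Bc Bw B2}

theorem Ch.mono {o w π P t} (C : Q.Ch o w π P t) {P' : Q.C o → Prop} (h : ∀ v, P' v → P v)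
    (hi : ∀ η v, P' v → P' (Q.act o η v)) : Q.Ch o w π P' t :=
  ⟨C.sl, hi, C.near.mono fun v hv h1 h2 => hv h1 (h v h2), C.tn, C.tr⟩

namespace Ax
variable (H : Q.Ax) {o : Q.X}
include H

theorem dbij (hb : Bijective (Q.σ o ∘L Q.d o 0)) :
    ∀ᶠ v in 𝓝 (0 : Q.C o), Bijective (Q.σ o ∘L Q.d o v) :=
  (continuous_const.clm_comp (H.gr.cd o)).continuousAt.eventually (isOpen_bij.mem_nhds hb)

theorem sl0 (hb : Bijective (Q.σ o ∘L Q.d o 0)) : ∀ N ∈ 𝓝 (0 : Q.C o), ∀ᶠ v in 𝓝 0, ∃ η,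
    Q.act o η v ∈ N ∧ Q.σ o (Q.act o η v) = 0 ∧ Q.b o (Q.ic o 0) (Q.act o η v) = 0 := fun N hN => by
  let m : Q.L o × Q.C o →L[ℝ] (Q.L o × ℝ) × Q.C o :=
    (inl ℝ _ _).prodMap (ContinuousLinearMap.id ℝ _)
  have h1 : HasStrictFDerivAt (fun z : Q.L o × Q.C o => Q.act o (z.1, 0) z.2)
      ((Q.d o 0).coprod (ContinuousLinearMap.id ℝ _)) (0, 0) :=
    ((H.gr.strict o 0).comp (0, 0) m.hasStrictFDerivAt).congr_fderiv
      (by ext <;> simp [m, dd_apply])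
  filter_upwards [slice h1 (H.gr.act0 o 0) hb hN] with v ⟨ξ, h⟩
  exact ⟨(ξ, 0), h.1, h.2, by simp⟩

theorem tr0 (hb : Bijective (Q.σ o ∘L Q.d o 0)) (hf : Q.Fixv o 0) (η)
    (h : Q.σ o (Q.dd o 0 η) = 0) : Q.dd o 0 η = 0 := by
  obtain ⟨ξ, hξ⟩ := hf
  rw [dd_apply, ← hξ, ← map_smul, ← map_add] at h ⊢
  rw [(injective_iff_map_eq_zero _).1 hb.1 _ h, map_zero]

theorem chFull (hb : Bijective (Q.σ o ∘L Q.d o 0)) (hf : Q.Fixv o 0) :
    Q.Ch o 0 (ContinuousLinearMap.id ℝ _) (fun _ => True) False where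
  sl := H.sl0 hb
  inv _ _ := id
  near := (H.dbij hb).mono fun v hv _ _ => ⟨rfl, fun u _ => by
    obtain ⟨η, hη⟩ := hv.2 (Q.σ o u)
    exact ⟨(η, 0), u - Q.d o v η, by simp [dd_apply], rfl, by simpa [sub_eq_zero] using hη.symm,
      by simp⟩⟩
  tn _ _ := False.elim
  tr η h _ := H.tr0 hb hf η h

theorem kerM (hb : Bijective (Q.σ o ∘L Q.d o 0)) {m}
    (h : ∀ η, Q.b o (Q.D o m) (Q.d o 0 η) = 0) : m = 0 := by
  obtain ⟨η, hη⟩ := hb.2 (Q.ih o m)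
  have h1 := (H.adj o (Q.d o 0 η) m).trans (h η)
  rw [show Q.σ o (Q.d o 0 η) = _ from hη] at h1
  exact congrArg Prod.snd (H.op.posι (z := (0, m)) (by simpa [ι] using h1))

theorem chFix {ξ l} (S : Q.Spl o ξ l) (hl : l ≠ 0) (hb : Bijective (Q.σ o ∘L Q.d o 0)) :
    Q.Ch o 0 (pk0 (Q.XC o ξ) l) (Q.Fixv o) True ∧ Q.Ch2 o 0 (pk0 (Q.XC o ξ) l) := by
  have h0 : Q.d o 0 ξ = Q.J o 0 := (sub_eq_zero.1 ((S.C 0).symm.trans (map_zero _))).symm
  refine ⟨⟨H.sl0 hb, fun η v => ((H.gr.mor o η).choose_spec.fix_iff v).2,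
    (H.dbij hb).mono fun v hv h1 ⟨ξ', h2⟩ => ?_, fun n hn _ ξ' h1 => ?_,
    fun η h _ => H.tr0 hb ⟨ξ, h0⟩ η h⟩, 1, pk0 (Q.XM o ξ) l, pk0 (Q.XE o ξ) l, pk0 (Q.XH o ξ) l, ?_⟩
  · have hi := (injective_iff_map_eq_zero _).1 hv.1
    have h3 : ξ' = ξ := sub_eq_zero.1 (hi _ (by
      rw [ContinuousLinearMap.comp_apply, map_sub, h2, ← S.C, H.σ_X S, h1, map_zero]))
    subst h3
    have h4 : Q.XC o ξ' v = 0 := by rw [S.C, h2, sub_self]
    refine ⟨pk0_of l h4, fun u hu => ?_⟩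
    obtain ⟨η, hη⟩ := hv.2 (Q.σ o u)
    have h5 : Q.XC o ξ' u = 0 := by
      have := S.C (v + u)
      rwa [hu trivial ξ' h2, sub_self, map_add, h4, zero_add] at this
    have h6 : Q.XL o ξ' η = 0 := hi _ (by
      rw [ContinuousLinearMap.comp_apply, ← S.d v η h4, H.σ_X S, show Q.σ o (Q.d o v η) = _ from hη,
        ← H.σ_X S, h5, map_zero])
    exact ⟨(η, 0), u - Q.d o v η, by simp [dd_apply], pk0_of l (by
      rw [map_sub, h5, S.d v η h4, h6, map_zero, sub_self]), by simpa [sub_eq_zero] using hη.symm,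
      by simp⟩
  · obtain rfl : ξ' = ξ := hb.1 (congrArg (Q.σ o) (h1.trans h0.symm))
    rw [zero_add, eq_comm, ← sub_eq_zero, ← S.C, ← hn, X_pk0 hl (H.cubeC S)]
  have eZ : (pk0 (Q.XC o ξ) l).prodMap (pk0 (Q.XM o ξ) l) = pk0 ((Q.XC o ξ).prodMap (Q.XM o ξ)) l :=
    ContinuousLinearMap.ext fun _ => rfl
  have eY : (pk0 (Q.XE o ξ) l).prodMap (pk0 (Q.XH o ξ) l) = pk0 ((Q.XE o ξ).prodMap (Q.XH o ξ)) l :=
    ContinuousLinearMap.ext fun _ => rfl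
  rw [eZ, eY]
  refine ⟨fun q hq => ⟨⟨fun z => pk0_of l (X_pk0 hl (H.cubeZ S) z), pk0_comm l (H.ext_X S hq),
    pk0_comm l (H.ι_X S), fun y z => ?_⟩, pk0_of l (H.X_F0 S hq)⟩,
    fun y => pk0_of l (X_pk0 hl (H.cubeY S) y), map_zero _, fun u m s h1 h2 =>
      ⟨H.kerM hb fun η => by simpa [dd_apply] using h1 (η, 0), by simpa using h2⟩⟩
  simp only [pk0_apply, map_add, map_smul, add_apply, smul_apply, H.skewY S, neg_neg]

theorem bb_pos {u} (h : Q.b o (Q.ic o u) u = 0) : u = 0 :=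
  congrArg Prod.fst (H.op.posι (z := (u, 0)) (by rw [← h, ← H.op.pair' o _ (u, 0)]; simp [ι]))

theorem b_d {u} (h : Q.σ o u = 0) (η) : Q.b o (Q.ic o (Q.d o 0 η)) u = 0 := by
  rw [← H.op.Dim, ← H.adj, h]; simp [Prod.mk_zero_zero]

theorem cdd : Continuous (Q.dd o) :=
  (ContinuousLinearMap.coprodEquivL (𝕜 := ℝ) (F := ℝ) ℝ).continuous.comp ((H.gr.cd o).prodMk
    ((ContinuousLinearMap.smulRightL ℝ ℝ (Q.C o) (ContinuousLinearMap.id ℝ ℝ)).continuous.comp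
      (H.gr.cJ o)))

theorem free_bij (hf : ¬Q.Fixv o 0) :
    Bijective ((Q.σ o).prod (Q.b o (Q.ic o (Q.J o 0))) ∘L Q.dd o 0) := by
  have hb := H.op.bij o (.inl fun h => hf ⟨0, by simp [h]⟩)
  have key : ∀ η, Q.σ o (Q.dd o 0 η) = 0 → Q.b o (Q.ic o (Q.dd o 0 η)) (Q.dd o 0 η) =
      η.2 * Q.b o (Q.ic o (Q.J o 0)) (Q.dd o 0 η) := fun η h => by
    nth_rewrite 1 [dd_apply]
    simp [H.b_d h]
  have hi : ∀ η, Q.dd o 0 η = 0 → η = 0 := fun η h => by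
    have h2 : η.2 = 0 := by
      by_contra h2
      refine hf ⟨-η.2⁻¹ • η.1, ?_⟩
      rw [dd_apply] at h
      rw [map_smul, eq_neg_of_add_eq_zero_left h, smul_neg, neg_smul, neg_neg, inv_smul_smul₀ h2]
    exact Prod.ext (hb.1 (by simpa [dd_apply, h2] using congrArg (Q.σ o) h)) h2
  refine ⟨(injective_iff_map_eq_zero _).2 fun η h => hi η (H.bb_pos (by
    rw [key η (congrArg Prod.fst h), show Q.b o _ (Q.dd o 0 η) = 0 from congrArg Prod.snd h,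
      mul_zero])), fun y => ?_⟩
  obtain ⟨ξ, hξ⟩ := hb.2 (-Q.σ o (Q.J o 0))
  obtain ⟨ξ', hξ'⟩ := hb.2 y.1
  have h1 : Q.σ o (Q.dd o 0 (ξ, 1)) = 0 := by
    simpa [dd_apply, add_eq_zero_iff_eq_neg] using hξ
  have h2 : Q.b o (Q.ic o (Q.J o 0)) (Q.dd o 0 (ξ, 1)) ≠ 0 := fun h =>
    one_ne_zero (congrArg Prod.snd (hi _ (H.bb_pos (by rw [key _ h1, h, mul_zero]))))
  refine ⟨(ξ', 0) + ((y.2 - Q.b o (Q.ic o (Q.J o 0)) (Q.dd o 0 (ξ', 0))) /
    Q.b o (Q.ic o (Q.J o 0)) (Q.dd o 0 (ξ, 1))) • (ξ, 1), ?_⟩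
  rw [map_add, map_smul]
  refine Prod.ext ?_ ?_
  · simpa [h1, dd_apply o 0 (ξ', 0)] using hξ'
  · simp [h2]

theorem free_ev (hf : ¬Q.Fixv o 0) : ∀ᶠ v in 𝓝 (0 : Q.C o),
    Bijective ((Q.σ o).prod (Q.b o (Q.ic o (Q.J o 0))) ∘L Q.dd o v) :=
  (continuous_const.clm_comp H.cdd).continuousAt.eventually (isOpen_bij.mem_nhds (H.free_bij hf))

/-- the fixed points are closed -/
theorem fix_closed (h : ∃ᶠ v in 𝓝 0, Q.Fixv o v) : Q.Fixv o 0 := by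
  by_contra hf
  obtain ⟨v, ⟨ξ, h1⟩, h2⟩ := (h.and_eventually (H.free_ev hf)).exists
  exact one_ne_zero (congrArg Prod.snd (h2.1 (a₁ := (-ξ, 1)) (a₂ := 0) (by simp [dd_apply, h1])))

theorem chFree (hf : ¬Q.Fixv o 0) :
    Q.Ch o (Q.J o 0) (ContinuousLinearMap.id ℝ _) (fun _ => True) True ∧
      Q.Ch2 o (Q.J o 0) (ContinuousLinearMap.id ℝ _) := by
  have hb := H.op.bij o (.inl fun h => hf ⟨0, by simp [h]⟩)
  have hB := H.free_bij hf
  set σ' := (Q.σ o).prod (Q.b o (Q.ic o (Q.J o 0)))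
  refine ⟨⟨fun N hN => ?_, fun _ _ => id,
    (H.free_ev hf).mono fun v hv _ _ => ⟨rfl, fun u _ => ?_⟩, fun _ _ _ ξ h => (hf ⟨ξ, h⟩).elim,
    fun η h1 h2 => by
      rw [(injective_iff_map_eq_zero _).1 hB.1 η (Prod.ext h1 h2), map_zero]⟩, 0, ContinuousLinearMap.id ℝ _, ContinuousLinearMap.id ℝ _,
    ContinuousLinearMap.id ℝ _, fun q _ => ⟨⟨fun _ => rfl, fun _ => rfl, fun _ => rfl,
      fun _ _ => rfl⟩, rfl⟩, fun _ => rfl, rfl, fun u m s h _ => ?_⟩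
  · filter_upwards [slice (H.gr.strict o 0) (H.gr.act0 o 0) hB hN] with v ⟨η, h⟩
    exact ⟨η, h.1, congrArg Prod.fst h.2, congrArg Prod.snd h.2⟩
  · obtain ⟨η, hη⟩ := hv.2 (σ' u)
    have h : σ' (u - Q.dd o v η) = 0 := by rw [map_sub, ← hη, sub_eq_zero]; rfl
    exact ⟨η, _, (add_sub_cancel _ _).symm, rfl, congrArg Prod.fst h, congrArg Prod.snd h⟩
  · obtain ⟨η, hη⟩ := hB.2 (0, 1)
    have h1 := h η
    rw [map_add, add_apply, ← H.adj, show Q.σ o (Q.dd o 0 η) = 0 from congrArg Prod.fst hη, map_smul,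
      smul_apply, show Q.b o _ (Q.dd o 0 η) = 1 from congrArg Prod.snd hη] at h1
    have h2 : s = 0 := by simpa [Prod.mk_zero_zero] using h1
    exact ⟨H.kerM hb fun η => by simpa [dd_apply, h2] using h (η, 0), h2⟩

/-- **compactness** -/
theorem cpt {κ ι : Type} [Fintype κ] {q : Q.Fd} {g : κ → Q.Fd} (hq : q ∈ Q.Rl)
    (hg : ∀ w, g w ∈ Q.Rl) (𝒰 : Ultrafilter ι) {p : ι → κ → ℝ} {p₀} (hp : Tendsto p 𝒰 (𝓝 p₀))
    {x : ι → Q.X} (hx : ∀ᶠ n in (𝒰 : Filter ι), Q.Sol (fam q g (p n)) (x n)) :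
    ∃ (o : Q.X) (v : ι → Q.C o), Tendsto v 𝒰 (𝓝 0) ∧ (∀ᶠ n in (𝒰 : Filter ι), Q.Rep o (v n) (x n)) ∧
      Q.Sol (fam q g p₀) o := by
  classical
  have key : ∀ r ∈ Q.Bl, ∃ (S : Finset (Bs Bc Bw B2)) (c : Bs Bc Bw B2 → Q.X → ℝ) (R : ℝ),
      (∀ j o, |c j o| ≤ R) ∧ ∀ S' ⊇ S, ∀ o, Q.gr r o 0 = ∑ j ∈ S', c j o • Q.τ j o 0 := fun r hr => by
    obtain ⟨S, c, h1, h2⟩ := H.gr_exp hr
    choose R hR using fun j => H.bdd (h1 j)
    refine ⟨S, fun j o => if j ∈ S then c j o 0 else 0, ∑ j ∈ S, |R j|, fun j o => ?_,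
      fun S' hS o => ?_⟩
    · dsimp only
      split_ifs with h
      · exact (hR j o).trans ((le_abs_self _).trans
          (Finset.single_le_sum (f := fun j => |R j|) (fun _ _ => abs_nonneg _) h))
      · simpa using Finset.sum_nonneg fun _ _ => abs_nonneg _
    · rw [h2, ← Finset.sum_subset hS fun j _ hj => by simp [hj]]
      exact Finset.sum_congr rfl fun j hj => by simp [hj]
  obtain ⟨S₀, c₀, R₀, a1, a2⟩ := key q (Rl_le hq)
  choose S c R b1 b2 using fun w => key (g w) (Rl_le (hg w))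
  have hG := hx.and (hp.eventually (Metric.closedBall_mem_nhds p₀ one_pos))
  obtain ⟨n₀, h₀⟩ := hG.exists
  let r : ι → ι := fun n => if Q.Sol (fam q g (p n)) (x n) ∧ p n ∈ Metric.closedBall p₀ 1 then n
    else n₀
  have hr : ∀ n, Q.Sol (fam q g (p (r n))) (x (r n)) ∧ p (r n) ∈ Metric.closedBall p₀ 1 :=
    fun n => by simp only [r]; split_ifs with h; exacts [h, h₀]
  obtain ⟨o, v, h1, h2⟩ := H.cp (S₀ ∪ Finset.univ.biUnion S) (R₀ + ∑ w, (‖p₀‖ + 1) * R w) ι 𝒰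
    (fun n j => c₀ j (x (r n)) + ∑ w, p (r n) w * c w j (x (r n))) (x ∘ r)
    (fun n j => (abs_add_le _ _).trans (add_le_add (a1 _ _) ((Finset.abs_sum_le_sum_abs _ _).trans
      (Finset.sum_le_sum fun w _ => (abs_mul _ _).trans_le (mul_le_mul ((norm_le_pi_norm (p (r n)) w).trans
        (norm_le_of_mem_closedBall (hr n).2)) (b1 _ _ _) (abs_nonneg _) (by positivity))))))
    fun n => by
      have h := (hr n).1
      rw [Sol, H.F_fam (Rl_le hq) fun w => Rl_le (hg w), F, a2 _ Finset.subset_union_left] at h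
      rw [← h, add_assoc]
      simp only [add_smul, Finset.sum_add_distrib, Finset.sum_smul, comp_apply]
      rw [Finset.sum_comm]
      refine congrArg _ (congrArg _ (Finset.sum_congr rfl fun w _ => ?_))
      rw [b2 w _ ((Finset.subset_biUnion_of_mem S (Finset.mem_univ w)).trans
        (Finset.subset_union_right (s₁ := S₀))), Finset.smul_sum]
      simp only [mul_smul]
  have h3 : ∀ᶠ n in (𝒰 : Filter ι), Q.Rep o (v n) (x n) := by
    filter_upwards [h2, hG] with n h3 h4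
    simpa [r, h4] using h3
  refine ⟨o, v, h1, h3, tendsto_nhds_unique (((H.sm_fam (Rl_le hq) (fun w => Rl_le (hg w))
    o).continuous.tendsto _).comp (h1.prodMk_nhds hp)) (tendsto_const_nhds.congr' ?_)⟩
  filter_upwards [h3, hx] with n h4 h5
  obtain ⟨T, A, ζ, c1, c2, c3⟩ := H.gr.rep o _ _ h4
  exact (c3 ▸ (H.eqv_zero (H.eqv_F c1 c2 (fam_mem hq hg _)) 0).2 h5).symm

end Ax

end Crest.Agent.X212.Crt72.GM
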