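import Crest.Agent.X212.Cyf70.Sf

/-!
# Row 212, CRIT (helper72): excision, change of the gauge row, weak limits
-/

set_option autoImplicit false
set_option linter.unusedSectionVars false
open Function Filter Topology Module Set
open scoped RealInnerProductSpace

noncomputable section
namespace Crest.Agent.X212.Crt72
open Cyf70
open Fred93 (Fr)
open ContinuousLinearMap (fst snd adjoint)

variable {X Y Z W G H : Type*} [NormedAddCommGroup X] [NormedSpace ℝ X] [CompleteSpace X]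
  [NormedAddCommGroup Y] [NormedSpace ℝ Y] [CompleteSpace Y]
  [NormedAddCommGroup Z] [NormedSpace ℝ Z] [CompleteSpace Z]
  [NormedAddCommGroup W] [NormedSpace ℝ W] [CompleteSpace W]
  [NormedAddCommGroup G] [NormedSpace ℝ G] [CompleteSpace G]
  [NormedAddCommGroup H] [NormedSpace ℝ H] [CompleteSpace H]

theorem fr_shear (r : X →L[ℝ] Z) :
    Fr ((fst ℝ X Z).prod (r.coprod (ContinuousLinearMap.id ℝ Z))) 0 :=
  ((Fred93.Fr.tri' r Fred93.Fr.id Fred93.Fr.id).congr fun x => by simp).cast (by simp)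

/-- **excision** -/
theorem excise {A A' : X →L[ℝ] Y} {B Δ : Z →L[ℝ] W} {r : X →L[ℝ] Z} {r' : Y →L[ℝ] W}
    {e' : W →L[ℝ] Y} {a a' b b' : ℤ} (hA : Fr A a) (hA' : Fr A' a') (hB : Fr B b)
    (hB' : Fr (B + r' ∘L e' ∘L Δ) b') (h1 : Cq (r' ∘L A) (B ∘L r))
    (h2 : Cq A' (A + e' ∘L Δ ∘L r)) : a' + b = a + b' := by
  have k1 := (fr_shear r').comp ((Fred93.Fr.tri (e' ∘L Δ) hA' hB).comp (fr_shear (-r)))
  have k2 := (((h2.left (ContinuousLinearMap.inl ℝ Y W + ContinuousLinearMap.inr ℝ Y W ∘L r')).add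
    (h1.left (ContinuousLinearMap.inr ℝ Y W))).right (fst ℝ X Z)).add
    (Cq.refl ((e' ∘L Δ ∘L (snd ℝ X Z - r ∘L fst ℝ X Z)).prod
      ((B + r' ∘L e' ∘L Δ) ∘L (snd ℝ X Z - r ∘L fst ℝ X Z) - r' ∘L A ∘L fst ℝ X Z)))
  refine ((zero_add _).trans (add_zero _)).symm.trans (k1.unique ((k2.congr
    (fun x => Prod.ext ?_ ?_) fun x => Prod.ext ?_ ?_).fr (Fred93.Fr.tri (e' ∘L Δ) hA hB')))
  all_goals simp
  all_goals abel

/-- **change of the gauge row** -/
theorem fr_row {T T' : X →L[ℝ] W} {d : G →L[ℝ] X} {r r' : X →L[ℝ] H} {i : H →L[ℝ] W}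
    (h : Bijective (r ∘L d)) (h' : Bijective (r' ∘L d)) (e : ∀ x, T' x = T x + i (r' x - r x))
    (e0 : ∀ g, T (d g) = i (r (d g))) {n : ℤ} (hT : Fr T n) : Fr T' n := by
  let a := ContinuousLinearEquiv.ofBijective _ (LinearMap.ker_eq_bot.2 h.1)
    (LinearMap.range_eq_top.2 h.2)
  let b := ContinuousLinearEquiv.ofBijective _ (LinearMap.ker_eq_bot.2 h'.1)
    (LinearMap.range_eq_top.2 h'.2)
  have ha : ∀ y, r (d (a.symm y)) = y := a.apply_symm_apply
  have hb : ∀ y, r' (d (b.symm y)) = y := b.apply_symm_apply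
  have ha' : ∀ y, a.symm (r (d y)) = y := a.symm_apply_apply
  have hb' : ∀ y, b.symm (r' (d y)) = y := b.symm_apply_apply
  let S := ContinuousLinearEquiv.equivOfInverse
    (ContinuousLinearMap.id ℝ X + d ∘L (a.symm : H →L[ℝ] G) ∘L (r' - r))
    (ContinuousLinearMap.id ℝ X + d ∘L (b.symm : H →L[ℝ] G) ∘L (r - r'))
    (fun x => by simp [ha, hb']; abel) fun x => by simp [hb, ha']; abel
  exact ((hT.comp (Fred93.Fr.equiv S)).congr fun x => by simp [S, e, e0, ha]).cast (add_zero n)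

end Crest.Agent.X212.Crt72
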