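import Crest.Agent.X212.Crt72.Dc1
import Crest.Agent.X212.Nk89.Idx

/-!
# Row 212, DICT (helper72): the weight `δ |t|` on the cylinder
-/

set_option autoImplicit false
set_option linter.unusedSectionVars false
noncomputable section
open scoped Manifold ContDiff Topology InnerProductSpace BoundedContinuousFunction
open MeasureTheory Set Function Filter Real

namespace Crest.Agent.X212.Crt72
open An An.Pre Sob92 Ell97 Cyf70 Nk89 Rf65

/-! ### the smoothed absolute value -/

/-- the derivative of `t ↦ t s(t)` -/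
def g1 (t : ℝ) : ℝ := smoothTransition t + t * deriv smoothTransition t

theorem dst_zero {t : ℝ} (h : t ∉ Icc (0 : ℝ) 1) : deriv smoothTransition t = 0 := by
  rcases not_and_or.1 h with h | h
  · exact Neck67.deriv_zero_off (K := Ici 0) isClosed_Ici
      (fun t ht => smoothTransition.zero_of_nonpos (not_le.1 ht).le) t h
  · exact Neck67.deriv_zero_off (K := Iic 1) isClosed_Iic
      (fun t ht => smoothTransition.one_of_one_le (not_le.1 ht).le) t h

theorem sm_g1 : Neck67.Sm g1 := Neck67.sm_step.add (.of_cpt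
  (contDiff_id.mul Neck67.sm_step.deriv.cd) (.intro (isCompact_Icc (a := 0) (b := 1)) fun t ht => by
    simp [dst_zero ht]))

theorem g1_neg {t : ℝ} (h : t ≤ 0) : g1 t = 0 := by
  rw [g1, smoothTransition.zero_of_nonpos h, zero_add]
  rcases h.eq_or_lt with rfl | h
  exacts [zero_mul _, by rw [dst_zero fun a => h.not_ge a.1, mul_zero]]

theorem g1_one {t : ℝ} (h : 2 ≤ t) : g1 t = 1 := by
  rw [g1, smoothTransition.one_of_one_le (by linarith), dst_zero fun a => by linarith [a.2]]; simp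

theorem g1_nonneg (t : ℝ) : 0 ≤ g1 t := (le_total t 0).elim (fun h => (g1_neg h).ge) fun h =>
  add_nonneg (smoothTransition.nonneg t) (mul_nonneg h smoothTransition.monotone.deriv_nonneg)

theorem deriv_ab (δ : ℝ) : deriv (fun t => δ * ab t) = fun t => δ * (g1 t - g1 (-t)) := by
  have h : ∀ t, HasDerivAt (fun t => t * smoothTransition t) (g1 t) t := fun t => by
    simpa [g1] using (hasDerivAt_id t).fun_mul (Neck67.sm_step.diff t).hasDerivAt
  funext t
  simpa [ab, sub_eq_add_neg] using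
    (((h t).fun_add ((h (-t)).comp t (hasDerivAt_neg t))).const_mul δ).deriv

theorem sm_dab (δ : ℝ) : Neck67.Sm (deriv fun t => δ * ab t) := by
  rw [deriv_ab]
  simpa [Pi.smul_def, Pi.sub_def] using (sm_g1.sub (sm_g1.aff (a := -1) (by simp) 0)).smul δ

theorem ab_nonneg (t : ℝ) : 0 ≤ ab t := by
  have h : ∀ t, 0 ≤ t * smoothTransition t := fun t => (le_total t 0).elim
    (fun h => by rw [smoothTransition.zero_of_nonpos h, mul_zero])
    fun h => mul_nonneg h (smoothTransition.nonneg t)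
  exact add_nonneg (h t) (h (-t))

theorem ab_hi (δ : ℝ) {t : ℝ} (h : 2 ≤ t) :
    δ * ab t = δ * t ∧ deriv (fun t => δ * ab t) t = δ := by
  rw [deriv_ab]
  simp [ab, g1_one h, g1_neg (t := -t) (by linarith), smoothTransition.one_of_one_le
    (x := t) (by linarith), smoothTransition.zero_of_nonpos (x := -t) (by linarith)]

theorem ab_lo (δ : ℝ) {t : ℝ} (h : t ≤ -2) :
    δ * ab t = -δ * t ∧ deriv (fun t => δ * ab t) t = -δ := by
  rw [deriv_ab]
  simp [ab, g1_one (t := -t) (by linarith), g1_neg (t := t) (by linarith),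
    smoothTransition.one_of_one_le (x := -t) (by linarith),
    smoothTransition.zero_of_nonpos (x := t) (by linarith)]

theorem bd_ab : ∃ A > 0, ∀ δ, Neck67.Bd 0 (deriv fun t => δ * ab t) (|δ| * A) := by
  obtain ⟨A, hA⟩ := (sm_dab 1).bd 0
  refine ⟨A + 1, by linarith [hA.nonneg], fun δ t => ?_⟩
  have := hA t
  rw [deriv_ab] at this ⊢
  rw [abs_mul]
  exact mul_le_mul_of_nonneg_left (by simpa using this.trans (lt_add_one A).le) (abs_nonneg δ)

/-- the divergence of `arctan(t) ∂_t` -/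
theorem div_ab {δ : ℝ} (h : 0 < δ) (t : ℝ) :
    min (1 / 5) δ ≤ 1 / (1 + t ^ 2) + 2 * deriv (fun t => δ * ab t) t * arctan t := by
  have a1 : ∀ {t}, 2 ≤ t → 1 / 2 ≤ arctan t := fun ht => by
    have := arctan_strictMono.monotone (one_le_two.trans ht)
    rw [arctan_one] at this; linarith [pi_gt_three]
  have p : 0 < 1 / (1 + t ^ 2) := by positivity
  by_cases h1 : 2 ≤ t
  · rw [(ab_hi δ h1).2]; nlinarith [min_le_right (1 / 5) δ, a1 h1]
  by_cases h2 : t ≤ -2
  · have := a1 (t := -t) (by linarith)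
    rw [arctan_neg] at this
    rw [(ab_lo δ h2).2]; nlinarith [min_le_right (1 / 5) δ]
  refine (min_le_left _ _).trans (le_add_of_le_of_nonneg
    (one_div_le_one_div_of_le (by positivity) (by nlinarith)) ?_)
  rw [deriv_ab]
  rcases le_total t 0 with h0 | h0
  · have := mul_nonneg (mul_nonneg h.le (g1_nonneg (-t))) (arctan_nonneg.2 (neg_nonneg.2 h0))
    simp only [g1_neg h0, arctan_neg] at this ⊢; linarith
  · have := mul_nonneg (mul_nonneg h.le (g1_nonneg t)) (arctan_nonneg.2 h0)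
    simp only [g1_neg (neg_nonpos.2 h0)]; linarith

variable {E : Type} [NormedAddCommGroup E] [NormedSpace ℝ E] [FiniteDimensional ℝ E]
  [MeasurableSpace E] [BorelSpace E]
  {HM : Type} [TopologicalSpace HM] {I : ModelWithCorners ℝ E HM} [I.Boundaryless]
  {Y : Type} [TopologicalSpace Y] [ChartedSpace HM Y] [IsManifold I ∞ Y] [T2Space Y]
  [MeasurableSpace Y] [BorelSpace Y] [SecondCountableTopology Y] [CompactSpace Y]
  {ι : Type} [Fintype ι]
  {V W : Type} [NormedAddCommGroup V] [InnerProductSpace ℝ V] [NormedAddCommGroup W]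
  [InnerProductSpace ℝ W] [FiniteDimensional ℝ V] [FiniteDimensional ℝ W]
  {F : Fr I Y ι} {G : Fr (IC I) (Y × ℝ) (Option ι)} {ψ : ℝ → ℝ} {p : Y → V →L[ℝ] V} {δ : ℝ}

theorem wz_ab (h : Wt (cyl F) G fun x => δ * ab x.2) : Wz F G fun t => δ * ab t :=
  ⟨h, contDiff_const.mul sm_ab, sm_dab δ⟩

namespace Wz

theorem hardy (w : Wz F G fun t => δ * ab t) (h : 0 < δ) :
    HdD G (fun a x => a.elim (arctan x.2) fun _ => 0) 0 (min (1 / 5) δ) 0 2 := by
  have s : ContDiff ℝ ∞ arctan := contDiff_arctan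
  refine ⟨fun a => ?_, fun a x => ?_, contMDiff_const, by positivity, le_rfl, fun x => ?_⟩
  · cases a
    exacts [sm_snd s, contMDiff_const]
  · cases a with
    | none => exact (abs_le (a := arctan x.2)).2 ⟨by
        linarith [neg_pi_div_two_lt_arctan x.2, pi_le_four],
        by linarith [arctan_lt_pi_div_two x.2, pi_le_four]⟩
    | some a => simp
  · have e1 : G.D none (fun x => arctan x.2) x = 1 / (1 + x.2 ^ 2) := by
      rw [w.wp.D, D_none_snd _ s, Real.deriv_arctan]
    have e2 : G.dv none x = 2 * deriv (fun t => δ * ab t) x.2 := by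
      rw [w.wt.dv, ← congrFun w.D_none x]; exact zero_add _
    rw [Pre.D_def] at e1
    simpa [Fintype.sum_option, e1, e2, Pre.D_def, dv_const] using div_ab h x.2

variable (w : Wz F G ψ)
include w

theorem tame (h3 : Module.finrank ℝ E ≤ 3) (h0 : ∀ t, 0 ≤ ψ t) : ∃ C, G.Tame C :=
  ⟨_, w.wt.tame (Cht98.tame_cyl F h3).choose_spec (fun x => h0 x.2) w.hD.choose_spec⟩

/-- **from the abstract cylinder to the weighted space** -/
theorem fr_sym {A : An.Op Y (Option ι) V W} (h : CyO F A) {j : Y → V →L[ℝ] V} (hj : Sm I j)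
    (mj : Maps A.p A.p j) {T : G.H 1 (pc A.p) →L[ℝ] G.H 0 (pc A.q)}
    (hT : G.Rep T fun u x => (cyo A).app (cyl F) u x +
      deriv ψ x.2 • A.σ none x.1 (u x - j x.1 (u x))) {K : Lam (F.H 0 A.p) →L[ℝ] Lam (F.H 0 A.p)}
    {n : ℤ} (H : Fred93.Fr (Dz (F.incl 1 0 A.p) (LH F A 0) (Ψ F.toPre 1 A.p) (TH F A.p)
      (K - ma (bc (deriv ψ)) (F.mulH 0 _ _ j))) n) :
    Fred93.Fr (T + (G.mulH 0 _ _ (fun x => A.σ none x.1) ∘L w.wK K) ∘L G.incl 1 0 _) n := by
  have cj := Cht98.Cb_fst _ (Cb_of_compact (F := F.toPre) hj)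
  have r1 := RepT_comp (rep_smulH (k := 0) (cb_snd F.toPre w.sm)) (RepT_comp (rep_mulH (k := 0)
    (p := pc A.p) (q := pc A.p) cj fun x => mj x.1) (rep_incl zero_le_one))
  have e1 := RepT_eq (RepT_comp (h.rep_NH (k := 0)) (RepT_comp (w.rep 0 _) hT))
    (RepT_comp (RepT_sub (RepT_comp h.rep_NH h.rep_AH) r1) (w.rep 1 _)) fun u => funext fun x => by
      have a : ∀ a, (cylP F.toPre).D (some a) (fun x => ψ x.2) x = 0 := fun a =>
        congrFun (D_some_snd _ w.cd a) x
      have b := u.2.2.2 x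
      change nu A x.1 (_ • ((∑ a, A.σ a x.1 ((cylP F.toPre).D a u.1 x) + _) + _)) =
        nu A x.1 (∑ a, A.σ a x.1 ((cylP F.toPre).D a _ x) + _) - _
      simp only [D_exp_smul _ w.wt.sm u.2.1, Fintype.sum_option, w.D_none, a, map_add, map_smul,
        map_sub, h.nu_σ, id, zero_smul, add_zero, map_sum, ← Finset.smul_sum, mj _ _ b]
      module
  have e2 := RepT_eq (RepT_comp (h.rep_NH (k := 0)) (RepT_comp (w.rep 0 _) (rep_mulH
    (w.wp.Cb.2 (h.cb_σ none)) (Maps.of_left (h.good.choose_spec.qσ none))))) (w.rep 0 _)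
    fun u => funext fun x => by rw [map_smul, h.nu_σ]; exact congrArg _ (u.2.2.2 x)
  have e3 := RepT_eq (RepT_comp (w.rep 0 (pc A.p)) (rep_incl zero_le_one))
    (RepT_comp (rep_incl zero_le_one) (w.rep 1 _)) fun _ => rfl
  refine (H.conj (w.cj 1 _) ((w.cj 0 _).trans h.U).symm).congr fun x => ?_
  refine (ContinuousLinearEquiv.eq_symm_apply _).2 ?_
  have a1 := congrArg (Ψ F.toPre 0 A.p) (DFunLike.congr_fun e1 x)
  have a2 := congrArg (Ψ F.toPre 0 A.p) (DFunLike.congr_fun e2 (w.wK K (G.incl 1 0 _ x)))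
  have a3 := congrArg (fun z => K (Ψ F.toPre 0 A.p z)) (DFunLike.congr_fun e3 x)
  have a4 := Ψ_nat r1 (rep_mulH (k := 0) (Cb_of_compact hj) mj) (bc (deriv ψ)) zero_le_one
    (fun u y t => by rw [bc_apply w.sm]; rfl) (w.cj 1 _ x)
  simp only [ContinuousLinearMap.comp_apply, _root_.sub_apply, map_sub, h.Ψ_AH,
    ContinuousLinearEquiv.coe_coe] at a1 a2 a3 a4
  rw [← w.ce_apply, w.ce_wK, w.ce_apply, a3] at a2
  simp only [ContinuousLinearEquiv.trans_apply, h.U_apply, _root_.add_apply, map_add,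
    ContinuousLinearMap.comp_apply, ContinuousLinearMap.coe_coe, a1, a2, a4, Dz_apply,
    ContinuousLinearEquiv.coe_coe, _root_.sub_apply, ← Ψ_incl zero_le_one]
  abel

end Wz

end Crest.Agent.X212.Crt72
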