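import Crest.Agent.X212.Crt72.Dc2
import Crest.Agent.X212.Cyf70.Kq

/-!
# Row 212, DICT (helper72): from the symmetric form to the gauge fixed linearisation
-/

set_option autoImplicit false
set_option linter.unusedSectionVars false
noncomputable section
open scoped Manifold ContDiff Topology InnerProductSpace BoundedContinuousFunction
open MeasureTheory Set Function Filter Real

namespace Crest.Agent.X212.Crt72
open An An.Pre Sob92 Ell97 Cyf70 Nk89 Rf65 Map77 Wz78 Op78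

section gen
variable {E : Type} [NormedAddCommGroup E] [NormedSpace ℝ E] [FiniteDimensional ℝ E]
  [MeasurableSpace E] [BorelSpace E]
  {HM : Type} [TopologicalSpace HM] {I : ModelWithCorners ℝ E HM} [I.Boundaryless]
  {M : Type} [TopologicalSpace M] [ChartedSpace HM M] [IsManifold I ∞ M]
  [MeasurableSpace M] [T2Space M] [BorelSpace M] [SecondCountableTopology M]
  {ι κ : Type} [Fintype ι] [Fintype κ] [DecidableEq κ] {G : Fr I M ι}

section iso
variable {V : Type} [NormedAddCommGroup V] [InnerProductSpace ℝ V] {p : M → V →L[ℝ] V}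
  {L L' : V →L[ℝ] V}

theorem maps_of (h : ∀ x v, p x (L v) = L (p x v)) : Maps p p fun _ => L :=
  fun x v hv => by rw [h, hv]

/-- a constant automorphism -/
def cE (k : ℕ) (h : Maps p p fun _ => L) (h' : Maps p p fun _ => L') (e : ∀ v, L' (L v) = v)
    (e' : ∀ v, L (L' v) = v) : G.H k p ≃L[ℝ] G.H k p :=
  .equivOfInverse (G.mulH k p p fun _ => L) (G.mulH k p p fun _ => L')
    (DFunLike.congr_fun (RepT_eq (RepT_comp (rep_mulH (Cb_const _) h') (rep_mulH (Cb_const _) h))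
      Rep_id fun _ => funext fun _ => e _))
    (DFunLike.congr_fun (RepT_eq (RepT_comp (rep_mulH (Cb_const _) h) (rep_mulH (Cb_const _) h'))
      Rep_id fun _ => funext fun _ => e' _))

theorem rp [FiniteDimensional ℝ V] {V' : Type} [NormedAddCommGroup V'] [InnerProductSpace ℝ V']
    [FiniteDimensional ℝ V'] {A : An.Op M ι V V'} (t : Tw G G) (h : Nc G.toPre G.P A) (k : ℕ) :
    G.Rep (Map77.LH G.toPre G.toPre k A.p A.q A) (A.app G) := t.rep h k

theorem LH_eq [FiniteDimensional ℝ V] {V' : Type} [NormedAddCommGroup V'] [InnerProductSpace ℝ V']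
    [FiniteDimensional ℝ V'] {A : An.Op M ι V V'} (t : Tw G G) (h : Nc G.toPre G.P A) (k : ℕ) :
    Map77.LH G.toPre G.toPre k A.p A.q A = A.H G k :=
  RepT_eq (t.rep h k) (rep_OpH (t.good h).choose_spec.2 k).1 fun _ => rfl

end iso

variable {d : Bd M ι κ} {Γ : ι → ι → ι → M → ℝ} {W : ι → M → En κ} {Φ : M → Eu κ}

theorem cp_wt {F : Fr I M ι} {ψ : M → ℝ} (C : Cp d F Γ W) (h : Wt F G ψ) : Cp d G Γ W :=
  ⟨C.ok, h.P.trans C.P, by rw [h.e, h.P, h.c]; exact C.lc, C.so, C.sρ, C.sg, C.ssp, C.ssm,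
    h.P ▸ C.con, C.sk, h.e ▸ C.g, h.e ▸ C.sp, h.e ▸ C.sm, h.e ▸ C.ρ⟩

theorem d0_app (C : Cp d G Γ W) (ξ : Sec I d.g) (x : M) :
    (∀ a, fa ((d.d0 G (base W Φ)).app G ξ.1 x) a = -nab I G.e (adw W) a ξ.1 x) ∧
      fp ((d.d0 G (base W Φ)).app G ξ.1 x) = d.sp x (opL (ξ.1 x) (Φ x)) := by
  classical
  have g := fun a => Cp.par_nab (F := G) (A := adw W) (a := a) (C.sg x) (C.g a x) (ξ.2.1 x) ξ.2.2.2
  rw [(C.rp_d0 Φ).app (ξ.2.2.2 x)]
  simp only [dop, C.ok.d0_σ, g, map_add, map_sum, map_neg, f2_i1, s2_i1, fa_z0, fp_z0, add_zero]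
  refine ⟨fun a => ?_, by simp⟩
  have := (frm G).projN C.con_adw a ξ.1 x
  rw [C.P] at this
  simp [ea_apply, Bd.Px, this]

variable (C : Cp d G Γ W) (H : d.Hy G G) (hW : ∀ a, G.Cb (W a))
include C H hW

omit C H in
theorem cb_base (hΦ : G.Cb Φ) : G.Cb (base W Φ) :=
  Cls.base (K := cb (fun _ : Unit => G.toPre) univ) (fun a _ _ => hW a) (fun _ _ => hΦ) () trivial

theorem bij_d0 {X : ι → M → ℝ} {c R : ℝ} (hy : HdD G X 0 c 0 R) (hΦ : G.Cb Φ) :
    Bijective (d.RR G.toPre G 0 (base W Φ) ∘L d.DD G.toPre G 1 (base W Φ)) := by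
  have c := cb_base hW hΦ
  obtain ⟨_, h1, h2⟩ := H.toTw.good (H.nc_d0 c)
  rw [show d.RR G.toPre G 0 _ = _ from LH_eq H.toTw (H.nc_row c) 0,
    show d.DD G.toPre G 1 _ = _ from LH_eq H.toTw (H.nc_d0 c) 1]
  exact LL_bij0 h1 h2 (H.cliffL_d0 H.P _) hy (fun a x => C.con_adw.sm a x) C.skew_adw
    (fun a => -(Map77.pj _ a ∘L fa)) (fun u a x => (neg_eq_iff_eq_neg.2 ((d0_app C u x).1 a)).symm) 0

omit C in
theorem nc_sful (hΦ : G.Cb Φ) : Nc G.toPre G.P (sful d G W Φ) :=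
  H.nc (in_sful (F := fun _ => G) H.inG (fun a b c _ _ => ⟨_, H.t1.choose_spec.c a b c⟩)
    (fun a _ _ => ⟨_, H.t1.choose_spec.dv a⟩) (fun a _ _ => hW a) fun _ _ => hΦ) (alg_sful H.toOK)

/-- **change of the scales and of the gauge row** -/
theorem fr_ful {X : ι → M → ℝ} {c R : ℝ} (hy : HdD G X 0 c 0 R) (hΦ : G.Cb Φ) (a : ι)
    {z : (M → Cf ι κ) → M → Cf ι κ} (pz : ∀ u : Sec I d.pC, ∀ x, d.pC x (z u.1 x) = z u.1 x)
    (gau : ∀ (ξ : Sec I d.g) u, u = (d.d0 G (base W Φ)).app G ξ.1 → ∀ x,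
      (d.lin G (base W Φ)).app G u x = kG d a x (z u x) ∧ fa (z u x) a = 0)
    {K : G.H 0 d.pC →L[ℝ] G.H 0 d.pC}
    (hK : Ir G.toPre K fun u x => sc2 _ _ 2 1 (z (fun y => sc2 _ _ 2 1 (u y)) x)) {n : ℤ}
    (h : Fred93.Fr (Map77.LH G.toPre G.toPre 0 d.pC (ps d.g d.pE) (sful d G W Φ) + (G.mulH 0 d.pC (ps d.g d.pE)
      ((sful d G W Φ).σ a) ∘L K) ∘L G.incl 1 0 _) n) :
    ∃ K₀ : G.H 0 d.pC →L[ℝ] G.H 0 d.pE, Ir G.toPre K₀ (fun u x => -kG d a x (z u x)) ∧
      Fred93.Fr (d.FF G.toPre G 0 (base W Φ) + (iH2 _ 0 d.g _ ∘L K₀) ∘L G.incl 1 0 _) n := by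
  have o := H.toOK
  have c2 : G.Cb fun y => (2 : ℝ) • Φ y := Cb_smul (Cb_const _) hΦ
  have t := H.toTw
  have m1 : ∀ a b, Maps d.pC d.pC fun _ => sc2 _ _ a b := fun a b =>
    maps_of fun x v => sm2_sc2 a b v _ _
  have m2 : ∀ a b : ℝ, Maps (ps d.g d.pE) (ps d.g d.pE)
      fun _ => sm2 (a • ContinuousLinearMap.id ℝ _) (sc2 _ _ 1 b) := fun a b =>
    maps_of fun x v => ext2 (by simp) (by rw [s2_ps, s2_sm2, s2_sm2, s2_ps]; exact sm2_sc2 1 b _ _ _)
  have i1' : ∀ v : Cf ι κ, sc2 _ _ 2 1 (sc2 _ _ (1 / 2) 1 v) = v := fun v => by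
    rw [sc2_sc2]; norm_num [sc2_one]
  have i2' : ∀ v : Cf ι κ, sc2 _ _ (1 / 2) 1 (sc2 _ _ 2 1 v) = v := fun v => by
    rw [sc2_sc2]; norm_num [sc2_one]
  have s1 := fun k => rep_mulH (F := G.toPre) (k := k) (Cb_const _) (m1 (1 / 2) 1)
  let a1 := cE (G := G) 1 (m1 (1 / 2) 1) (m1 2 1) i1' i2'
  let b := cE (G := G) 0 (m2 2 2) (m2 (1 / 2) (1 / 2))
    (fun v => ext2 (by simp [smul_smul]) (by simp [sc2_sc2, sc2_one]))
    fun v => ext2 (by simp [smul_smul]) (by simp [sc2_sc2, sc2_one])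
  have ck : G.Cb (kG d a) := Cb_neg (Cb_comp (Cb_const _) (Cb_comp H.cE (Cb_comp
    (Bd.In.σ (F := fun _ => G) H.inG a () trivial) H.cC)))
  have ns := nc_sful H hW hΦ
  have k0 := ((hK.right (s1 0)).mul (f := fun x => (-kG d a x) ∘L sc2 _ _ (1 / 2) 1) (r := d.pE)
    (Cb_comp (Cb_neg ck) (Cb_const _))
    (.of_left fun x v => ext2 (by simp [kG, o.sm.idem]) (by simp [kG, o.prj2.idem]))).congr
    (τ' := fun u x => -kG d a x (z u x)) fun u => funext fun x => by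
      simp only [i1']
      change -kG d a x (sc2 _ _ _ _ _) = _
      rw [i2']
  refine ⟨_, k0, ?_⟩
  have t1 := ((((Ir.of (rp t ns 0)).add ((hK.mul (ns.σ a) (.of_left (ns.alg.qσ a))).right
    (rep_incl zero_le_one))).right (s1 1)).mul (Cb_const _) (m2 2 2)).congr
    (τ' := fun u x => i1 _ _ (((d.d0 G (base W fun y => (2 : ℝ) • Φ y)).adj G).app G (fun y =>
      i1 _ _ (fa (u y)) + i2 _ _ ((2 : ℝ) • fp (u y))) x + ((4 : ℝ) • (Map77.pj _ a ∘L fa)) (z u x)) +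
      i2 _ _ ((d.lin G (base W Φ)).app G u x - kG d a x (z u x))) fun u => funext fun x => by
    have := sful_id (Φ := Φ) (x := x) C (RepT_mem (s1 0) u).1 (RepT_mem (s1 0) u).2.2 a (pz u x)
    simp only [i1'] at this
    simp only [id, i1']
    refine (congrArg _ this).trans ?_
    exact ext2 (by simp [smul_smul]; norm_num) (by simp [sc2_sc2, sc2_one])
  obtain ⟨T₁, t1, h1⟩ : ∃ T₁, Ir G.toPre T₁ _ ∧ Fred93.Fr T₁ n := ⟨_, t1, h.conj a1 b⟩
  have cu := cb_base hW hΦ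
  have t2 := (Ir.of (rp t (H.nc_full cu) 0)).add ((k0.mul (Cb_const _) (maps_i2 (p := d.g))).right
    (rep_incl zero_le_one))
  have rd := rp t (H.nc_d0 cu) 1
  have es := Ir.eq (t2.mul (Cb_const _) maps_s2) (t1.mul (Cb_const _) maps_s2) fun u =>
    funext fun x => by simp [Op.app, Bd.full, op_pair, sub_eq_add_neg]
  have e0 := Ir.eq ((t1.mul (Cb_const _) maps_s2).right rd) (Ir.of RepT_zero) fun u =>
    funext fun x => by simp [(gau u _ rfl x).1]
  have e1 := Ir.eq ((t1.mul (Cb_const _) maps_f2).right rd) (Ir.of (RepT_comp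
    (rp t (H.nc_row (cb_base hW c2)) 0) (rp t (H.nc_d0 (cb_base hW c2)) 1))) fun u =>
    funext fun x => by
      simp only [map_add, f2_i1, f2_i2, add_zero, _root_.smul_apply, ContinuousLinearMap.comp_apply,
        Map77.pj_apply, (gau u _ rfl x).2, smul_zero]
      refine congrArg (Op.app G _ · x) (funext fun y => ext2 (fm_ext fun s => ?_) ?_)
      · simp [(d0_app C u y).1]
      · simp [(d0_app C u y).2]
  have e2 := Ir.eq ((t2.mul (Cb_const _) maps_f2).right rd) (Ir.of (RepT_comp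
    (rp t (H.nc_row cu) 0) rd)) fun u => funext fun x => by simp [Op.app, Bd.full, op_pair]
  refine fr_row (i := iH1 _ 0 d.g d.pE)
    (e1.symm.subst (motive := fun T : _ →L[ℝ] _ => Bijective T) (bij_d0 C H hW hy c2))
    (e2.symm.subst (motive := fun T : _ →L[ℝ] _ => Bijective T) (bij_d0 C H hW hy hΦ))
    (fun x => H_ext2 ?_ ?_) (fun g => H_ext2 ?_ ?_) h1
  · simp only [map_add, fH_iH1, map_sub]; exact (add_sub_cancel _ _).symm
  · simp only [map_add, sH_iH1, add_zero]; exact DFunLike.congr_fun es x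
  · exact (fH_iH1 _).symm
  · exact (DFunLike.congr_fun e0 g).trans (sH_iH1 _).symm

end gen

end Crest.Agent.X212.Crt72
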