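import Crest.Agent.X212.Crt72.Dc3

/-!
# Row 212, DICT (helper72): the gauge fixed linearisation on the weighted cylinder
-/

set_option autoImplicit false
set_option linter.unusedSectionVars false
noncomputable section
open scoped Manifold ContDiff Topology InnerProductSpace BoundedContinuousFunction
open MeasureTheory Set Function Filter Real

namespace Crest.Agent.X212.Crt72
open An An.Pre Sob92 Ell97 Cyf70 Nk89 Rf65 Map77 Wz78 Op78

variable {E : Type} [NormedAddCommGroup E] [NormedSpace ℝ E] [FiniteDimensional ℝ E]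
  [MeasurableSpace E] [BorelSpace E]
  {HM : Type} [TopologicalSpace HM] {I : ModelWithCorners ℝ E HM} [I.Boundaryless]
  {Y : Type} [TopologicalSpace Y] [ChartedSpace HM Y] [IsManifold I ∞ Y] [T2Space Y]
  [MeasurableSpace Y] [BorelSpace Y] [SecondCountableTopology Y] [CompactSpace Y]
  {ι κ : Type} [Fintype ι] [Fintype κ] [DecidableEq κ]
  {F : Fr I Y ι} {G : Fr (IC I) (Y × ℝ) (Option ι)} {ψ : ℝ → ℝ}

variable (ι κ) in
/-- the `dt`-component -/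
def pT : Cf (Option ι) κ →L[ℝ] Cf (Option ι) κ :=
  i1 _ _ ∘L Map77.ij _ none ∘L Map77.pj _ none ∘L fa

variable (ι κ) in
/-- the reflection of the `dt`-component -/
def jC : Cf (Option ι) κ →L[ℝ] Cf (Option ι) κ := .id ℝ _ - (2 : ℝ) • pT ι κ

theorem ij_none {X : Type} [NormedAddCommGroup X] [InnerProductSpace ℝ X] (ξ : X) (a : Option ι) :
    Map77.ij X none ξ a = a.elim ξ fun _ => 0 := by cases a <;> simp [Map77.ij]

theorem fa_pT (v : Cf (Option ι) κ) (a : Option ι) :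
    fa (pT ι κ v) a = a.elim (fa v none) fun _ => 0 := by simp [pT, ij_none]

theorem fp_pT (v : Cf (Option ι) κ) : fp (pT ι κ v) = 0 := by simp [pT]

theorem jC_apply (v : Cf (Option ι) κ) : jC ι κ v = v - (2 : ℝ) • pT ι κ v := rfl

theorem fa_jC_none (v : Cf (Option ι) κ) : fa (jC ι κ v) none = -fa v none := by
  simp [jC_apply, fa_pT, two_smul]

theorem fa_jC_some (v : Cf (Option ι) κ) (a : ι) : fa (jC ι κ v) (some a) = fa v (some a) := by
  simp [jC_apply, fa_pT]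

theorem fp_jC (v : Cf (Option ι) κ) : fp (jC ι κ v) = fp v := by simp [jC_apply, fp_pT]

variable (F) in
/-- invariant data in temporal gauge -/
structure Cz (d : Bd (Y × ℝ) (Option ι) κ) (W : Option ι → Y × ℝ → En κ) (Φ : Y × ℝ → Eu κ) :
    Prop where
  dim : Module.finrank ℝ E ≤ 3
  cp : Cp d (cyl F) (cyl F).Gam W
  iv : d.In (iv F.toPre)
  riem : Riem (cyl F)
  iW : ∀ a, Iv I (W a)
  iΦ : Iv I Φ
  tmp : ∀ x, W none x = 0
  mh : Mh d
  sp : ∀ x, d.sp x (Φ x) = Φ x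

/-- the operator on the cylinder in the symmetric form -/
abbrev AC (F : Fr I Y ι) (d : Bd (Y × ℝ) (Option ι) κ) (W : Option ι → Y × ℝ → En κ)
    (Φ : Y × ℝ → Eu κ) := sl0 (sful d (cyl F) W Φ)

namespace Cz
variable {d : Bd (Y × ℝ) (Option ι) κ} {W : Option ι → Y × ℝ → En κ} {Φ : Y × ℝ → Eu κ}
  (h : Cz F d W Φ)
include h

theorem inS : (Op78.iv F.toPre).op fun _ => sful d (cyl F) W Φ :=
  in_sful (F := fun _ => cyl F) h.iv iv_c iv_dv h.iW h.iΦ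

theorem cyo_eq : cyo (AC F d W Φ) = sful d (cyl F) W Φ := cyo_sl0 h.inS

theorem cyO : CyO F (AC F d W Φ) := by
  classical
  have C := h.cp
  exact cyO_of h.dim h.inS (C.P ▸ alg_sful C.ok) (cliff_sful C.ok C.P) h.riem (rp_sful C h.riem)
    C.skew_cC C.skew_cT (fun x => cC_zero (fun b k => gam_cyl none b k x) (h.tmp _))
    fun x v w hv hw => (inner_zs C.ok h.mh (h.sp x) none hv hw).trans
      (((real_inner_comm _ _).trans (inner_zs C.ok h.mh (h.sp x) none hw hv)).trans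
        (by rw [add_comm])).symm

theorem P_none (a : Option ι) (x : Y × ℝ) :
    d.Px x a none = a.elim 1 (fun _ => 0) ∧ d.Px x none a = a.elim 1 fun _ => 0 := by
  simp only [Bd.Px, ← h.cp.P]; cases a <;> exact ⟨rfl, rfl⟩

theorem p1_none (x : Y × ℝ) (α : Fm (Option ι) (HS κ)) : d.p1 x α none = d.g x (α none) := by
  simp [h.cp.ok.p1, Fintype.sum_option, h.P_none]

theorem p1_ij (x : Y × ℝ) (ξ : HS κ) : d.p1 x (Map77.ij _ none ξ) = Map77.ij _ none (d.g x ξ) :=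
  fm_ext fun a => by cases a <;> simp [h.cp.ok.p1, Fintype.sum_option, h.P_none, ij_none]

theorem pC_pT (x : Y × ℝ) (v : Cf (Option ι) κ) : d.pC x (pT ι κ v) = pT ι κ (d.pC x v) :=
  ext2 (by simp [pT, h.p1_ij, h.p1_none]) (by simp [pT])

theorem pC_jC (x : Y × ℝ) (v : Cf (Option ι) κ) : d.pC x (jC ι κ v) = jC ι κ (d.pC x v) := by
  rw [jC_apply, map_sub, map_smul, h.pC_pT, jC_apply]

theorem σ_pT (x : Y × ℝ) (v : Cf (Option ι) κ) :
    (sful d G W Φ).σ none x (pT ι κ v) = i1 _ _ (d.g x (fa v none)) := by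
  have o := h.cp.ok
  refine ext2 ((o.full_σ1 _ _ _ _).trans ?_) (ext2 ((o.full_σ2 _ _ _ _).trans ?_)
    ((Bd.OK.full_σ3 _ _ _ _).trans ?_))
  · simp [h.p1_none, fa_pT]
  · simp [fp_pT]
  · rw [show wd2 _ (d.Px x) none (d.p1 x (fa (pT ι κ v))) = 0 from fm_ext fun ⟨a, b⟩ => by
      cases a <;> cases b <;> simp [pT, h.p1_ij, wd2_apply, h.P_none, ij_none]]
    simp

theorem σ_eq (a : Option ι) : (sful d G W Φ).σ a = (sful d (cyl F) W Φ).σ a := by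
  have o := h.cp.ok
  funext x; ext1 v
  exact ext2 ((o.full_σ1 _ _ _ _).trans (o.full_σ1 _ _ _ _).symm)
    (ext2 ((o.full_σ2 _ _ _ _).trans (o.full_σ2 _ _ _ _).symm)
      ((Bd.OK.full_σ3 _ _ _ _).trans (Bd.OK.full_σ3 _ _ _ _).symm))

/-- the weight enters only through the gauge row -/
theorem app_wt (w : Wz F G ψ) (u : Sec (IC I) d.pC) (x : Y × ℝ) :
    (sful d G W Φ).app G u.1 x = (sful d (cyl F) W Φ).app (cyl F) u.1 x +
      deriv ψ x.2 • (sful d (cyl F) W Φ).σ none x (u.1 x - jC ι κ (u.1 x)) := by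
  have C := cp_wt h.cp w.wt
  have a : ∀ a, (cyl F).D (some a) (fun x => ψ x.2) x = 0 := fun a =>
    congrFun (D_some_snd _ w.cd a) x
  have b : (cyl F).D none (fun x => ψ x.2) x = deriv ψ x.2 := congrFun w.D_none x
  rw [jC_apply, sub_sub_cancel, map_smul, h.σ_pT, g_fa h.cp.ok (u.2.2.2 x)]
  refine ext2 ?_ (ext2 ?_ ?_)
  · rw [map_add, sful_row C u.2.1 u.2.2.2, sful_row h.cp u.2.1 u.2.2.2]
    simp only [w.wt.e, w.wt.dv, Fintype.sum_option, a, b, map_smul, f2_i1]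
    simp only [mul_zero, add_zero]
    module
  · rw [map_add, map_add, sful_dir C u.2.1 u.2.2.2, sful_dir h.cp u.2.1 u.2.2.2, w.wt.e]
    simp
  · rw [map_add, map_add, sful_crv C u.2.1 u.2.2.2, sful_crv h.cp u.2.1 u.2.2.2]
    simp [dE, w.wt.e, w.wt.c]

theorem pe : pc (AC F d W Φ).p = d.pC := congrArg An.Op.p h.cyo_eq

theorem qe : pc (AC F d W Φ).q = ps d.g d.pE := congrArg An.Op.q h.cyo_eq

theorem mj : Maps (AC F d W Φ).p (AC F d W Φ).p fun _ => jC ι κ :=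
  maps_of fun y v => h.pC_jC (y, 0) v

end Cz

theorem Wz.fr_sym' {V W : Type} [NormedAddCommGroup V] [InnerProductSpace ℝ V]
    [NormedAddCommGroup W] [InnerProductSpace ℝ W] [FiniteDimensional ℝ V] [FiniteDimensional ℝ W]
    (w : Wz F G ψ) {A : An.Op Y (Option ι) V W} (h : CyO F A) {j : Y → V →L[ℝ] V} (hj : Sm I j)
    (mj : Maps A.p A.p j) {P : Y × ℝ → V →L[ℝ] V} {Q : Y × ℝ → W →L[ℝ] W}
    {s : Y × ℝ → V →L[ℝ] W} (hP : pc A.p = P) (hQ : pc A.q = Q) (hs : (fun x => A.σ none x.1) = s)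
    {K : Lam (F.H 0 A.p) →L[ℝ] Lam (F.H 0 A.p)} {τ : (Y × ℝ → V) → Y × ℝ → V}
    (hK : Ir G.toPre (w.wK K) τ) {T : G.H 1 P →L[ℝ] G.H 0 Q} (hT : G.Rep T fun u x =>
      (cyo A).app (cyl F) u x + deriv ψ x.2 • s x (u x - j x.1 (u x))) {n : ℤ}
    (H : Fred93.Fr (Dz (F.incl 1 0 A.p) (Cyf70.LH F A 0) (Ψ F.toPre 1 A.p) (TH F A.p)
      (K - ma (bc (deriv ψ)) (F.mulH 0 _ _ j))) n) : ∃ K' : G.H 0 P →L[ℝ] G.H 0 P,
      Ir G.toPre K' τ ∧ Fred93.Fr (T + (G.mulH 0 _ _ s ∘L K') ∘L G.incl 1 0 _) n := by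
  subst hP hQ hs
  exact ⟨_, hK, w.fr_sym h hj mj hT H⟩

/-- **DICT on the level zero** -/
theorem Cz.dict {d : Bd (Y × ℝ) (Option ι) κ} {W : Option ι → Y × ℝ → En κ} {Φ : Y × ℝ → Eu κ}
    (h : Cz F d W Φ) {δ : ℝ} (w : Wz F G fun t => δ * ab t) (h0 : 0 < δ) (H : d.Hy G G)
    {z : (Y × ℝ → Cf (Option ι) κ) → Y × ℝ → Cf (Option ι) κ}
    (pz : ∀ u : Sec (IC I) d.pC, ∀ x, d.pC x (z u.1 x) = z u.1 x)
    (gau : ∀ (ξ : Sec (IC I) d.g) u, u = (d.d0 G (base W Φ)).app G ξ.1 → ∀ x,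
      (d.lin G (base W Φ)).app G u x = kG d none x (z u x) ∧ fa (z u x) none = 0)
    {K : Lam (F.H 0 (AC F d W Φ).p) →L[ℝ] Lam (F.H 0 (AC F d W Φ).p)}
    (hK : Ir G.toPre (w.wK K) fun u x => sc2 _ _ 2 1 (z (fun y => sc2 _ _ 2 1 (u y)) x)) {n : ℤ}
    (hF : Fred93.Fr (Dz (F.incl 1 0 _) (Cyf70.LH F (AC F d W Φ) 0) (Ψ F.toPre 1 _) (TH F _)
      (K - ma (bc (deriv fun t => δ * ab t)) (F.mulH 0 _ _ fun _ => jC ι κ))) n) :
    ∃ K₀ : G.H 0 d.pC →L[ℝ] G.H 0 d.pE, Ir G.toPre K₀ (fun u x => -kG d none x (z u x)) ∧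
      Fred93.Fr (d.FF G.toPre G 0 (base W Φ) + (iH2 _ 0 d.g _ ∘L K₀) ∘L G.incl 1 0 _) n := by
  have cW := fun a => w.wp.Cb.2 ((h.iW a).cb F.toPre)
  have cΦ := w.wp.Cb.2 (h.iΦ.cb F.toPre)
  obtain ⟨K', k1, k2⟩ := w.fr_sym' h.cyO contMDiff_const h.mj h.pe h.qe
    ((congrArg (An.Op.σ · none) h.cyo_eq).trans (h.σ_eq (G := G) none).symm) hK
    (T := Map77.LH G.toPre G.toPre 0 d.pC (ps d.g d.pE) (sful d G W Φ))
    (RepT_congr (rp H.toTw (nc_sful H cW cΦ) 0) fun u => funext fun x => by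
      rw [h.cyo_eq, h.σ_eq]; exact h.app_wt w u x) hF
  exact fr_ful (cp_wt h.cp w.wt) H cW (w.hardy h0) cΦ none pz gau k1 k2

end Crest.Agent.X212.Crt72
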