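import Crest.Agent.X212.Crt72.Dc4
import Crest.Agent.X212.Nk89.Dic

/-!
# Row 212, DICT (helper72): from the level zero to the index of the format
-/

set_option autoImplicit false
set_option linter.unusedSectionVars false set_option synthInstance.maxHeartbeats 1000000
noncomputable section
open scoped Manifold ContDiff Topology InnerProductSpace BoundedContinuousFunction
open MeasureTheory Set Function Filter Real

namespace Crest.Agent.X212.Crt72
open An An.Pre Sob92 Ell97 Cyf70 Nk89 Map77 Mod61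

section fmt
variable {E : Type} [NormedAddCommGroup E] [NormedSpace ℝ E] [FiniteDimensional ℝ E]
  [MeasurableSpace E] [BorelSpace E]
  {HM : Type} [TopologicalSpace HM] {I : ModelWithCorners ℝ E HM} [I.Boundaryless]
  {M : Type} [TopologicalSpace M] [ChartedSpace HM M] [IsManifold I ∞ M]
  [MeasurableSpace M] [T2Space M] [BorelSpace M] [SecondCountableTopology M]
  {ι lam : Type} [Fintype ι] [Fintype lam] {T : Type} [NormedAddCommGroup T] [NormedSpace ℝ T]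
  {𝔉 : Fam I M ι lam T} {o : Ref 𝔉} {r n m : ℕ} {e : T → PtX M ι lam r n m}

variable (e) in
/-- the perturbation at a smooth point -/
def rm (y : Pnt o r) (x : M) : Ef ι (Fin o.m.N) :=
  i1 _ _ (vD e y x - eD n m y x) + i2 _ _ (vC e y x - eC n m y x)

variable (e) in
/-- `τ` is the derivative of the perturbation at `y` -/
def Dr (y : Pnt o r) (τ : (M → Cf ι (Fin o.m.N)) → M → Ef ι (Fin o.m.N)) : Prop :=
  ∀ (u : Sec I (bd o).pC) (Y : ℝ → Pnt o r), (∀ ε, (Y ε).t = y.t ∧ (Y ε).z = y.z ∧ ∀ x,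
    (Y ε).α x = y.α x + fa (SC o (𝔉.Si y.t) x (ε • u.1 x)) ∧
    (Y ε).φ x = y.φ x + fp (SC o (𝔉.Si y.t) x (ε • u.1 x))) →
  ∀ x, HasDerivAt (fun ε => rm e (Y ε) x) (τ u.1 x) 0

variable (h : 𝔉.OK) (he : Aff o (Fs 𝔉) r n m e) {y : Pnt o r}
  {τ : (M → Cf ι (Fin o.m.N)) → M → Ef ι (Fin o.m.N)} (hτ : Dr e y τ)
include h he hτ

theorem ir_aff {j : ℕ} (hj : 7 ≤ j) :
    ∃ K : 𝔉.F0.H (j + 1) (bd o).pC →L[ℝ] 𝔉.F0.H (j + 1) (bd o).pE, Ir 𝔉.F0.toPre K τ ∧
      ∃ f : o.C r j → o.Y n m j, RepF e f ∧ ∀ x, TT j f y x =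
        (bd o).FF 𝔉.F0.toPre (Fs 𝔉 y.t) j (uy y) x + iH2 _ j o.Pg _ (𝔉.F0.incl (j + 1) j _ (K x)) := by
  obtain ⟨g, h1, h2⟩ := he j hj
  have a := adj_rem h
  have S := sup0 h
  refine ⟨sY o n m (j + 1) ∘L fderiv ℝ g (y.pt j) ∘L sC' o r j y.t, fun u => ?_, _, a.repF h1 h2,
    fun x => ?_⟩
  · choose Y y1 y2 y3 using fun ε : ℝ => exists_add h (k := j) (by omega) y (ε • u)
    have z : ∀ ε, (Y ε).z = y.z := fun ε => (congrArg (·.2.2.1) (y2 ε)).trans (add_zero _)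
    have v : ∀ (y' : Pnt o r) x, 𝔉.F0.val _ _ (sY o n m (j + 1) (g (y'.pt j))) x =
        rm e y' x + (i1 _ _ (eD n m (bs y') x) + i2 _ _ (eC n m (bs y') x)) := fun y' x => by
      have b := a.val_f0 (n := n) (m := m) (k := j) (by omega) y'
      have d := congrFun (h2 y').D x
      have c := congrFun (h2 y').C x
      rw [Prod.fst_add, val_add, b.1] at d
      rw [Prod.snd_add, Prod.fst_add, val_add, b.2.1] at c
      have d' := congrFun (val_incl S (by omega : 4 ≤ j) j.le_succ (g (y'.pt j)).1) x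
      have c' := congrFun (val_incl S (by omega : 4 ≤ j) j.le_succ (g (y'.pt j)).2.1) x
      rw [sY_apply, val_add, Pi.add_apply, val_iH1 S (by omega), val_iH2 S (by omega), ← d', ← c',
        rm, add_add_add_comm, ← map_add, ← map_add]
      exact congrArg₂ (· + ·) (congrArg _ ((eq_sub_of_add_eq' d).trans (sub_add _ _ _).symm))
        (congrArg _ ((eq_sub_of_add_eq' c).trans (sub_add _ _ _).symm))
    have b : ∀ ε, bs (Y ε) = bs y := fun ε => by simp only [bs, y1, z]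
    refine (Is.val S (by omega) _).congr (.of_forall fun x => ?_)
    have d0 : HasDerivAt (fun ε : ℝ => y.pt j + ε • sC' o r j y.t (𝔉.F0.toH _ _ u))
        (sC' o r j y.t (𝔉.F0.toH _ _ u)) 0 := by
      simpa using ((hasDerivAt_id (0 : ℝ)).smul_const _).const_add (y.pt j)
    have d1 := (𝔉.F0.ev _ _ x ∘L sY o n m (j + 1)).hasFDerivAt.comp_hasDerivAt (0 : ℝ)
      (((h1.contDiffAt ((Map77.isOpen_U h).mem_nhds (pt_mem y))).differentiableAt
        (by simp)).hasFDerivAt.comp_hasDerivAt_of_eq 0 d0 (by simp))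
    refine d1.unique (((hτ u Y (fun ε => ⟨y1 ε, z ε, y3 ε⟩) x).add_const
      (i1 _ _ (eD n m (bs y) x) + i2 _ _ (eC n m (bs y) x))).congr_of_eventuallyEq
        (.of_forall fun ε => ?_))
    refine Eq.trans ?_ ((v (Y ε) x).trans (by rw [b]))
    rw [y2, map_smul, map_smul]
    rfl
  · have e1 := a.fderiv_aff (by omega) y h1 h2 (a.repF h1 h2) x
    simp only [TG, _root_.add_apply, ContinuousLinearMap.comp_apply, e1,
      (a.hy o y.ht).FF_eq (cb_uy h y), map_add, add_assoc]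

/-- **from the level zero to the index** -/
theorem idx_of (hG : Fs 𝔉 y.t = 𝔉.F0) {K₀ : 𝔉.F0.H 0 (bd o).pC →L[ℝ] 𝔉.F0.H 0 (bd o).pE}
    (hK : Ir 𝔉.F0.toPre K₀ τ) {d : ℤ} (H : Fred93.Fr ((bd o).FF 𝔉.F0.toPre 𝔉.F0 0 (uy y) +
      (iH2 _ 0 o.Pg _ ∘L K₀) ∘L 𝔉.F0.incl 1 0 _) d) {k : ℕ} (hk : 7 ≤ k) : Idx k e y d := by
  have Hy : (bd o).Hy 𝔉.F0 𝔉.F0 := hG ▸ (adj_rem h).hy o y.ht
  have c := cb_uy h y
  have nf := Hy.nc_full c
  obtain ⟨_, t1, t2⟩ := Hy.toTw.good nf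
  have i2 : ∀ {a b} {K : 𝔉.F0.H a (bd o).pC →L[ℝ] 𝔉.F0.H b (bd o).pE}, Ir 𝔉.F0.toPre K τ →
      Ir 𝔉.F0.toPre (iH2 _ b o.Pg _ ∘L K) fun u x => i2 _ _ (τ u x) := fun hK =>
    hK.mul (Cb_const _) maps_i2
  obtain ⟨K, k1, f, hf, k2⟩ := ir_aff h he hτ hk
  rw [hG] at k2
  rw [show (bd o).FF 𝔉.F0.toPre 𝔉.F0 0 _ = _ from LH_eq Hy.toTw nf 0] at H
  refine (idx_iff h (by omega) hf y).2 ((lev t1 t2 (Hy.toOK.cliff_full Hy.P _) (j₀ := 8)
    (fun j hj => ?_) H k (T := (bd o).FF 𝔉.F0.toPre 𝔉.F0 k (uy y) +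
      iH2 _ k o.Pg _ ∘L 𝔉.F0.incl (k + 1) k _ ∘L K) ?_).congr k2)
  · obtain ⟨j, rfl⟩ : ∃ i, j = i + 1 := ⟨j - 1, by omega⟩
    obtain ⟨K, k1, -⟩ := ir_aff h he hτ (j := j) (by omega)
    exact ⟨_, ((i2 k1).incl (Nat.zero_le _)).eq ((i2 hK).right (rep_incl (Nat.zero_le _)))
      fun _ => rfl⟩
  · exact (((Ir.of (rp Hy.toTw nf k)).add (i2 (k1.incl k.le_succ))).incl k.zero_le).eq
      (((Ir.of (rep_OpH t2 0).1).add ((i2 hK).right (rep_incl zero_le_one))).right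
        (rep_incl (Nat.succ_pos k))) fun _ => rfl

end fmt

end Crest.Agent.X212.Crt72
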