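import Crest.Agent.X212.Crt72.Dc5
import Crest.Agent.X212.Cyf70.Kh
import Crest.Agent.X212.Nk89.Geo

/-!
# Row 212, DICT (helper72): the index of the format on the cylinder
-/

set_option autoImplicit false
set_option linter.unusedSectionVars false
noncomputable section
open scoped Manifold ContDiff Topology InnerProductSpace BoundedContinuousFunction
open MeasureTheory Set Function Filter Real

namespace Crest.Agent.X212.Crt72
open An An.Pre Sob92 Ell97 Cyf70 Nk89 Map77 Mod61 Wz78 Op78 Nd18 Dec35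

section gen
variable {E : Type} [NormedAddCommGroup E] [NormedSpace ℝ E] [FiniteDimensional ℝ E]
  [MeasurableSpace E] [BorelSpace E]
  {HM : Type} [TopologicalSpace HM] {I : ModelWithCorners ℝ E HM} [I.Boundaryless]
  {M : Type} [TopologicalSpace M] [ChartedSpace HM M] [IsManifold I ∞ M]
  [MeasurableSpace M] [T2Space M] [BorelSpace M] [SecondCountableTopology M]
  {ι κ : Type} [Fintype ι] [Fintype κ] [DecidableEq κ] {F G : Fr I M ι}
  {d : Bd M ι κ} {Γ : ι → ι → ι → M → ℝ} {W : ι → M → En κ} {Φ : M → Eu κ} {O : Set M} {x : M}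

/-- spinors only over `O` -/
def dS (d : Bd M ι κ) (O : Set M) : Bd M ι κ :=
  { d with sp := O.indicator d.sp, sm := O.indicator d.sm }

theorem dS_univ : dS d univ = d := by simp [dS]

theorem ind_eq (h : d.OK) : ind d univ O = dS d O := by
  simp only [ind, dS, indicator_univ, ← h.p1, ← h.p2]

theorem cp_dS (C : Cp d F Γ W) (h : IsClopen O) : Cp (dS d O) F Γ W :=
  ind_eq C.ok ▸ C.ind isClopen_univ h

theorem sp_dS {v : Eu κ} (hv : (dS d O).sp x v = v) : d.sp x v = v := by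
  by_cases hx : x ∈ O
  · simpa [dS, hx] using hv
  · rw [← hv]; simp [dS, hx]

theorem pC_dS {v : Cf ι κ} (hv : (dS d O).pC x v = v) : d.pC x v = v :=
  ext2 ((f2_ps _ _).trans (p1_of hv :)) ((s2_ps _ _).trans (sp_dS (sp_of hv)))

theorem kG_dS (h : d.OK) (h' : (dS d O).OK) (a : ι) (v : Cf ι κ) :
    kG (dS d O) a x ((dS d O).pC x v) = (dS d O).pE x (kG d a x v) := by
  refine ext2 ?_ ?_
  · rw [f2_kG h', f2_ps, f2_kG h]
    by_cases hx : x ∈ O <;> simp [dS, hx, h.sp.idem, h.mp]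
  · rw [s2_kG, s2_ps, s2_kG]
    simp [dS, h.prj1.idem, h.prj2.idem]

theorem d0_dS {ψ : M → ℝ} (C : Cp d F Γ W) (w : Wt F G ψ) (h : IsClopen O) (h0 : ∀ x ∉ O, Φ x = 0)
    (ξ : Sec I d.g) : ((dS d O).d0 G (base W Φ)).app G ξ.1 = (d.d0 F (base W Φ)).app F ξ.1 := by
  funext x
  have a := d0_app (Φ := Φ) (cp_wt (cp_dS C h) w) ξ x
  have b := d0_app (Φ := Φ) C ξ x
  refine ext2 (fm_ext fun s => (a.1 s).trans (w.e ▸ (b.1 s).symm)) (a.2.trans (b.2.trans ?_).symm)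
  by_cases hx : x ∈ O <;> simp [dS, hx, h0]

theorem lin_dS {ψ : M → ℝ} (C : Cp d F Γ W) (w : Wt F G ψ) (h : IsClopen O) {u : M → Cf ι κ}
    (hu : Sm I u) (pu : ∀ x, (dS d O).pC x (u x) = u x) : ((dS d O).lin G (base W Φ)).app G u x =
      (dS d O).pE x ((d.lin F (base W Φ)).app F u x) := by
  refine (op_cut _ (cp_dS C h).sm_pC hu pu x).trans (Eq.trans ?_ (congrArg _
    (op_cut _ C.sm_pC hu (fun y => pC_dS (pu y)) x)).symm)
  rw [w.toWtP.op]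
  simp only [Bc, w.c, show (dS d O).σ = d.σ from rfl, show (dS d O).β = d.β from rfl]
  refine ext2 ?_ ?_
  · by_cases hx : x ∈ O <;> simp [dS, hx, C.ok.sm.idem]
  · simp [dS, C.ok.prj2.idem]

end gen

variable {E3 : Type} [NormedAddCommGroup E3] [NormedSpace ℝ E3] [FiniteDimensional ℝ E3]
  [MeasurableSpace E3] [BorelSpace E3]
  {H3 : Type} [TopologicalSpace H3] {I3 : ModelWithCorners ℝ E3 H3} [I3.Boundaryless]
  {Y : Type} [TopologicalSpace Y] [ChartedSpace H3 Y] [IsManifold I3 ∞ Y] [T2Space Y]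
  [MeasurableSpace Y] [BorelSpace Y] [SecondCountableTopology Y] [CompactSpace Y]
  {κ : Type} [Fintype κ] {lam : Type} [Fintype lam] {O' : Set (Y × ℝ)}

theorem clo (hO : O' = univ ∨ O' = ∅) : IsClopen O' := by
  rcases hO with rfl | rfl
  exacts [isClopen_univ, isClopen_empty]

theorem Cz.dS {ι : Type} [Fintype ι] [DecidableEq ι] {F : Fr I3 Y κ} {d : Bd (Y × ℝ) (Option κ) ι}
    {W : Option κ → Y × ℝ → En ι} {Φ : Y × ℝ → Eu ι} (h : Cz F d W Φ) (hO : O' = univ ∨ O' = ∅)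
    (h0 : ∀ x ∉ O', Φ x = 0) : Cz F (dS d O') W Φ := by
  have c := cp_dS h.cp (clo hO)
  rcases hO with rfl | rfl
  · rwa [dS_univ]
  refine ⟨h.dim, c, ⟨h.iv.P, h.iv.ρ, h.iv.g, h.iv.p1, h.iv.p2, .of c.ssp fun _ => ?_,
    .of c.ssm fun _ => ?_⟩, h.riem, h.iW, h.iΦ, h.tmp, ⟨fun x ξ v _ hv => ?_,
      fun x ξ Φ φ a c e hv => h.mh.mu x ξ Φ φ a c e (sp_dS hv)⟩, fun x => ?_⟩
  any_goals simp [Crt72.dS, h0]
  rw [← hv]; simp [Crt72.dS]

variable {D : YD I3 Y κ lam} {β : YC Y κ lam} {δ : ℝ} (hD : D.OK) (h : D.Adm β)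
  (hd : Module.finrank ℝ E3 ≤ 3) (h0 : ∀ x ∉ O', β.Φ x.1 = 0)

include hD h hd in
theorem cz_mbd : Cz D.F (mbd D.B (cy β).m) (cy β).W (cy β).Φ :=
  ⟨hd, cp_m hD h, in_bz hD h, riem_of_vol hD.G.vol,
    fun a => Iv.of ((cp_bz hD h).con.sm a) fun _ => rfl, Iv.of h.adm.sm fun _ => rfl,
    fun x => h.tmp x.1, mh_bz hD h, sp_bz hD h⟩

include hD in
theorem bd_refZ : bd (refZ T0 δ h h0) = dS (mbd D.B (cy β).m) O' :=
  ind_eq (d := mbd D.B (cy β).m) (cp_m hD h).ok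

include hD hd in
theorem cz_refZ (hO : O' = univ ∨ O' = ∅) : Cz D.F (bd (refZ T0 δ h h0)) (cy β).W (cy β).Φ :=
  bd_refZ (δ := δ) hD h h0 ▸ (cz_mbd hD h hd).dS hO h0

/-- the base point -/
abbrev y0 (δ : ℝ) : Pnt (refZ T0 δ h h0) 0 := pt0 (refZ T0 δ h h0) 0 (t := 0) trivial

theorem W_refZ (t : T0) (α : Y × ℝ → Fm (Option κ) β.m.A) : (refZ T0 δ h h0).W t α =
    (cy β).m.addC (cy β).W fun x => idx (fun a b => D.B.P a b x) (.id ℝ _) (α x) :=
  congrArg ((cy β).m.addC · _) (funext fun a => funext fun x => by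
    have : ∑ b, D.B.P a b x • β.W b x.1 = β.W a x.1 := h.adm.conn.cc.proj a x
    change _ = β.W a x.1
    simpa [Ref.A, Md.addC, Mod61.Fam.W0, famZ, wtF, cst] using this)

theorem uy_y0 : uy (y0 h h0 δ) = base (cy β).W (cy β).Φ :=
  congrArg₂ base ((W_refZ h h0 0 0).trans (funext₂ fun a x =>
    (congrArg (fun v : Fm _ β.m.A => _ + opL (v a)) (map_zero _)).trans (by simp))) (add_zero _)

/-- the weighted frame -/
abbrev GZ (D : YD I3 Y κ lam) (δ : ℝ) (O' : Set (Y × ℝ)) := (famZ T0 D δ O').F0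

theorem wZ (D : YD I3 Y κ lam) (δ : ℝ) (O' : Set (Y × ℝ)) : Wz D.F (GZ D δ O') fun t => δ * ab t :=
  wz_ab wt_famZ

include hD hd in
/-- **DICT** -/
theorem inv_of (hδ : 0 < δ) (hO : O' = univ ∨ O' = ∅) {k : ℕ} (hk : 7 ≤ k)
    {e : PtX (Y × ℝ) (Option κ) lam 0 0 0}
    (he : Aff (refZ T0 δ h h0) (Fs (famZ T0 D δ O')) 0 0 0 fun _ => e)
    {d : Bd (Y × ℝ) (Option κ) (Fin β.m.N)} (ed : bd (refZ T0 δ h h0) = d) 
    {z : (Y × ℝ → Cv (cy β)) → Y × ℝ → Cv (cy β)}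
    (hτ : Dr (fun _ => e) (y0 h h0 δ) fun u x => -kG d none x (z u x))
    (pz : ∀ u : Sec (IC I3) d.pC, ∀ x, d.pC x (z u.1 x) = z u.1 x)
    (gau : ∀ (ξ : Sec (IC I3) d.g) u,
      u = (d.d0 (GZ D δ O') (base (cy β).W (cy β).Φ)).app (GZ D δ O') ξ.1 → ∀ x,
      (d.lin (GZ D δ O') (base (cy β).W (cy β).Φ)).app (GZ D δ O') u x = kG d none x (z u x) ∧
        fa (z u x) none = 0)
    {K : Lam (D.F.H 0 (AC D.F d (cy β).W (cy β).Φ).p) →L[ℝ]
      Lam (D.F.H 0 (AC D.F d (cy β).W (cy β).Φ).p)}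
    (hK : Ir (GZ D δ O').toPre ((wZ D δ O').wK K)
      fun u x => sc2 _ _ 2 1 (z (fun y => sc2 _ _ 2 1 (u y)) x)) {n : ℤ}
    (hF : Fred93.Fr (Dz (D.F.incl 1 0 _) (Cyf70.LH D.F (AC D.F d (cy β).W (cy β).Φ) 0)
      (Ψ D.F.toPre 1 _) (TH D.F _)
      (K - ma (Rf65.bc (deriv fun t => δ * ab t)) (D.F.mulH 0 _ _ fun _ => jC κ _))) n) :
    Inv (δ := δ) h h0 k e n := by
  have ok := ok_famZ (T := T0) hD hd hδ.le (clo hO)
  have hG : Fs (famZ T0 D δ O') 0 = GZ D δ O' := Met55.fr_ext (Met55.pre_ext rfl rfl)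
  have H := (adj_rem ok).hy (refZ T0 δ h h0) (t := 0) trivial
  rw [show rem _ _ = GZ D δ O' from hG] at H
  have C : Cz D.F d (cy β).W (cy β).Φ := ed ▸ cz_refZ hD h hd h0 hO
  obtain ⟨K₀, k1, k2⟩ := C.dict (wZ D δ O') hδ (ed ▸ H) pz gau hK hF
  subst ed
  refine idx_of ok he hτ hG k1 ?_ hk
  rw [uy_y0]
  exact k2

include hD hd in
/-- **DICT without neck terms** -/
theorem inv0 (hδ : 0 < δ) (hO : O' = univ ∨ O' = ∅) {k : ℕ} (hk : 7 ≤ k)
    (he : Aff (refZ T0 δ h h0) (Fs (famZ T0 D δ O')) 0 0 0 fun _ => eq0 D.B D.G 0 0 0)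
    {d : Bd (Y × ℝ) (Option κ) (Fin β.m.N)} (ed : bd (refZ T0 δ h h0) = d)
    (gau : ∀ (ξ : Sec (IC I3) d.g) x, (d.lin (GZ D δ O') (base (cy β).W (cy β).Φ)).app (GZ D δ O')
      ((d.d0 (GZ D δ O') (base (cy β).W (cy β).Φ)).app (GZ D δ O') ξ.1) x = 0) {n : ℤ}
    (hF : Fred93.Fr (Dz (D.F.incl 1 0 _) (Cyf70.LH D.F (AC D.F d (cy β).W (cy β).Φ) 0)
      (Ψ D.F.toPre 1 _) (TH D.F _)
      (0 - ma (Rf65.bc (deriv fun t => δ * ab t)) (D.F.mulH 0 _ _ fun _ => jC κ _))) n) :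
    Inv (δ := δ) h h0 k (eq0 D.B D.G 0 0 0) n :=
  inv_of hD h hd h0 hδ hO hk he ed (z := fun _ _ => 0)
    (fun u Y _ x => by
      rw [show (fun ε => rm (fun _ => eq0 D.B D.G 0 0 0) (Y ε) x) = fun _ => 0 from
        funext fun ε => (congrArg₂ (· + ·) (congrArg _ (sub_self _)) (congrArg _ (sub_self _))).trans
          (by simp)]
      exact (hasDerivAt_const _ _).congr_deriv (neg_eq_zero.2 (map_zero _)).symm)
    (fun _ _ => map_zero _) (fun ξ u e x => ⟨e ▸ (gau ξ x).trans (map_zero _).symm,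
      by rw [map_zero]; rfl⟩)
    (fun u => by
      rw [Wz.wK, ContinuousLinearMap.zero_comp, ContinuousLinearMap.comp_zero]
      exact Is.zero.congr (.of_forall fun _ => (map_zero _).symm)) hF

end Crest.Agent.X212.Crt72
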