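import Crest.Agent.X212.Crt72.Step

/-!
# Row 212, CRIT (helper72): gradient models (format free): data and axioms

`x : X` are the smooth configurations; `C x` is the Banach model with base point `0 = x`,
`F0` the unperturbed gradient, `f j`, `τ j` the basic invariants with their gradients.
-/

set_option autoImplicit false
set_option linter.unusedSectionVars false
noncomputable section
open Set Filter Topology Function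
open scoped ContDiff InnerProductSpace

namespace Crest.Agent.X212.Crt72
open Fred93 (Fr)

/-- the index of the basic invariants: `cy` (connection only), `sw` (weight zero), `re`, `im`
(weight two) -/
inductive Bs (Bc Bw B2 : Type)
  | cy (j : Bc)
  | sw (j : Bw)
  | re (s : B2)
  | im (s : B2)

/-- all symmetric operators -/
def symA (X : Type*) [NormedAddCommGroup X] [InnerProductSpace ℝ X] :
    Submodule ℝ (X →L[ℝ] X) where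
  carrier := {a | ∀ x y, ⟪a x, y⟫_ℝ = ⟪x, a y⟫_ℝ}
  add_mem' := fun {a b} ha hb x y => by
    simp only [add_apply, inner_add_left, inner_add_right, ha x y, hb x y]
  zero_mem' := fun x y => by simp
  smul_mem' := fun c a ha x y => by
    simp only [smul_apply, real_inner_smul_left, real_inner_smul_right, ha x y]

/-- The data of a gradient model. -/
structure GM (Bc Bw B2 : Type) : Type 1 where
  X : Type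
  eqv : X → X → Prop
  /-- strongly irreducible connection -/
  SI : X → Prop
  C : X → Type
  E : X → Type
  L : X → Type
  M : X → Type
  H : X → Type
  X₁ : X → Type
  X₀ : X → Type
  [nC : ∀ o, NormedAddCommGroup (C o)]
  [sC : ∀ o, NormedSpace ℝ (C o)]
  [cC : ∀ o, CompleteSpace (C o)]
  [nE : ∀ o, NormedAddCommGroup (E o)]
  [sE : ∀ o, NormedSpace ℝ (E o)]
  [cE : ∀ o, CompleteSpace (E o)]
  [nL : ∀ o, NormedAddCommGroup (L o)]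
  [sL : ∀ o, NormedSpace ℝ (L o)]
  [cL : ∀ o, CompleteSpace (L o)]
  [nM : ∀ o, NormedAddCommGroup (M o)]
  [sM : ∀ o, NormedSpace ℝ (M o)]
  [cM : ∀ o, CompleteSpace (M o)]
  [nH : ∀ o, NormedAddCommGroup (H o)]
  [sH : ∀ o, NormedSpace ℝ (H o)]
  [cH : ∀ o, CompleteSpace (H o)]
  [n1 : ∀ o, NormedAddCommGroup (X₁ o)]
  [s1 : ∀ o, NormedSpace ℝ (X₁ o)]
  [c1 : ∀ o, CompleteSpace (X₁ o)]
  [n0 : ∀ o, NormedAddCommGroup (X₀ o)]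
  [s0 : ∀ o, InnerProductSpace ℝ (X₀ o)]
  [c0 : ∀ o, CompleteSpace (X₀ o)]
  F0 : ∀ o, C o → E o
  f : Bs Bc Bw B2 → ∀ o, C o → ℝ
  τ : Bs Bc Bw B2 → ∀ o, C o → E o
  /-- the `L²` pairing -/
  b : ∀ o, E o →L[ℝ] C o →L[ℝ] ℝ
  ic : ∀ o, C o →L[ℝ] E o
  ih : ∀ o, M o →L[ℝ] H o
  im : ∀ o, L o →L[ℝ] M o
  D : ∀ o, M o →L[ℝ] E o
  σ : ∀ o, C o →L[ℝ] H o
  /-- infinitesimal gauge action -/
  d : ∀ o, C o → L o →L[ℝ] C o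
  /-- infinitesimal circle action -/
  J : ∀ o, C o → C o
  act : ∀ o, L o × ℝ → C o → C o
  /-- `v` is smooth and `o + v` is equivalent to `x` -/
  Rep : ∀ o, C o → X → Prop
  /-- smooth elements -/
  Smo : ∀ o, Submodule ℝ (C o)
  i : ∀ o, X₁ o →L[ℝ] X₀ o
  L0 : ∀ o, X₁ o →L[ℝ] X₀ o
  j1 : ∀ o, C o × M o →L[ℝ] X₁ o
  j0 : ∀ o, E o × H o →L[ℝ] X₀ o
  sf : ∀ o, (X₀ o →L[ℝ] X₀ o) → (X₀ o →L[ℝ] X₀ o) → ℤ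
  /-- the generator of the stabiliser circle at a fixed point -/
  XC : ∀ o, L o → C o →L[ℝ] C o
  XE : ∀ o, L o → E o →L[ℝ] E o
  XL : ∀ o, L o → L o →L[ℝ] L o
  XM : ∀ o, L o → M o →L[ℝ] M o
  XH : ∀ o, L o → H o →L[ℝ] H o
  X1 : ∀ o, L o → X₁ o →L[ℝ] X₁ o
  X0 : ∀ o, L o → X₀ o →L[ℝ] X₀ o

attribute [instance] GM.nC GM.sC GM.cC GM.nE GM.sE GM.cE GM.nL GM.sL GM.cL GM.nM GM.sM GM.cM
  GM.nH GM.sH GM.cH GM.n1 GM.s1 GM.c1 GM.n0 GM.s0 GM.c0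

namespace GM
variable {Bc Bw B2 : Type} (Q : GM Bc Bw B2)

/-- functions on the models -/
abbrev Fd : Type := ∀ o, Q.C o → ℝ

/-- the weight two invariants -/
def s (j : B2) (o : Q.X) (v : Q.C o) : ℂ := ⟨Q.f (.re j) o v, Q.f (.im j) o v⟩

/-- the infinitesimal action of the gauge group and the circle -/
def dd (o : Q.X) (v : Q.C o) : Q.L o × ℝ →L[ℝ] Q.C o :=
  (Q.d o v).coprod ((ContinuousLinearMap.id ℝ ℝ).smulRight (Q.J o v))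

/-- the extended Hessian with the block `A` -/
def ext (o : Q.X) (A : Q.C o →L[ℝ] Q.E o) : Q.C o × Q.M o →L[ℝ] Q.E o × Q.H o :=
  (A.coprod (Q.D o)).prod (Q.σ o ∘L ContinuousLinearMap.fst ℝ _ _)

/-- `K` extends the block `A` to `L²` -/
def IsHs (o : Q.X) (A : Q.C o →L[ℝ] Q.E o) (K : Q.X₀ o →L[ℝ] Q.X₀ o) : Prop :=
  ∀ z, K (Q.i o (Q.j1 o z)) = Q.j0 o (A z.1, 0)

/-- morphisms of models -/
structure Mor {o o' : Q.X} (T : Q.C o → Q.C o') (A : Q.C o ≃L[ℝ] Q.C o') : Prop where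
  aff : ∀ v u, T (v + u) = T v + A u
  F0 : ∀ v u, Q.b o' (Q.F0 o' (T v)) (A u) = Q.b o (Q.F0 o v) u
  cy : ∀ j v, Q.f (.cy j) o' (T v) = Q.f (.cy j) o v
  sw : ∀ j v, Q.f (.sw j) o' (T v) = Q.f (.sw j) o v
  J : ∀ v, A (Q.J o v) = Q.J o' (T v)
  d : ∀ η, ∃ η', ∀ v, A (Q.d o v η) = Q.d o' (T v) η'
  d' : ∀ η', ∃ η, ∀ v, A (Q.d o v η) = Q.d o' (T v) η'

/-- the phase of a morphism -/
def Ph {o o' : Q.X} (T : Q.C o → Q.C o') (ζ : ℂ) : Prop :=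
  ‖ζ‖ = 1 ∧ ∀ j v, Q.s j o' (T v) = ζ * Q.s j o v

/-- the splitting at a fixed point: `X ^ 3 = -l ^ 2 X` -/
structure Spl (o : Q.X) (ξ : Q.L o) (l : ℝ) : Prop where
  C : ∀ u, Q.XC o ξ u = Q.J o u - Q.d o u ξ
  j1 : ∀ u m, Q.j1 o (Q.XC o ξ u, Q.XM o ξ m) = Q.X1 o ξ (Q.j1 o (u, m))
  j0 : ∀ e h, Q.j0 o (Q.XE o ξ e, Q.XH o ξ h) = Q.X0 o ξ (Q.j0 o (e, h))
  i : ∀ y, Q.i o (Q.X1 o ξ y) = Q.X0 o ξ (Q.i o y)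
  skew : ∀ x y, ⟪Q.X0 o ξ x, y⟫_ℝ = -⟪x, Q.X0 o ξ y⟫_ℝ
  cube : ∀ x, Q.X0 o ξ (Q.X0 o ξ (Q.X0 o ξ x)) = -(l ^ 2) • Q.X0 o ξ x
  D : ∀ m, Q.D o (Q.XM o ξ m) = Q.XE o ξ (Q.D o m)
  d : ∀ v η, Q.XC o ξ v = 0 → Q.XC o ξ (Q.d o v η) = Q.d o v (Q.XL o ξ η)

/-- vectors `ψ` and `v` with `L0 v ≈ ψ` and a prescribed sign -/
def Sgn (o : Q.X) (ψ : Q.X₀ o) (ε R : ℝ) : Prop :=
  ∃ v, R * (‖Q.L0 o v - ψ‖ ^ 2 + ‖Q.i o v‖ ^ 2) < ε * ⟪Q.i o v, ψ⟫_ℝ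

/-- the circle invariant generators -/
def atoms : Set Q.Fd :=
  range (fun j => Q.f (.cy j)) ∪ range (fun j => Q.f (.sw j)) ∪
    range (fun p : B2 × B2 => Q.f (.re p.1) * Q.f (.re p.2) + Q.f (.im p.1) * Q.f (.im p.2)) ∪
    range (fun p : B2 × B2 => Q.f (.re p.1) * Q.f (.im p.2) - Q.f (.im p.1) * Q.f (.re p.2))

/-- the admissible perturbations -/
def Rl : Subalgebra ℝ Q.Fd := Algebra.adjoin ℝ Q.atoms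

/-- `t` is the gradient of `q` -/
def IsGr (q : Q.Fd) (t : ∀ o, Q.C o → Q.E o) : Prop :=
  ∀ o, ContDiff ℝ ∞ (t o) ∧ ∀ v, HasFDerivAt (q o) (Q.b o (t o v)) v

/-- the gradient -/
def gr (q : Q.Fd) : ∀ o, Q.C o → Q.E o := Classical.epsilon (Q.IsGr q)

/-- the perturbed gradient -/
def F (q : Q.Fd) (o : Q.X) (v : Q.C o) : Q.E o := Q.F0 o v + Q.gr q o v

/-- critical points -/
def Sol (q : Q.Fd) (x : Q.X) : Prop := Q.F q x 0 = 0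

/-- nondegenerate -/
def ND (q : Q.Fd) (x : Q.X) : Prop := ∀ u, fderiv ℝ (Q.F q x) 0 u = 0 → ∃ η, u = Q.dd x 0 η

/-- fixed by the circle -/
def Fix (x : Q.X) : Prop := ∃ ξ, Q.d x 0 ξ = Q.J x 0

/-- the Hessian of a perturbation on `L²` -/
def hs (q : Q.Fd) (o : Q.X) : Q.X₀ o →L[ℝ] Q.X₀ o :=
  Classical.epsilon (Q.IsHs o (fderiv ℝ (Q.gr q o) 0))

/-- OP3: the linear theory -/
structure AxOp : Prop where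
  sm0 : ∀ o, ContDiff ℝ ∞ (Q.F0 o)
  L0 : ∀ o z, Q.L0 o (Q.j1 o z) = Q.j0 o (Q.ext o (fderiv ℝ (Q.F0 o) 0) z)
  fr : ∀ o, Fr (Q.ext o (fderiv ℝ (Q.F0 o) 0)) 0
  inj0 : ∀ o, Injective (Q.j0 o)
  den0 : ∀ o, DenseRange (Q.j0 o)
  den1 : ∀ o, DenseRange (Q.j1 o)
  denC : ∀ o, DenseRange (Q.ic o)
  injC : ∀ o, Injective (Q.ic o)
  denH : ∀ o, DenseRange (Q.ih o)
  injH : ∀ o, Injective (Q.ih o)
  ij : ∀ o u m, Q.i o (Q.j1 o (u, m)) = Q.j0 o (Q.ic o u, Q.ih o m)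
  orth : ∀ o e h, ⟪Q.j0 o (e, 0), Q.j0 o (0, h)⟫_ℝ = 0
  pair : ∀ o e u, Q.b o e u = ⟪Q.j0 o (e, 0), Q.j0 o (Q.ic o u, 0)⟫_ℝ
  Dim : ∀ o η, Q.D o (Q.im o η) = Q.ic o (Q.d o 0 η)
  bij : ∀ o, Q.J o 0 ≠ 0 ∨ Q.SI o → Bijective (Q.σ o ∘L Q.d o 0)

/-- SFI: the spectral flow -/
def AxSf : Prop := ∀ o, SF (Q.i o) (Q.L0 o) (symA _) (Q.sf o)

/-- GRP: the group and the change of the base point -/
structure AxGr : Prop where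
  refl : ∀ x, Q.eqv x x
  symm : ∀ x y, Q.eqv x y → Q.eqv y x
  trans : ∀ x y z, Q.eqv x y → Q.eqv y z → Q.eqv x z
  SI : ∀ x y, Q.eqv x y → Q.SI x → Q.SI y
  cd : ∀ o, Continuous (Q.d o)
  cJ : ∀ o, Continuous (Q.J o)
  act0 : ∀ o v, Q.act o 0 v = v
  strict : ∀ o v, HasStrictFDerivAt (fun q : (Q.L o × ℝ) × Q.C o => Q.act o q.1 q.2)
    ((Q.dd o v).coprod (ContinuousLinearMap.id ℝ _)) (0, v)
  mor : ∀ o η, ∃ A, Q.Mor (Q.act o η) A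
  ph : ∀ o η, Q.Ph (Q.act o η) (Complex.exp (2 * η.2 * Complex.I))
  rep0 : ∀ x y, Q.Rep x 0 y ↔ Q.eqv y x
  rep : ∀ o v x, Q.Rep o v x → ∃ (T : Q.C x → Q.C o) (A : _) (ζ : ℂ), Q.Mor T A ∧ Q.Ph T ζ ∧ T 0 = v
  orb : ∀ o v x η, Q.Rep o v x → Q.act o η v = 0 → Q.eqv x o
  smoJ : ∀ o, Q.J o 0 ∈ Q.Smo o

/-- SMY: the basic invariants -/
structure AxSm : Prop where
  sm : ∀ j o, ContDiff ℝ ∞ (Q.τ j o)
  grad : ∀ j o v, HasFDerivAt (Q.f j o) (Q.b o (Q.τ j o v)) v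
  cpt : ∀ j o, IsCompactOperator (fderiv ℝ (Q.τ j o) 0)
  hs : ∀ j o, ∃ K, Q.IsHs o (fderiv ℝ (Q.τ j o) 0) K
  bd : ∀ j, ∃ R, ∀ o, |Q.f j o 0| ≤ R
  bdτ : ∀ j, ∃ R, ∀ o, ‖Q.j0 o (Q.τ (.cy j) o 0, 0)‖ ≤ R
  van : ∀ j o v, (∀ c, j ≠ .cy c) → Q.J o v = 0 → Q.f j o v = 0 ∧ Q.τ j o v = 0
  reg : ∀ o (S : Finset (Bs Bc Bw B2)) (c c' : Bs Bc Bw B2 → ℝ) (z : Q.C o × Q.M o),
    Q.ext o (fderiv ℝ (Q.F0 o) 0) z +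
      (∑ j ∈ S, (c j • fderiv ℝ (Q.τ j o) 0 z.1 + c' j • Q.τ j o 0), 0) = 0 → z.1 ∈ Q.Smo o

/-- SPL -/
structure AxSp : Prop where
  I : ∀ o, Q.J o 0 = 0 → Q.Spl o 0 1
  S : ∀ o ξ, Q.J o 0 ≠ 0 → Q.d o 0 ξ = Q.J o 0 → Q.Spl o ξ 2

/-- CPT: compactness -/
def AxCp : Prop := ∀ (S : Finset (Bs Bc Bw B2)) (R : ℝ) (ι : Type) (𝒰 : Ultrafilter ι)
  (c : ι → Bs Bc Bw B2 → ℝ) (x : ι → Q.X), (∀ n j, |c n j| ≤ R) →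
  (∀ n, Q.F0 (x n) 0 + ∑ j ∈ S, c n j • Q.τ j (x n) 0 = 0) →
  ∃ (o : Q.X) (v : ι → Q.C o), Tendsto v 𝒰 (𝓝 0) ∧ ∀ᶠ n in (𝒰 : Filter ι), Q.Rep o (v n) (x n)

/-- reducible connections are far from flat -/
def AxNR : Prop := ∃ c > (0 : ℝ), ∀ o, Q.J o 0 = 0 → ¬Q.SI o → c ≤ ‖Q.j0 o (Q.F0 o 0, 0)‖

/-- DER, SEP: derivations and separation where the spinor is not zero -/
structure AxDr : Prop where
  der : ∀ o, ∀ u ∈ Q.Smo o, Q.J o 0 ≠ 0 → (∀ j, (∀ c, j ≠ .cy c) → Q.b o (Q.τ j o 0) u = 0) →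
    ∃ η, u = Q.d o 0 η
  pos : ∀ o, Q.J o 0 ≠ 0 → ∃ j, Q.f (.sw j) o 0 ≠ 0
  sep : ∀ o o', Q.J o 0 ≠ 0 → (∀ j, (∀ c, j ≠ .cy c) → Q.f j o 0 = Q.f j o' 0) → Q.eqv o o'

/-- DERI: derivations at type I points -/
def AxDI : Prop := ∀ o, ∀ u ∈ Q.Smo o, Q.J o 0 = 0 → Q.SI o → Q.J o u = 0 →
  (∀ j, Q.b o (Q.τ (.cy j) o 0) u = 0) → ∃ η, u = Q.d o 0 η

/-- IM: the normal Hessians at finitely many type I points -/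
def AxIM : Prop := ∀ (ι : Type) [Fintype ι] (x : ι → Q.X), (∀ n, Q.J (x n) 0 = 0 ∧ Q.SI (x n)) →
  (∀ n m, Q.eqv (x n) (x m) → n = m) → ∀ (n : ι) (ψ : Q.X₀ (x n)),
  Q.X0 _ 0 (Q.X0 _ 0 ψ) = -ψ → ∀ δ > (0 : ℝ), ∃ (S : Finset Bw) (c : Bw → ℝ)
    (K : ∀ m, Q.X₀ (x m) →L[ℝ] Q.X₀ (x m)),
    (∀ m, Q.IsHs (x m) (∑ j ∈ S, c j • fderiv ℝ (Q.τ (.sw j) (x m)) 0) (K m)) ∧
      ‖K n - rk (Q.X0 _ 0) ψ‖ ≤ δ ∧ ∀ m, m ≠ n → ‖K m‖ ≤ δ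

/-- SG: both signs occur -/
structure AxSg : Prop where
  I : ∀ o, Q.J o 0 = 0 → ∀ ε, ε = 1 ∨ ε = -1 → ∀ R, ∃ ψ, Q.X0 o 0 (Q.X0 o 0 ψ) = -ψ ∧ Q.Sgn o ψ ε R
  S : ∀ o ξ, Q.J o 0 ≠ 0 → Q.d o 0 ξ = Q.J o 0 → ∀ ε, ε = 1 ∨ ε = -1 → ∀ R,
    ∃ j, Q.Sgn o (Q.j0 o (Q.τ (.re j) o 0, 0)) ε R

/-- all axioms -/
structure Ax : Prop where
  op : Q.AxOp
  sf : Q.AxSf
  gr : Q.AxGr
  sm : Q.AxSm
  sp : Q.AxSp
  cp : Q.AxCp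
  nr : Q.AxNR
  dr : Q.AxDr
  dI : Q.AxDI
  im : Q.AxIM
  sg : Q.AxSg

end GM

end Crest.Agent.X212.Crt72
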