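import Crest.Agent.X212.Nd18.Term
import Crest.Agent.X212.Map77.Mono
import Crest.Agent.X212.Crt72.GM

/-!
# Row 212, CRIT (helper72): the gradient model on the cross-section `Y`
-/

set_option autoImplicit false
set_option linter.unusedSectionVars false
noncomputable section
open scoped Manifold ContDiff Topology InnerProductSpace
open MeasureTheory Set Function Filter

namespace Crest.Agent.X212.Crt72
open An Cyf70 Dgr80 Nd18
open Cyc79 (Cy)
open Wz78 (nab dir)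
open Wrd81 (wd)
open Map77 (P2 Cf pj ij i1 i2 sm2 fa fp)

variable {E3 : Type} [NormedAddCommGroup E3] [NormedSpace ℝ E3] [FiniteDimensional ℝ E3]
  [MeasurableSpace E3] [BorelSpace E3]
  {H3 : Type} [TopologicalSpace H3] {I3 : ModelWithCorners ℝ E3 H3} [I3.Boundaryless]
  {Y : Type} [TopologicalSpace Y] [ChartedSpace H3 Y] [IsManifold I3 ∞ Y] [T2Space Y]
  [MeasurableSpace Y] [BorelSpace Y] [SecondCountableTopology Y] [CompactSpace Y]
  {κ : Type} [Fintype κ] {lam : Type} [Fintype lam]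

/-! ### forms on `Y` and on the cylinder -/

section lin
variable (κ) (A : Type) [NormedAddCommGroup A] [InnerProductSpace ℝ A]

/-- a form on `Y` as a form on the cylinder -/
def up : CL (Fm κ A) (Fm (Option κ) A) := Map77.tp fun a => a.elim 0 (pj A)

/-- the `Y`-part of a form on the cylinder -/
def dw : CL (Fm (Option κ) A) (Fm κ A) := Map77.tp fun a => pj A (some a)

variable {A} in
/-- an endomorphism acting on the values of a form -/
def onv (T : CL A A) : CL (Fm κ A) (Fm κ A) := Map77.tp fun a => T ∘L pj A a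

end lin

/-! ### words and fields on `Y` -/

section words
variable (F : Fr I3 Y κ) (β : YC Y κ lam)

/-- the connection on `Y` -/
def cn : κ → Y → En (Fin β.m.N) := fun a => β.W (some a)

/-- the adjoint connection on `Y` -/
def an : κ → Y → En (Fin β.m.N × Fin β.m.N) := fun a => β.m.adW β.W (some a)

/-- the letters on `Y` -/
def ylt : YL Y → SL Y β.m.V
  | .mul f => .op fun y => f y • (1 : En (Fin β.m.N))
  | .cl none => .op (β.m.ρ none)
  | .cl (some g) => .op fun y => ∑ a, F.D a g y • β.m.ρ (some a) y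
  | .im => .op fun _ => β.m.J
  | .G => .G

/-- spinor words on the bounded seed -/
def yw (u : List (YL Y)) : Y → β.m.V := wd (sl F (cn β)) (nP β) (u.map (ylt F β))

/-- gradient of `∫ ⟪yw u, l⟫`: connection part -/
def ywA (u : List (YL Y)) (l : Y → β.m.V) : Y → Fm κ β.m.A :=
  gc F (cn β) opL (nP β) (u.map (ylt F β)) l

/-- gradient of `∫ ⟪yw u, l⟫`: spinor part -/
def ywP (u : List (YL Y)) (l : Y → β.m.V) : Y → β.m.V := dn β (bk F (cn β) (u.map (ylt F β)) l)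

/-- variation of a configuration on `Y` -/
def vy (α : Y → Fm κ β.m.A) (φ : Y → β.m.V) : YC Y κ lam := vr β (fun y => up κ _ (α y)) φ

end words

variable (Y κ lam) in
/-- a functional with its (unprojected) `L²` gradient -/
structure YF where
  f : YC Y κ lam → ℝ
  gA : (β : YC Y κ lam) → Y → Fm κ β.m.A
  gP : (β : YC Y κ lam) → Y → β.m.V

/-- `∫ ⟪T u, v⟫` -/
def YF.sw (F : Fr I3 Y κ) (T : Pk Y lam) (u v : List (YL Y)) : YF Y κ lam where
  f β := ∫ y, ⟪pk β T y (yw F β u y), yw F β v y⟫_ℝ ∂F.μ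
  gA β y := ywA F β u (fun z => pk β T z (yw F β v z)) y +
    ywA F β v (fun z => pk β T z (yw F β u z)) y
  gP β y := ywP F β u (fun z => pk β T z (yw F β v z)) y +
    ywP F β v (fun z => pk β T z (yw F β u z)) y

variable (D : YD I3 Y κ lam)

/-- densities on the cylinder -/
abbrev ZD (Y κ lam : Type) [Fintype lam] : Type := Den (Y × ℝ) (Option κ) lam 0

/-- a density on the cylinder, evaluated on `t`-invariant configurations -/
def YF.z (d : ZD Y κ lam) : YF Y κ lam where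
  f β := ∫ y, d.h (cy β) (y, 0) ∂D.F.μ
  gA β y := dw κ _ (d.gA (cy β) (fun _ => 1) (y, 0))
  gP β y := d.gP (cy β) (fun _ => 1) (y, 0)

/-- the zero perturbation -/
def pt0 : Pt (Y × ℝ) (Option κ) lam 0 0 := ⟨fun _ => 0, fun _ => 0, fun _ => 0⟩

/-- the unperturbed gradient (the functional is not used) -/
def YF.z0 : YF Y κ lam where
  f _ := 0
  gA β y := WithLp.toLp 2 fun a => (1 / 2 : ℝ) • (cy β).eC D.B D.G pt0 (y, 0) (none, some a)
  gP β y := -β.m.ρ none y ((cy β).eD D.G pt0 (y, 0))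

/-- indices of the basic invariants -/
def Bc : Type := {d : (Cy Y × List (La Y)) × Cy Y × List (La Y) //
  (YDen.cy d.1.1 d.1.2 d.2.1 d.2.2).OK D.F}
def Bw : Type := {p : List (YL Y) × List (YL Y) // (YDen.sw p.1 p.2).OK D.F}
def B2 (_D : YD I3 Y κ lam) : Type := {d : YD2 Y lam // d.OK I3}
abbrev BB : Type := Bs (Bc D) (Bw D) (B2 D)

/-- the densities of `Nd18` on the cylinder -/
def den : BB D → ZD Y κ lam
  | .cy d => D.nk.den (.cy d.1.1.1 d.1.1.2 d.1.2.1 d.1.2.2)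
  | .sw p => D.nk.den (.sw p.1.1 p.1.2)
  | .re d => D.nk.dre d.1
  | .im d => D.nk.dim d.1

/-- the basic invariants on `Y` -/
def yf : BB D → YF Y κ lam
  | .cy d => YF.z D (den D (.cy d))
  | .sw p => YF.sw D.F .one p.1.1 p.1.2
  | .re d => YF.sw D.F (.re d.1.s) d.1.u d.1.v
  | .im d => YF.sw D.F (.im d.1.s) d.1.u d.1.v

/-! ### the Banach model at `β` -/

section model
variable (β : YC Y κ lam)

/-- `T*Y ⊗ g` -/
def pc (y : Y) : CL (Fm κ β.m.A) (Fm κ β.m.A) := idx (fun a b => D.F.P a b y) (β.m.pg y)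
/-- `V⁺` -/
def pv (y : Y) : CL β.m.V β.m.V := (cy β).m.pp D.B (y, 0)
/-- `T*Z ⊗ g ⊕ V⁺` -/
def ph : Y → CL (Cf (Option κ) (Fin β.m.N)) (Cf (Option κ) (Fin β.m.N)) :=
  Map77.ps (fun y => (cy β).m.p1 D.B (y, 0)) (pv D β)

abbrev CC (j : ℕ) : Type := D.F.H j (pc D β) × D.F.H j (pv D β)
abbrev GG (j : ℕ) : Type := D.F.H j β.m.pg
abbrev XX (j : ℕ) : Type := D.F.H j (ph D β)

/-- smooth variations -/
abbrev SP : Type := Sec I3 (pc D β) × Sec I3 (pv D β)

/-- the point of the model -/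
def pt (j : ℕ) : SP D β →ₗ[ℝ] CC D β j := (D.F.toH j _).prodMap (D.F.toH j _)

variable {D β} in
/-- the configuration of a smooth variation -/
def cf (y : SP D β) : YC Y κ lam := vy β y.1.1 y.2.1

/-- inclusion of levels -/
def iC (j l : ℕ) : CC D β j →L[ℝ] CC D β l := (D.F.incl j l _).prodMap (D.F.incl j l _)

/-- `T` is smooth and represents the gradient of `u` -/
def RpT (u : YF Y κ lam) (j l : ℕ) (T : CC D β j → CC D β l) : Prop :=
  ContDiff ℝ ∞ T ∧ ∀ (y : SP D β) (x : Y),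
    D.F.val l _ (T (pt D β j y)).1 x = pc D β x (u.gA (cf y) x) ∧
    D.F.val l _ (T (pt D β j y)).2 x = pv D β x (u.gP (cf y) x)

/-- `f` is continuous and represents `u` -/
def Rpf (u : YF Y κ lam) (j : ℕ) (f : CC D β j → ℝ) : Prop :=
  Continuous f ∧ ∀ y : SP D β, f (pt D β j y) = u.f (cf y)

/-- the gradient on the model -/
def mT (u : YF Y κ lam) (j l : ℕ) : CC D β j → CC D β l := Classical.epsilon (RpT D β u j l)

/-- the functional on the model -/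
def mf (u : YF Y κ lam) (j : ℕ) : CC D β j → ℝ := Classical.epsilon (Rpf D β u j)

/-- the `L²` pairing of two levels -/
def pr0 {V : Type} [NormedAddCommGroup V] [InnerProductSpace ℝ V] (F : Pre I3 Y κ) (j l : ℕ)
    (p : Y → V →L[ℝ] V) : F.H j p →L[ℝ] F.H l p →L[ℝ] ℝ :=
  (innerSL ℝ : F.H 0 p →L[ℝ] F.H 0 p →L[ℝ] ℝ).bilinearComp (F.incl j 0 p) (F.incl l 0 p)

/-- the `L²` pairing -/
def bb (j l : ℕ) : CC D β j →L[ℝ] CC D β l →L[ℝ] ℝ :=
  (pr0 D.F.toPre j l _).bilinearComp (ContinuousLinearMap.fst ℝ _ _) (ContinuousLinearMap.fst ℝ _ _) +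
  (pr0 D.F.toPre j l _).bilinearComp (ContinuousLinearMap.snd ℝ _ _) (ContinuousLinearMap.snd ℝ _ _)

/-- `-∇ ξ` -/
def dga (ξ : Y → β.m.A) (y : Y) : Fm κ β.m.A := WithLp.toLp 2 fun a => -nab I3 D.F.e (an β) a ξ y

/-- `ξ Φ` -/
def dgp (ξ : Y → β.m.A) (y : Y) : β.m.V := opL (ξ y) (β.Φ y)

/-- the adjoint of `dga` -/
def sga (α : Y → Fm κ β.m.A) (y : Y) : β.m.A :=
  ∑ a, (nab I3 D.F.e (an β) a (fun z => α z a) y + D.F.dv a y • α y a)

/-- the adjoint of `dgp` -/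
def sgp (φ : Y → β.m.V) (y : Y) : β.m.A := β.m.q y (φ y) (β.Φ y)

/-- the infinitesimal gauge action at the base point, the form part multiplied by `c` -/
def d0 (c : ℝ) (j : ℕ) : GG D β (j + 1) →L[ℝ] CC D β j :=
  (c • D.F.lift (j + 1) j _ _ (dga D β)).prod (D.F.lift (j + 1) j _ _ (dgp β))

/-- the gauge fixing -/
def sg (j : ℕ) : CC D β (j + 1) →L[ℝ] GG D β j :=
  ((1 / 4 : ℝ) • D.F.lift (j + 1) j _ _ (sga D β)).coprod (D.F.lift (j + 1) j _ _ (sgp β))

/-- the infinitesimal gauge action -/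
def dv (j : ℕ) (v : CC D β j) : GG D β (j + 1) →L[ℝ] CC D β j :=
  d0 D β 1 j +
    (D.F.lift₂ j (j + 1) _ _ _ j (fun (α : Y → Fm κ β.m.A) ξ y =>
      WithLp.toLp 2 fun a => -adc (opL (α y a)) (ξ y))
      v.1).prod (D.F.lift₂ j (j + 1) _ _ _ j (fun φ ξ y => opL (ξ y) (φ y)) v.2)

open Classical in
/-- a function as an element of `H` -/
def ofS {V : Type} [NormedAddCommGroup V] [InnerProductSpace ℝ V] (F : Pre I3 Y κ) (j : ℕ)
    (p : Y → V →L[ℝ] V) (u : Y → V) : F.H j p := if h : u ∈ Sec I3 p then F.toH j p ⟨u, h⟩ else 0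

/-- the infinitesimal circle action -/
def jv (j : ℕ) (v : CC D β j) : CC D β j :=
  (0, D.F.mulH j _ _ (fun _ => β.m.J) v.2 + ofS D.F.toPre j _ fun y => β.m.J (β.Φ y))

variable (κ) in
/-- forms, spinors, `dt`-components in the total fibre -/
def eA (N : ℕ) : CL (Fm κ (HS (Fin N))) (Cf (Option κ) (Fin N)) := i1 _ _ ∘L up κ _
variable (κ) in
def eP (N : ℕ) : CL (Eu (Fin N)) (Cf (Option κ) (Fin N)) := i2 _ _
variable (κ) in
def eG (N : ℕ) : CL (HS (Fin N)) (Cf (Option κ) (Fin N)) := i1 _ _ ∘L ij _ none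

/-- the total space, forms multiplied by `c` -/
def emb (c : ℝ) (j : ℕ) : CC D β j × GG D β j →L[ℝ] XX D β j :=
  ((c • D.F.mulH j _ _ fun _ => eA κ _).coprod (D.F.mulH j _ _ fun _ => eP κ _)).coprod
    (c • D.F.mulH j _ _ fun _ => eG κ _)

/-- the extended Hessian on functions -/
def lf (w : Y → Cf (Option κ) (Fin β.m.N)) (y : Y) : Cf (Option κ) (Fin β.m.N) :=
  let α : Y → Fm κ β.m.A := fun z => (2 : ℝ) • dw κ _ (fa (w z))
  let φ : Y → β.m.V := fun z => fp (w z)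
  let m : Y → β.m.A := fun z => (2 : ℝ) • fa (w z) none
  (2 : ℝ) • eA κ _ (deriv (F := Fm κ β.m.A) (fun ε : ℝ => (YF.z0 D).gA (vy β (ε • α) (ε • φ)) y) 0 +
      (1 / 4 : ℝ) • dga D β m y) +
    eP κ _ (deriv (F := β.m.V) (fun ε : ℝ => (YF.z0 D).gP (vy β (ε • α) (ε • φ)) y) 0 + dgp β m y) +
    (2 : ℝ) • eG κ _ ((1 / 4 : ℝ) • sga D β α y + sgp β φ y)

/-- the generator of the stabiliser circle on `g` and on spinors -/
def xa (ξ : Y → β.m.A) (y : Y) : CL β.m.A β.m.A := -adc (opL (ξ y))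
def xs (ξ : Y → β.m.A) (y : Y) : CL β.m.V β.m.V := β.m.J - opL (ξ y)

def xC (ξ : Y → β.m.A) (j : ℕ) : CC D β j →L[ℝ] CC D β j :=
  (D.F.mulH j _ _ fun y => onv κ (xa β ξ y)).prodMap (D.F.mulH j _ _ (xs β ξ))
def xG (ξ : Y → β.m.A) (j : ℕ) : GG D β j →L[ℝ] GG D β j := D.F.mulH j _ _ (xa β ξ)
def xX (ξ : Y → β.m.A) (j : ℕ) : XX D β j →L[ℝ] XX D β j :=
  D.F.mulH j _ _ fun y => sm2 (onv (Option κ) (xa β ξ y)) (xs β ξ y)

end model

/-- admissible configurations -/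
abbrev XY : Type := {β : YC Y κ lam // D.Adm β}

/-- the type of group actions -/
abbrev ActT (k : ℕ) : Type := ∀ o : XY D, GG D o.1 (k + 2) × ℝ → CC D o.1 (k + 1) → CC D o.1 (k + 1)

/-- the type of spectral flows -/
abbrev SfT : Type := ∀ o : XY D, (XX D o.1 0 →L[ℝ] XX D o.1 0) → (XX D o.1 0 →L[ℝ] XX D o.1 0) → ℤ

/-- **The model.** -/
def gm (k : ℕ) (act : ActT D k) (sf : SfT D) : GM (Bc D) (Bw D) (B2 D) where
  X := XY D
  eqv x y := D.Eqv x.1 y.1
  SI x := ¬ Lin D.Z (cy x.1) univ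
  C o := CC D o.1 (k + 1)
  E o := CC D o.1 k
  L o := GG D o.1 (k + 2)
  M o := GG D o.1 (k + 1)
  H o := GG D o.1 k
  X₁ o := XX D o.1 1
  X₀ o := XX D o.1 0
  F0 o := mT D o.1 (YF.z0 D) (k + 1) k
  f j o := mf D o.1 (yf D j) (k + 1)
  τ j o v := iC D o.1 (k + 1) k (mT D o.1 (yf D j) (k + 1) (k + 1) v)
  b o := bb D o.1 k (k + 1)
  ic _ := ((1 / 4 : ℝ) • D.F.incl (k + 1) k _).prodMap (D.F.incl (k + 1) k _)
  ih _ := (1 / 4 : ℝ) • D.F.incl (k + 1) k _
  im _ := D.F.incl (k + 2) (k + 1) _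
  D o := d0 D o.1 (1 / 4) k
  σ o := sg D o.1 k
  d o := dv D o.1 (k + 1)
  J o := jv D o.1 (k + 1)
  act := act
  Rep o v x := ∃ y : SP D o.1, pt D o.1 (k + 1) y = v ∧ D.Eqv x.1 (cf y)
  Smo o := LinearMap.range (pt D o.1 (k + 1))
  i _ := D.F.incl 1 0 _
  L0 o := D.F.lift 1 0 _ _ (lf D o.1)
  j1 o := D.F.incl (k + 1) 1 _ ∘L emb D o.1 (1 / 2) (k + 1)
  j0 o := D.F.incl k 0 _ ∘L emb D o.1 2 k
  sf := sf
  XC o ξ := xC D o.1 (D.F.val _ _ ξ) (k + 1)
  XE o ξ := xC D o.1 (D.F.val _ _ ξ) k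
  XL o ξ := xG D o.1 (D.F.val _ _ ξ) (k + 2)
  XM o ξ := xG D o.1 (D.F.val _ _ ξ) (k + 1)
  XH o ξ := xG D o.1 (D.F.val _ _ ξ) k
  X1 o ξ := xX D o.1 (D.F.val _ _ ξ) 1
  X0 o ξ := xX D o.1 (D.F.val _ _ ξ) 0

theorem vy_zero (β : YC Y κ lam) : vy β 0 0 = β := by
  obtain ⟨m, W, Φ, z⟩ := β
  simp only [vy, vr, Pi.zero_apply, map_zero, add_zero]
  congr 1
  funext a x
  simp [Md.addC]

variable {D} in
theorem cf_zero (β : YC Y κ lam) : cf (0 : SP D β) = β := vy_zero β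

theorem YF.congr (u : YF Y κ lam) (β : YC Y κ lam) {W : β.m.Cn} {Φ : Y → β.m.V} (h1 : W = β.W)
    (h2 : Φ = β.Φ) : u.gA ⟨β.m, W, Φ, β.z⟩ = u.gA β ∧ u.gP ⟨β.m, W, Φ, β.z⟩ = u.gP β := by
  subst h1 h2; exact ⟨rfl, rfl⟩

variable {D} in
theorem g_cf_zero (u : YF Y κ lam) (β : YC Y κ lam) :
    u.gA (cf (0 : SP D β)) = u.gA β ∧ u.gP (cf (0 : SP D β)) = u.gP β :=
  u.congr β (funext₂ fun a x => by simp [Md.addC]) (funext fun x => by simp)

end Crest.Agent.X212.Crt72
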