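import Crest.Agent.X212.Crt72.Dc2

/-!
# Row 212, INV (helper72): compression of kernels, the index with two ends
-/

set_option autoImplicit false
set_option linter.unusedSectionVars false
noncomputable section
open Function Filter Topology Module Set MeasureTheory
open scoped RealInnerProductSpace BoundedContinuousFunction ContDiff

namespace Crest.Agent.X212.Crt72
open Neck67 (Sm Bd ex)
open Cyf70 Dec35 Rf65
open Nk89 (ab sm_ab)
open Fred93 (Fr)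

variable {X₁ X₀ Z X' : Type*} [NormedAddCommGroup X₁] [NormedSpace ℝ X₁] [CompleteSpace X₁]
  [NormedAddCommGroup X₀] [InnerProductSpace ℝ X₀] [CompleteSpace X₀] [NormedAddCommGroup Z]
  [NormedSpace ℝ Z] [CompleteSpace Z] [NormedAddCommGroup X'] [InnerProductSpace ℝ X']
  [CompleteSpace X'] {i L : X₁ →L[ℝ] X₀} {J : Z →L[ℝ] Lam X₁} {T : Z →L[ℝ] Lam X₀}
  {K K₁ K₂ : Lam X₀ →L[ℝ] Lam X₀} {j : X₀ →L[ℝ] X₀} {d C d' C' r : ℝ} {σ σ' : ℝ →ᵇ ℝ}

theorem m_cp (b : ℝ → ℝ) (a : X₀ →L[ℝ] X') (x : Lam X₀) :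
    (muL X').m b (cp a x) = cp a ((muL X₀).m b x) :=
  (ma_ma _ _ _ _ x).trans (Eq.trans (by rw [mul_comm]; rfl) (ma_ma _ _ _ _ x).symm)

theorem tk_cmp (h : TK K d C) {π : X₀ →L[ℝ] X'} {ι : X' →L[ℝ] X₀} (hs : ∀ x y, ⟪π x, y⟫ = ⟪x, ι y⟫) :
    TK (cp π ∘L K ∘L cp ι) d (‖π‖ * C * ‖ι‖) ∧ kk (cp π ∘L K ∘L cp ι) = π ∘L kk K ∘L ι := by
  have a := inner_ma 1 hs
  have E : ∀ r x, cp ι (Et X' r x) = Et X₀ r (ι x) := fun r x =>
    R.ext' ((R_Et r x).cp ι) (R_Et r _) fun t => map_smul _ _ _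
  have t : TK (cp π ∘L K ∘L cp ι) d (‖π‖ * C * ‖ι‖) := by
    refine ⟨fun x y => ?_, fun r x => ?_, fun φ h1 h2 => ?_, h.pos⟩
    · exact (a _ _).trans ((h.sym _ _).trans (real_inner_comm _ _ |>.trans
        ((a _ _).symm.trans (real_inner_comm _ _))))
    · exact (tr_cp _ _ _).trans (congrArg _ ((h.ti _ _).trans (congrArg _ (tr_cp _ _ _))))
    · have c := h.nonneg
      refine ContinuousLinearMap.opNorm_le_bound _ (by positivity) fun x => ?_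
      change ‖(muL X').m _ (cp π (K (cp ι ((muL X').m _ x))))‖ ≤ _
      rw [m_cp, ← m_cp (ex (-φ)), mul_assoc, mul_assoc]
      refine (norm_cp_le _ _).trans (mul_le_mul_of_nonneg_left ?_ (norm_nonneg _))
      exact (ContinuousLinearMap.le_of_opNorm_le _ (h.kw φ h1 h2) (cp ι x)).trans
        (mul_le_mul_of_nonneg_left (norm_cp_le _ _) c)
  refine ⟨t, ContinuousLinearMap.ext fun x => ext_inner_right ℝ fun y => ?_⟩
  rw [t.inner_kk]
  refine Eq.trans ?_ ((hs _ _).trans (h.inner_kk _ _)).symm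
  refine congrArg _ (funext fun r => ?_)
  rw [inner_gk]
  exact (a _ _).trans ((congrArg₂ (fun u v => ⟪K u, v⟫) (E _ _) (E _ _)).trans (inner_gk _ _ _).symm)

theorem sep_m (h : Sep i J K) {θ : ℝ → ℝ} (hθ : Sm θ) : Sep i J ((muL X₀).m θ * K) :=
  fun b c hb hc p H => by
    rw [← mul_assoc, ← (muL X₀).mul hb hθ]
    exact h _ c (hb.mul hθ) hc p (H.imp (And.imp_left fun h t ht => by simp [h t ht])
      (And.imp_left fun h t ht => by simp [h t ht]))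

theorem ex_cj (tk : TK K d C) : ∀ᶠ δ in 𝓝 (0 : ℝ), Bd 0 (deriv fun t => δ * ab t) (d / 2) ∧
    (∃ K', Cj (muL X₀) (fun t => δ * ab t) K K') ∧ ∃ K', Cj (muL X₀) (fun t => δ * t) K K' := by
  obtain ⟨A, hA, bA⟩ := bd_ab
  have p := tk.pos
  have c : ∀ x : ℝ, ∀ᶠ δ in 𝓝 (0 : ℝ), |δ| * x < d / 2 := fun x =>
    (by fun_prop : Continuous fun δ : ℝ => |δ| * x).continuousAt.eventually_lt
      continuousAt_const (by simpa using p)
  filter_upwards [c A, c 1] with δ h1 h2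
  exact ⟨(bA δ).mono h1.le, exists_cj tk.kw (contDiff_const.mul sm_ab) ((bA δ).mono (by linarith)),
    exists_cj tk.kw (contDiff_const.mul contDiff_id)
      ((show Bd 0 (deriv fun t : ℝ => δ * t) |δ| from fun t => by simp).mono (by linarith))⟩

variable (i L j) in
/-- the kernel of `L + k` is spanned by a vector fixed by `j` -/
def K1 (k : X₀ →L[ℝ] X₀) (n : X₁) : Prop := (∀ v, Op i L k v = 0 ↔ ∃ c : ℝ, v = c • n) ∧ j (i n) = i n

variable (h : CylD 1 i L J T) (hi : IsCompactOperator i) (hL : Fr L 0) (hσ : Stp σ σ' r)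
  (hj : j ∈ SymA X₀)
include h hi hL hσ hj

theorem cls (tk : TK K d C) {n : X₁} (hn : K1 i L j (kk K) n) : ∀ᶠ δ in 𝓝[≠] (0 : ℝ),
    ∃ K', Cj (muL X₀) (fun t => δ * t) K K' ∧ Cls i L J T σ (K' - δ • cp j) (kk K - δ • j) := by
  have := ((h.isSF hi hL hσ).frOp (kk K)).1.finite_ker
  obtain ⟨P, hP⟩ := exists_isPj i (Op i L (kk K)).ker
  have hN : ∀ a, ∃ c : ℝ, P a = c • i n := fun a => by
    obtain ⟨v, hv, e⟩ := hP.mem a
    obtain ⟨c, rfl⟩ := (hn.1 v).1 hv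
    exact ⟨c, by rw [e, map_smul]⟩
  obtain ⟨M, hM, nk⟩ := tk.nk_one hP.symm hN
  filter_upwards [h.inv hi hL hσ nk hM tk.kw tk.pos hP hj fun x => by
    obtain ⟨c, e⟩ := hN x
    rw [e, map_smul, hn.2], nhdsWithin_le_nhds (ex_cj tk)] with δ H ⟨_, _, K', c⟩
  exact ⟨K', c, H K' c⟩

/-- **the index with two ends** -/
theorem fr_mix (t₁ : TK K₁ d C) (t₂ : TK K₂ d' C') {k₁ k₂ : X₀ →L[ℝ] X₀} (q₁ : kk K₁ = k₁)
    (q₂ : kk K₂ = k₂) {n₁ n₂ : X₁} (h₁ : K1 i L j k₁ n₁) (h₂ : K1 i L j k₂ n₂) : ∀ᶠ δ in 𝓝[>] (0 : ℝ), ∀ K₁' K₂' θ,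
      Cj (muL X₀) (fun t => δ * ab t) K₁ K₁' → Cj (muL X₀) (fun t => δ * ab t) K₂ K₂' → Sm θ →
      (∀ t ≤ -2, θ t = 0) → (∀ t, 2 ≤ t → θ t = 1) →
      Fr (Dz i L J T ((muL X₀).m (1 - θ) * K₁' + (muL X₀).m θ * K₂' -
        ma (bc (deriv fun t => δ * ab t)) j)) (sf i L J T σ (k₁ + δ • j) (k₂ - δ • j)) := by
  subst q₁ q₂
  have ng : Tendsto (fun δ : ℝ => -δ) (𝓝[>] 0) (𝓝[≠] 0) := tendsto_nhdsWithin_iff.2
    ⟨(continuous_neg.tendsto' (0 : ℝ) 0 neg_zero).mono_left nhdsWithin_le_nhds,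
      eventually_mem_nhdsWithin.mono fun _ h => neg_ne_zero.2 h.ne'⟩
  filter_upwards [ng (cls h hi hL hσ hj t₁ h₁), nhdsWithin_mono _ (fun _ h => h.ne' :
    Ioi (0 : ℝ) ⊆ {0}ᶜ) (cls h hi hL hσ hj t₂ h₂), nhdsWithin_le_nhds (ex_cj t₁),
    nhdsWithin_le_nhds (ex_cj t₂)] with δ ⟨A, a1, a2⟩ ⟨B, b1, b2⟩ ⟨e1, _⟩ ⟨e2, _⟩ K₁' K₂' θ c1 c2 hθ θ0 θ1
  have hψ : ContDiff ℝ ∞ fun t => δ * ab t := contDiff_const.mul sm_ab
  have s1 := (Neck67.Sm.one).sub hθ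
  have key : ∀ {b : ℝ → ℝ} {x : ℝ}, Sm b → (∀ t, b t ≠ 0 → deriv (fun t => δ * ab t) t = x) →
      (muL X₀).m b * ma (bc (deriv fun t => δ * ab t)) j = (muL X₀).m b * (x • cp j) :=
    fun {b x} hb H => ContinuousLinearMap.ext fun f =>
      show mt X₀ (bc b) (ma _ j f) = mt X₀ (bc b) (x • cp j f) from
      R.ext' (by rr) (by rr) fun t => by
        by_cases h0 : b t = 0
        · simp [bc_apply hb, h0]
        · simp only [bc_apply (sm_dab δ), H t h0]; simp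
  have mm : ∀ {b c : ℝ → ℝ} {x : ℝ}, Sm b → Sm c → (∀ t, b t ≠ 0 → c t = x) →
      (muL X₀).m b * (muL X₀).m c = x • (muL X₀).m b := fun {b c x} hb hc H => by
    rw [← (muL X₀).mul hb hc, ← (muL X₀).smul x hb]
    exact congrArg _ (funext fun t => by by_cases h0 : b t = 0 <;> simp [*, mul_comm])
  rw [← sub_neg_eq_add (kk K₁), ← neg_smul]
  refine h.fr_ends hσ a2 b2 (((sep_m (h.sep_kw (c1.kw t₁.kw hψ e1) (half_pos t₁.pos)) s1).add
    (sep_m (h.sep_kw (c2.kw t₂.kw hψ e2) (half_pos t₂.pos)) hθ)).sub (h.sep_ma _ j)) (p := 2)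
    (fun b c hb hc' e1 e2 => ?_) fun b c hb hc' e1 e2 => ?_
  · have f : ∀ t, b t ≠ 0 ∨ c t ≠ 0 → t ≤ -2 := fun t ht => le_of_not_ge fun h0 =>
      ht.elim (fun h => h (e1 t h0)) fun h => h (e2 t h0)
    rw [mul_sub, sub_mul, mul_sub, sub_mul, ← c1.eq_on a1 hb hc' fun t ht => (ab_lo δ (f t ht)).1,
      key hb fun t ht => (ab_lo δ (f t (.inl ht))).2, mul_add, ← mul_assoc, ← mul_assoc,
      mm (x := 1) hb s1 fun t ht => by simp [θ0 t (f t (.inl ht))],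
      mm hb hθ fun t ht => θ0 t (f t (.inl ht)), zero_smul, zero_mul, add_zero, one_smul]
  · have f : ∀ t, b t ≠ 0 ∨ c t ≠ 0 → 2 ≤ t := fun t ht => le_of_not_ge fun h0 =>
      ht.elim (fun h => h (e1 t h0)) fun h => h (e2 t h0)
    rw [mul_sub, sub_mul, mul_sub, sub_mul, ← c2.eq_on b1 hb hc' fun t ht => (ab_hi δ (f t ht)).1,
      key hb fun t ht => (ab_hi δ (f t (.inl ht))).2, mul_add, ← mul_assoc, ← mul_assoc,
      mm (x := 0) hb s1 fun t ht => by simp [θ1 t (f t (.inl ht))],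
      mm hb hθ fun t ht => θ1 t (f t (.inl ht)), zero_smul, zero_mul, zero_add, one_smul]

open Classical in
/-- the flow across the kernel -/
theorem sf_one {k : X₀ →L[ℝ] X₀} (hk : k ∈ SymA X₀) {n : X₁} (hn : K1 i L j k n) :
    ∀ᶠ δ in 𝓝[>] (0 : ℝ), Bijective (Op i L (k + δ • j)) ∧ Bijective (Op i L (k - δ • j)) ∧
      sf i L J T σ (k + δ • j) (k - δ • j) = if n = 0 then 0 else -1 := by
  have e : (Op i L k).ker = ℝ ∙ n := Submodule.ext fun v =>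
    (hn.1 v).trans (Submodule.mem_span_singleton.trans (exists_congr fun _ => eq_comm)).symm
  refine (sf_cross (h.isSF hi hL hσ) hk hj (N₁ := ℝ ∙ n) (N₂ := ⊥) (by rw [e, sup_bot_eq])
    (fun p _ q hq => by rw [(Submodule.mem_bot ℝ).1 hq, map_zero, inner_zero_right])
    (fun v hv h0 => ?_) fun v hv h0 => (h0 hv).elim).mono fun δ H => ⟨H.1, H.2.1, H.2.2.trans ?_⟩
  · obtain ⟨c, rfl⟩ := Submodule.mem_span_singleton.1 hv
    rw [show j (i (c • n)) = i (c • n) by rw [map_smul, map_smul, hn.2]]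
    exact real_inner_self_pos.2 fun h' => h0 (h.inj (h'.trans (map_zero _).symm))
  · split_ifs with h0
    · simp [h0]
    · simp [finrank_span_singleton h0]

end Crest.Agent.X212.Crt72
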