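import Crest.Agent.X212.Crt72.Dc6
import Crest.Agent.X212.Crt72.Iv1
import Crest.Agent.X212.Crt72.Lf
import Crest.Agent.X212.Cyf70.Ke

/-!
# Row 212, INV (helper72): the derivative of the neck terms, the mixed perturbation
-/

set_option autoImplicit false
set_option linter.unusedSectionVars false
noncomputable section
open scoped Manifold ContDiff Topology InnerProductSpace BoundedContinuousFunction
open MeasureTheory Set Function Filter Real

namespace Crest.Agent.X212.Crt72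
open An An.Pre Sob92 Ell97 Cyf70 Nk89 Map77 Mod61 Wz78 Op78 Nd18 Dec35

section fmt
variable {E : Type} [NormedAddCommGroup E] [NormedSpace ℝ E] [FiniteDimensional ℝ E]
  [MeasurableSpace E] [BorelSpace E]
  {HM : Type} [TopologicalSpace HM] {I : ModelWithCorners ℝ E HM} [I.Boundaryless]
  {M : Type} [TopologicalSpace M] [ChartedSpace HM M] [IsManifold I ∞ M]
  [MeasurableSpace M] [T2Space M] [BorelSpace M] [SecondCountableTopology M]
  {ι lam : Type} [Fintype ι] [Fintype lam] {T : Type} [NormedAddCommGroup T] [NormedSpace ℝ T]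
  {𝔉 : Fam I M ι lam T} {o : Ref 𝔉} {r : ℕ} {θ : M → ℝ} {e₁ e₂ : PtX M ι lam r 0 0}

/-- `(1 - θ) e₁ + θ e₂` -/
def mixE (θ : M → ℝ) (e₁ e₂ : PtX M ι lam r 0 0) : PtX M ι lam r 0 0 where
  D c x := (1 - θ x) • e₁.D c x + θ x • e₂.D c x
  C c x := (1 - θ x) • e₁.C c x + θ x • e₂.C c x
  S _ := 0
  R _ := 0

theorem ind_mix {V : Type} [AddCommGroup V] [Module ℝ V] (O : Set M) (f g : M → V) (x : M) :
    O.indicator (fun x => (1 - θ x) • f x + θ x • g x) x =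
      (1 - θ x) • O.indicator f x + θ x • O.indicator g x := by
  by_cases hx : x ∈ O <;> simp [hx]

theorem aff_mix (h : 𝔉.OK) {Fs : T → Fr I M ι} (hθ : 𝔉.F0.Cb θ) (h₁ : Aff o Fs r 0 0 fun _ => e₁)
    (h₂ : Aff o Fs r 0 0 fun _ => e₂) : Aff o Fs r 0 0 fun _ => mixE θ e₁ e₂ := fun j hj => by
  obtain ⟨g₁, a₁, b₁⟩ := h₁ j hj
  obtain ⟨g₂, a₂, b₂⟩ := h₂ j hj
  have S := sup0 h
  have c : 𝔉.F0.Cb fun x => 1 - θ x := Cb_sub (Cb_const _) hθ
  let m (f : M → ℝ) : o.Y 0 0 (j + 1) →L[ℝ] o.Y 0 0 (j + 1) :=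
    (smulH _ _ _ f).prodMap ((smulH _ _ _ f).prodMap (.id ℝ _))
  have key : ∀ {V : Type} [NormedAddCommGroup V] [InnerProductSpace ℝ V] [FiniteDimensional ℝ V]
      {p : M → V →L[ℝ] V} (a : 𝔉.F0.H j p) (u v : 𝔉.F0.H (j + 1) p) (x : M), 𝔉.F0.val j p
      (a + 𝔉.F0.incl (j + 1) j p (smulH _ _ _ (fun x => 1 - θ x) u + smulH _ _ _ θ v)) x =
      (1 - θ x) • 𝔉.F0.val j p (a + 𝔉.F0.incl (j + 1) j p u) x +
        θ x • 𝔉.F0.val j p (a + 𝔉.F0.incl (j + 1) j p v) x := fun a u v x => by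
    have l : 4 ≤ j := by omega
    rw [val_add, val_add, val_add, val_incl S l j.le_succ, val_incl S l j.le_succ,
      val_incl S l j.le_succ, val_add]
    simp only [Pi.add_apply]
    rw [val_smulH S (by omega) c, val_smulH S (by omega) hθ]
    module
  refine ⟨fun v => m (fun x => 1 - θ x) (g₁ v) + m θ (g₂ v),
    ((m _).contDiff.comp_contDiffOn a₁).add ((m _).contDiff.comp_contDiffOn a₂), fun y =>
      ⟨funext fun x => ?_, funext fun x => ?_, Subsingleton.elim _ _, Subsingleton.elim _ _⟩⟩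
  · exact (key _ _ _ x).trans ((congrArg₂ (fun a b => _ • a + _ • b) (congrFun (b₁ y).D x)
      (congrFun (b₂ y).D x)).trans (ind_mix _ _ _ x).symm)
  · exact (key _ _ _ x).trans ((congrArg₂ (fun a b => _ • a + _ • b) (congrFun (b₁ y).C x)
      (congrFun (b₂ y).C x)).trans (ind_mix _ _ _ x).symm)

theorem dr_mix {y : Pnt o r} {τ₁ τ₂ : (M → Cf ι (Fin o.m.N)) → M → Ef ι (Fin o.m.N)}
    (h₁ : Dr (fun _ => e₁) y τ₁) (h₂ : Dr (fun _ => e₂) y τ₂) :
    Dr (fun _ => mixE θ e₁ e₂) y fun u x => (1 - θ x) • τ₁ u x + θ x • τ₂ u x := fun u Y H x =>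
  (((h₁ u Y H x).const_smul (1 - θ x)).add ((h₂ u Y H x).const_smul (θ x))).congr_of_eventuallyEq
    (.of_forall fun ε => by
      have a : vD (fun _ => mixE θ e₁ e₂) (Y ε) x = (1 - θ x) • vD (fun _ => e₁) (Y ε) x +
        θ x • vD (fun _ => e₂) (Y ε) x := ind_mix _ _ _ x
      have b : vC (fun _ => mixE θ e₁ e₂) (Y ε) x = (1 - θ x) • vC (fun _ => e₁) (Y ε) x +
        θ x • vC (fun _ => e₂) (Y ε) x := ind_mix _ _ _ x
      simp only [rm, a, b, Pi.add_apply, Pi.smul_apply, map_sub, map_add, map_smul]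
      module)

end fmt

variable {E3 : Type} [NormedAddCommGroup E3] [NormedSpace ℝ E3] [FiniteDimensional ℝ E3]
  [MeasurableSpace E3] [BorelSpace E3]
  {H3 : Type} [TopologicalSpace H3] {I3 : ModelWithCorners ℝ E3 H3} [I3.Boundaryless]
  {Y : Type} [TopologicalSpace Y] [ChartedSpace H3 Y] [IsManifold I3 ∞ Y] [T2Space Y]
  [MeasurableSpace Y] [BorelSpace Y] [SecondCountableTopology Y] [CompactSpace Y]
  {κ : Type} [Fintype κ] {lam : Type} [Fintype lam] {O' : Set (Y × ℝ)}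
  {D : YD I3 Y κ lam} {β : YC Y κ lam} {δ : ℝ} {N : ND Y lam}

variable (D β O') in
/-- the bundles with spinors over `O'` -/
abbrev dZ := dS (mbd D.B (cy β).m) O'

variable (N D) in
/-- the equations on the cylinder -/
abbrev eQ : PtX (Y × ℝ) (Option κ) lam 0 0 0 := eq0 D.B D.G 0 0 0 - ⟨N.q1 D.nk, 0⟩

variable (N D β O') in
/-- the projected Hessian -/
def zZ (u : Dec35.Cz β) (x : Y × ℝ) : Cv (cy β) := (dZ O' D β).pC x (hz N D β u x)

theorem vr_dZ (u : Sec (IC I3) (dZ O' D β).pC) : Vr D β u.1 :=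
  ⟨.of_hcs u.2.1 u.2.2.1, fun x => pC_dS (u.2.2.2 x)⟩

theorem cfg_of (hD : D.OK) (h : D.Adm β) (h0 : ∀ x ∉ O', β.Φ x.1 = 0) {y : Pnt (refZ T0 δ h h0) 0}
    {u : Dec35.Cz β} (hu : Tg D.B (cy β) u)
    (H : ∀ x, y.α x = (y0 h h0 δ).α x +
      fa (SC (refZ T0 δ h h0) ((famZ T0 D δ O').Si (y0 h h0 δ).t) x (u x)) ∧ y.φ x = (y0 h h0 δ).φ x +
      fp (SC (refZ T0 δ h h0) ((famZ T0 D δ O').Si (y0 h h0 δ).t) x (u x))) :
    y.cfg = cf (cy β) u := by
  have a : ∀ x, idx (fun a b => D.B.P a b x) (.id ℝ _) (fa (u x)) = fa (u x) := fun x =>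
    fm_ext fun a => (Map77.idx_apply _ _ _ _).trans ((cp_m hD h).P_fa (hu x) a)
  have e1 : y.α = fun x => fa (u x) := funext fun x =>
    (H x).1.trans ((zero_add _).trans ((f2_sm2 _ _ _).trans (a x)))
  have e2 : y.φ = fun x => fp (u x) := funext fun x =>
    (H x).2.trans ((zero_add _).trans (s2_sm2 _ _ _))
  rw [Pnt.cfg, W_refZ, e1, e2, funext a, Subsingleton.elim y.z β.z]
  rfl

theorem pC_dS' {d : Bd (Y × ℝ) (Option κ) (Fin β.m.N)} {x : Y × ℝ} {v : Cv (cy β)}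
    (h : d.pC x v = v) (h0 : x ∉ O' → fp v = 0) : (dS d O').pC x v = v :=
  ext2 ((f2_ps _ _).trans (p1_of h :)) ((s2_ps _ _).trans (by
    by_cases hx : x ∈ O'
    · exact (DFunLike.congr_fun (indicator_of_mem hx _) _).trans (sp_of h)
    · exact (DFunLike.congr_fun (indicator_of_notMem hx _) _).trans (h0 hx).symm))

theorem pE_kG {d : Bd (Y × ℝ) (Option κ) (Fin β.m.N)} (h : d.OK) (x : Y × ℝ) (v : Cv (cy β)) :
    d.pE x (kG d none x v) = kG d none x v :=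
  ext2 (by rw [f2_ps, f2_kG h, map_neg, h.mp]) (by rw [s2_ps, s2_kG, map_neg, map_smul, h.prj2.idem])

variable (h : Kp N D β) (h0 : ∀ x ∉ O', β.Φ x.1 = 0) (hO : IsClopen O')
include h h0 hO

theorem dr_eZ : Dr (fun _ => eQ D N) (y0 h.adm h0 δ) fun u x =>
    -kG (dZ O' D β) none x (zZ O' D β N u x) := fun u Z H x => by
  have C := cp_m h.ok h.adm
  have e := bd_refZ (δ := δ) h.ok h.adm h0
  have v : Vr D β u.1 := ⟨.of_hcs u.2.1 u.2.2.1, fun x =>
    pC_dS ((congrArg (fun d => d.pC x (u.1 x)) e).symm.trans (u.2.2.2 x))⟩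
  refine (((-((dZ O' D β).pE x ∘L kE D β x)).hasFDerivAt.comp_hasDerivAt 0
    (h.tw.der _ v x)).congr_of_eventuallyEq (.of_forall fun ε => ?_)).congr_deriv
      (congrArg Neg.neg (kG_dS C.ok (cp_dS C hO).ok none _).symm)
  have c := cfg_of (δ := δ) h.ok h.adm h0 (y := Z ε) (vr_csmul ε v).tg fun x => (H ε).2.2 x
  have t := te_q1 h.toHz (ε • u.1) x
  have p := pE_kG C.ok x (gz N D β (ε • u.1) x)
  have cD : @Eq (cy β).m.V ((N.q1 D.nk : Pt _ _ _ 0 0).D (Z ε).cfg x)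
      ((N.q1 D.nk : Pt _ _ _ 0 0).D (cf (cy β) (ε • u.1)) x) :=
    eq_of_heq (congr_arg_heq (fun c => (N.q1 D.nk : Pt _ _ _ 0 0).D c x) c)
  have cC : @Eq (Fm _ (cy β).m.A) ((N.q1 D.nk : Pt _ _ _ 0 0).C (Z ε).cfg x)
      ((N.q1 D.nk : Pt _ _ _ 0 0).C (cf (cy β) (ε • u.1)) x) :=
    eq_of_heq (congr_arg_heq (fun c => (N.q1 D.nk : Pt _ _ _ 0 0).C c x) c)
  change (mbd D.B (cy β).m).pE x (kE D β x _) = kE D β x _ at p
  refine Eq.trans ?_ (congrArg (fun v => -(dZ O' D β).pE x v) t)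
  rw [← t] at p
  have p1 := ((f2_ps _ _).symm.trans (congrArg (f2 _ _) p)).trans ((f2_ii _ _).trans cD.symm)
  have p2 := ((s2_ps _ _).symm.trans (congrArg (s2 _ _) p)).trans ((s2_ii _ _).trans cC.symm)
  refine ext2 ((f2_ii _ _).trans ?_) ((s2_ii _ _).trans ?_)
  · refine Eq.trans ?_ ((map_neg _ _).trans (congrArg Neg.neg (f2_ps _ _))).symm
    by_cases hx : x ∈ O'
    · refine Eq.trans (congrArg₂ (· - ·) (indicator_of_mem hx _) (indicator_of_mem hx _))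
        ((sub_sub_cancel_left _ _).trans (congrArg _ (p1.symm.trans ?_)))
      exact (DFunLike.congr_fun (indicator_of_mem hx _) _).symm
    · refine Eq.trans (congrArg₂ (· - ·) (indicator_of_notMem hx _) (indicator_of_notMem hx _))
        ((sub_self _).trans (neg_eq_zero.2 ?_).symm)
      exact DFunLike.congr_fun (indicator_of_notMem hx _) _
  · refine Eq.trans ?_ ((map_neg _ _).trans (congrArg Neg.neg (s2_ps _ _))).symm
    exact Eq.trans (congrArg₂ (· - ·) (indicator_of_mem (mem_univ x) _) (indicator_of_mem (mem_univ x) _))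
      ((sub_sub_cancel_left _ _).trans (congrArg _ p2.symm))

theorem pz_dZ (u : Dec35.Cz β) (x : Y × ℝ) :
    (dZ O' D β).pC x (zZ O' D β N u x) = zZ O' D β N u x :=
  (cp_dS (cp_m h.ok h.adm) hO).ok.prjC.idem x _

theorem gau_dZ (hc : N.Crit D β) (C' : Crt72.Cz D.F (dZ O' D β) (cy β).W (cy β).Φ)
    (ξ : Sec (IC I3) (dZ O' D β).g) (u : Dec35.Cz β)
    (e : u = ((dZ O' D β).d0 (GZ D δ O') (base (cy β).W (cy β).Φ)).app (GZ D δ O') ξ.1) (x : Y × ℝ) :
    ((dZ O' D β).lin (GZ D δ O') (base (cy β).W (cy β).Φ)).app (GZ D δ O') u x =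
      kG (dZ O' D β) none x (zZ O' D β N u x) ∧ fa (zZ O' D β N u x) none = 0 := by
  have C := cp_m h.ok h.adm
  have w := (wZ D δ O').wt
  have m : ∀ x, ξ.1 x ∈ (cy β).m.gS x := fun x => ξ.2.2.2 x ▸ pg_mem (m := (cy β).m) x (ξ.1 x)
  have a := dO_app h.ok.B h.ok.G h.adm.adm 1 ξ.2.1 m
  have g := h.gau hc ξ.1 (.of_hcs ξ.2.1 ξ.2.2.1) m
  have e1 : u = dg D.Z (cy β) 1 ξ.1 := e.trans ((d0_dS C w hO h0 ξ).trans (Eq.trans
    (by simp only [dO, one_smul]; rfl) a.1))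
  have pu : ∀ x, (dZ O' D β).pC x (u x) = u x := fun x => e1 ▸ pC_dS' (a.2 x) fun hx =>
    (fp_dg _ x).trans (by rw [show (cy β).Φ x = 0 from h0 x hx, map_zero, smul_zero])
  have su : Sm (IC I3) u := e1 ▸ (a.1 ▸
    sm_app ((bs_cyl h.ok h.adm).good_dO 1).choose_spec.2 ξ.2.1 :)
  refine ⟨(lin_dS C w hO su pu).trans ?_, ?_⟩
  · rw [e1]
    exact (congrArg _ (congrFun g.1 x)).trans (kG_dS C.ok C'.cp.ok none _).symm
  · rw [zZ, f2_ps, C'.p1_none, e1, g.2, map_zero]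

end Crest.Agent.X212.Crt72
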