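import Crest.Agent.X212.Crt72.Iv2
import Crest.Agent.X212.Ax1.Gp0
import Crest.Agent.X212.St29.Lap
import Crest.Agent.X212.Dec35.Un

/-!
# Row 212, INV (helper72): the operators on the cross-section with spinors over `O'`
-/

set_option autoImplicit false
set_option linter.unusedSectionVars false
noncomputable section
open scoped Manifold ContDiff Topology InnerProductSpace BoundedContinuousFunction
open MeasureTheory Set Function Filter Real

namespace Crest.Agent.X212.Crt72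
open An An.Pre Sob92 Ell97 Cyf70 Nk89 Map77 Mod61 Wz78 Op78 Nd18 Dec35

variable {E3 : Type} [NormedAddCommGroup E3] [NormedSpace ℝ E3] [FiniteDimensional ℝ E3]
  [MeasurableSpace E3] [BorelSpace E3]
  {H3 : Type} [TopologicalSpace H3] {I3 : ModelWithCorners ℝ E3 H3} [I3.Boundaryless]
  {Y : Type} [TopologicalSpace Y] [ChartedSpace H3 Y] [IsManifold I3 ∞ Y] [T2Space Y]
  [MeasurableSpace Y] [BorelSpace Y] [SecondCountableTopology Y] [CompactSpace Y]
  {κ : Type} [Fintype κ] {lam : Type} [Fintype lam] {O' : Set (Y × ℝ)}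
  {D : YD I3 Y κ lam} {β : YC Y κ lam} {δ : ℝ} {N : ND Y lam}

theorem keStmt : KeStmt I3 Y κ lam := fun N D β h hd _ hc hN ir K hK => by
  have o : Eqv71.OKZ D := ⟨h.ok, tame_Z h.ok⟩
  have irr := irr_of h.ok h.adm ir
  obtain ⟨η, hη, h0⟩ := exists_u0 h.toHz St29.Lap.lap irr
  have e := h.ker_eq hd hK hc (Eqv71.natZ (o.q1 h.nd) o) hη h0 St29.Lap.lap irr hN
  refine ⟨n0 h.toHz hη, fun y => ?_, ⟨fun e => fix_n0 h.toHz hη ?_,
    n0_fix h.toHz hη St29.Lap.lap irr h0⟩, fun v => (SetLike.ext_iff.1 e v).trans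
      (Submodule.mem_span_singleton.trans (exists_congr fun _ => eq_comm))⟩
  · change fa (sc2 _ _ (1 / 2) 1 (Cyf70.jY β y + gY D β 1 η y)) none = 0
    rw [f2_sc2, map_add, Cyf70.jY, fa_jC, zero_add, PiLp.smul_apply, gY, fa_dg_none h.adm hη.sm, smul_zero]
  · rw [μ0, e, ← inner_toH, map_zero, inner_zero_left]

theorem fx_of_zr (h : D.Zr β) : D.Fx β := ⟨fun _ => 0, ⟨contMDiffOn_const, fun _ _ => zero_mem _,
  fun a x _ => by simp [nab, dv_const]⟩, fun x _ => by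
    rw [show (cy β).Φ x = 0 from h _, map_zero, map_zero]⟩

theorem inner_jC {ι : Type} [Fintype ι] [DecidableEq ι] (v w : Cf (Option κ) ι) :
    ⟪jC κ ι v, w⟫_ℝ = ⟪v, jC κ ι w⟫_ℝ := by
  rw [inner2, inner2, inner_fm (fa _), inner_fm (fa v), Fintype.sum_option, Fintype.sum_option]
  simp only [fa_jC_none, fa_jC_some, fp_jC, inner_neg_left, inner_neg_right]

theorem sop_dS {ι : Type} [Fintype ι] [DecidableEq ι] {F : Fr I3 Y κ}
    {d : Bd (Y × ℝ) (Option κ) ι} {W : Option κ → Y × ℝ → En ι} {Φ : Y × ℝ → Eu ι} (h : Cz F d W Φ)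
    (hO : O' = univ ∨ O' = ∅) (h0 : ∀ x ∉ O', Φ x = 0) {u : Y → Cf (Option κ) ι} (hu : Sm I3 u)
    (pu : ∀ x, (dS d O').pC x (u x.1) = u x.1) (y : Y) :
    (sop (AC F (dS d O') W Φ)).app F u y = (sop (AC F d W Φ)).app F u y := by
  have h' := h.dS hO h0
  rcases hO with rfl | rfl
  · rw [dS_univ]
  have s := sm_fst hu
  have p := fun x => pC_dS (pu x)
  have z : (fun x : Y × ℝ => fp (u x.1)) = fun _ => 0 := funext fun x => by
    rw [← sp_of (pu x)]; simp [dS]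
  have e2 : f2 _ _ (s2 _ _ ((sful d (cyl F) W Φ).app (cyl F) (fun x => u x.1) (y, 0))) = 0 := by
    rw [sful_dir h.cp s p, z]; simp [dir, nab, dv_const, cl, h0]
  have e : (sful (dS d ∅) (cyl F) W Φ).app (cyl F) (fun x => u x.1) (y, 0) =
      (sful d (cyl F) W Φ).app (cyl F) (fun x => u x.1) (y, 0) :=
    ext2 ((sful_row h'.cp s pu).trans (sful_row h.cp s p).symm) (ext2
      (by rw [e2, sful_dir h'.cp s pu]; simp [dS]) ((sful_crv h'.cp s pu).trans (sful_crv h.cp s p).symm))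
  rw [app_sop _ hu, app_sop _ hu, e]
  refine ext_inner_right ℝ fun v => (tr_inner _ _ _).trans (Eq.trans ?_ (tr_inner _ _ _).symm)
  rw [inner2, inner2, inner2, inner2, e2, inner_zero_left, inner_zero_left]
  have eσ : ∀ d : Bd (Y × ℝ) (Option κ) ι, (sful d (cyl F) W Φ).σ = (d.full (cyl F) (base W 0)).σ :=
    fun _ => rfl
  rw [eσ, eσ, h'.cp.ok.full_σ1, h.cp.ok.full_σ1, Bd.OK.full_σ3, Bd.OK.full_σ3]
  rfl

section defs
variable (O' D β)

/-- the operator on the cylinder with spinors over `O'` -/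
abbrev AS := AC D.F (dZ O' D β) (cy β).W (cy β).Φ

/-- the Sobolev spaces on the cross-section -/
abbrev HS' (k : ℕ) : Type := D.F.H k (AS O' D β).p

/-- the projection -/
def πY (k : ℕ) : Cyf70.HY D β k →L[ℝ] HS' O' D β k := D.F.mulH k _ _ (AS O' D β).p

/-- the inclusion -/
def ιY (k : ℕ) : HS' O' D β k →L[ℝ] Cyf70.HY D β k := D.F.mulH k _ _ (AS O' D β).p

/-- the reflection of the `dt`-component -/
abbrev jY' : HS' O' D β 0 →L[ℝ] HS' O' D β 0 := D.F.mulH 0 _ _ fun _ => jC κ _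

variable {D β}

/-- the compressed Hessian -/
abbrev KS (K : HZ D β 0 →L[ℝ] HZ D β 0) : Lam (HS' O' D β 0) →L[ℝ] Lam (HS' O' D β 0) :=
  cp (πY O' D β 0) ∘L KZ K ∘L cp (ιY O' D β 0)

/-- the compressed operator on the cross-section -/
abbrev OS (k : Cyf70.HY D β 0 →L[ℝ] Cyf70.HY D β 0) : HS' O' D β 1 →L[ℝ] HS' O' D β 0 :=
  Op (D.F.incl 1 0 _) (Cyf70.LH D.F (AS O' D β) 0) (πY O' D β 0 ∘L k ∘L ιY O' D β 0)

end defs

variable (O' D β) in
/-- the standing hypotheses -/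
structure Hs0 : Prop where
  ok : D.OK
  adm : D.Adm β
  dim : Module.finrank ℝ E3 ≤ 3
  O : O' = univ ∨ O' = ∅
  z : ∀ x ∉ O', β.Φ x.1 = 0

namespace Hs0
variable (h : Hs0 O' D β) {k : ℕ}
include h

theorem cz : Crt72.Cz D.F (dZ O' D β) (cy β).W (cy β).Φ := (cz_mbd h.ok h.adm h.dim).dS h.O h.z

theorem sm_p : Sm I3 (AS O' D β).p := sm_slice_fst h.cz.cp.sm_pC 0

theorem pp (y : Y) (v : Cv (cy β)) : (AS O' D β).p y ((AS O' D β).p y v) = (AS O' D β).p y v :=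
  h.cz.cp.ok.prjC.idem _ _

theorem mπ : Maps (AZ D β).p (AS O' D β).p (AS O' D β).p := .of_left h.pp

theorem mι : Maps (AS O' D β).p (AZ D β).p (AS O' D β).p := .of_left fun y v => pC_dS (h.pp y v)

theorem rπ : D.F.Rep (πY O' D β k) fun u y => (AS O' D β).p y (u y) :=
  rep_mulH (Cb_of_compact h.sm_p) h.mπ

theorem rι : D.F.Rep (ιY O' D β k) fun u y => (AS O' D β).p y (u y) :=
  rep_mulH (Cb_of_compact h.sm_p) h.mι

omit h in
/-- the same section -/
def up (u : Sec I3 (AS O' D β).p) : SY D β := ⟨u.1, u.2.1, u.2.2.1, fun y => pC_dS (u.2.2.2 y)⟩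

theorem ι_toH (u : Sec I3 (AS O' D β).p) : ιY O' D β k (D.F.toH k _ u) = D.F.toH k _ (up u) :=
  RepT_toH' h.rι u _ (funext u.2.2.2)

theorem p_of {y : Y} {v : Cv (cy β)} (hv : (mbd D.B (cy β).m).pC (y, 0) v = v)
    (h0 : O' = ∅ → fp v = 0) : (AS O' D β).p y v = v :=
  show (dZ O' D β).pC (y, 0) v = v from
    pC_dS' hv fun hy => h0 (h.O.resolve_left fun e => hy (e ▸ mem_univ _))

theorem ιπ (s : SY D β) (hs : ∀ y, (AS O' D β).p y (s.1 y) = s.1 y) :
    ιY O' D β k (πY O' D β k (D.F.toH k _ s)) = D.F.toH k _ s := by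
  rw [RepT_toH' h.rπ s ⟨s.1, s.2.1, s.2.2.1, hs⟩ (funext hs), h.ι_toH]; rfl

theorem πι (v : HS' O' D β k) : πY O' D β k (ιY O' D β k v) = v :=
  DFunLike.congr_fun (RepT_eq (RepT_comp h.rπ h.rι) Rep_id fun u => funext fun y =>
    (h.pp y _).trans (u.2.2.2 y)) v

theorem adj (x : Cyf70.HY D β 0) (y : HS' O' D β 0) : ⟪πY O' D β 0 x, y⟫_ℝ = ⟪x, ιY O' D β 0 y⟫_ℝ := by
  induction x, y using H_ind₂ with
  | hP => exact isClosed_eq (by fun_prop) (by fun_prop)
  | h u v =>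
    rw [RepT_toH h.rπ, RepT_toH h.rι, inner_toH, inner_toH]
    exact integral_congr_ae (ae_of_all _ fun x => h.cz.cp.ok.prjC.symm _ _ _)

theorem sym_j : jY' O' D β ∈ SymA _ := fun x y => by
  have r := rep_mulH (F := D.F.toPre) (k := 0) (Cb_const _) h.cz.mj
  induction x, y using H_ind₂ with
  | hP => exact isClosed_eq (by fun_prop) (by fun_prop)
  | h u v =>
    rw [RepT_toH r, RepT_toH r, inner_toH, inner_toH]
    exact integral_congr_ae (ae_of_all _ fun x => inner_jC _ _)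

theorem incl_ι (v : HS' O' D β 1) :
    D.F.incl 1 0 _ (ιY O' D β 1 v) = ιY O' D β 0 (D.F.incl 1 0 _ v) :=
  Rep_incl h.rι h.rι zero_le_one zero_le_one v

theorem L_ι (v : HS' O' D β 1) : Cyf70.LH D.F (AZ D β) 0 (ιY O' D β 1 v) =
    ιY O' D β 0 (Cyf70.LH D.F (AS O' D β) 0 v) := by
  have g := h.cz.cyO.good_sop.choose_spec
  have g' := (cz_mbd h.ok h.adm h.dim).cyO.good_sop.choose_spec
  refine DFunLike.congr_fun (RepT_eq (RepT_comp (rep_OpH g' 0).1 h.rι)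
    (RepT_comp h.rι (rep_OpH g 0).1) fun u => funext fun y => ?_) v
  refine Eq.trans ?_ ((q_app g _ y).trans (sop_dS (cz_mbd h.ok h.adm h.dim) h.O h.z u.2.1
    (fun x => h.cz.pe ▸ u.2.2.2 x.1) y)).symm
  exact congrArg (fun w => (sop (AZ D β)).app D.F w y) (funext u.2.2.2)

/-- intertwining -/
theorem op_ι {k : Cyf70.HY D β 0 →L[ℝ] Cyf70.HY D β 0}
    (hk : ∀ v, ιY O' D β 0 (πY O' D β 0 (k (ιY O' D β 0 v))) = k (ιY O' D β 0 v)) (v : HS' O' D β 1) :
    Op (D.F.incl 1 0 _) (Cyf70.LH D.F (AZ D β) 0) k (ιY O' D β 1 v) = ιY O' D β 0 (OS O' k v) := by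
  rw [Op_apply, Op_apply, map_add, h.L_ι, h.incl_ι, ← hk]; rfl

variable (hp : Kp N D β) {K : HZ D β 0 →L[ℝ] HZ D β 0} (hK : IsK N D β K)
include hp hK

theorem kk_ι (v : HS' O' D β 0) :
    ιY O' D β 0 (πY O' D β 0 (kk (KZ K) (ιY O' D β 0 v))) = kk (KZ K) (ιY O' D β 0 v) := by
  induction v using H_ind with
  | hP => exact isClosed_eq (by fun_prop) (by fun_prop)
  | h u =>
    rw [h.ι_toH, (hp.sd h.dim hK).kk_toH]
    refine h.ιπ _ fun y => h.p_of (v := kY N D β (up u).1 y) (hp.tg_kY (up u) (y, 0)) ?_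
    rintro rfl
    let s := scY hp.toHz 2 1 (up u)
    obtain ⟨_, _, _, _, H⟩ := hp.slice s
    refine (s2_sc2 _ _ _).trans ((one_smul _ _).trans ((fp.hasFDerivAt.comp_hasDerivAt 0
      (H (y, 0)).1).unique ((hasDerivAt_const (0 : ℝ) 0).congr_of_eventuallyEq (.of_forall fun ε =>
        Ax1.Gp.gp0 I3 Y κ lam N D β hp.toHz _ (vb_csmul ε (vb_fst hp.toHz s)) (fun x => ?_) _))))
    have z : fp (u.1 x.1) = 0 := (sp_of (u.2.2.2 x.1)).symm.trans
      (DFunLike.congr_fun (indicator_of_notMem (notMem_empty _) _) _)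
    rw [show (cy β).Φ x = 0 from h.z x (notMem_empty _), zero_add]
    exact (map_smul _ _ _).trans (smul_eq_zero_of_right _
      ((s2_sc2 _ _ _).trans (smul_eq_zero_of_right _ z)))

end Hs0

end Crest.Agent.X212.Crt72
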