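import Crest.Agent.X212.Cyf70.Kr
import Crest.Agent.X212.Crt72.Props

/-!
# Row 212, INV and LNK (helper72): three leaves on the cross-section
-/

set_option autoImplicit false
noncomputable section
open scoped Manifold ContDiff Topology InnerProductSpace
open Set

namespace Crest.Agent.X212.Crt72
open An Cyf70 Map77 Nd18 Dec35

variable {E3 : Type} [NormedAddCommGroup E3] [NormedSpace ℝ E3] [FiniteDimensional ℝ E3]
  [MeasurableSpace E3] [BorelSpace E3]
  {H3 : Type} [TopologicalSpace H3] (I3 : ModelWithCorners ℝ E3 H3) [I3.Boundaryless]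
  (Y : Type) [TopologicalSpace Y] [ChartedSpace H3 Y] [IsManifold I3 ∞ Y] [T2Space Y]
  [MeasurableSpace Y] [BorelSpace Y] [SecondCountableTopology Y] [CompactSpace Y]
  (κ : Type) [Fintype κ] (lam : Type) [Fintype lam]

/-- LEAF KE: the kernel on the cross-section is the direction of the circle -/
def KeStmt : Prop := ∀ (N : ND Y lam) (D : YD I3 Y κ lam) β, Kp N D β → Module.finrank ℝ E3 ≤ 3 →
  PreconnectedSpace Y → N.Crit D β → N.Nondeg D β → (D.Zr β → ¬D.Ln β) →
  ∀ K : HZ D β 0 →L[ℝ] HZ D β 0, IsK N D β K → ∃ n : SY D β, (∀ y, fa (n.1 y) none = 0) ∧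
    (n = 0 ↔ D.Fx β) ∧ ∀ v, OY K v = 0 ↔ ∃ c : ℝ, v = c • D.F.toH 1 _ n

/-- LEAF GP0: no spinor part of the gradient without spinor -/
def Gp0Stmt : Prop := All I3 Y κ lam fun N D β => ∀ a, Vb D β a →
  (∀ x, (cy β).Φ x + fp (a x) = 0) → ∀ x, fp (gz N D β a x) = 0

/-- LEAF KK: off the `dt`-components the slice part of the Hessian is the Hessian of the model -/
def KkStmt : Prop := ∀ (D : YD I3 Y κ lam) (N : ND Y lam) (x : XY D) k act sf q, HY D → 7 ≤ k →
  (gm D k act sf).Ax → q ∈ (gm D k act sf).Rl → Rz D q N → Kp N D x.1 →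
  ∀ K : HZ D x.1 0 →L[ℝ] HZ D x.1 0, IsK N D x.1 K → ∀ e,
    kk (KZ K) ((gm D k act sf).j0 x (e, 0)) = (gm D k act sf).hs q x ((gm D k act sf).j0 x (e, 0))

end Crest.Agent.X212.Crt72
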