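import Crest.Agent.X212.Crt72.Three

/-!
# Row 212, LNK (helper72): the spectral flow does not see the `dt`-block
-/

set_option autoImplicit false
set_option linter.unusedSectionVars false
noncomputable section
open Set Filter Topology Function
open scoped ContDiff InnerProductSpace

namespace Crest.Agent.X212.Crt72

theorem le_of_inner' {X : Type*} [NormedAddCommGroup X] [InnerProductSpace ℝ X] {x y : X}
    (h : ⟪x, y⟫_ℝ = -‖y‖ ^ 2) : ‖y‖ ≤ ‖x‖ := by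
  have := abs_real_inner_le_norm x y
  rw [h, abs_neg, abs_of_nonneg (sq_nonneg _)] at this
  nlinarith [norm_nonneg x, norm_nonneg y]

namespace SF
variable {X₁ X₀ : Type*} [NormedAddCommGroup X₁] [NormedSpace ℝ X₁] [CompleteSpace X₁]
  [NormedAddCommGroup X₀] [InnerProductSpace ℝ X₀] [CompleteSpace X₀] {i L : X₁ →L[ℝ] X₀}
  {A : Submodule ℝ (X₀ →L[ℝ] X₀)} {sf : (X₀ →L[ℝ] X₀) → (X₀ →L[ℝ] X₀) → ℤ} (H : SF i L A sf)
  {a b s t : X₀ →L[ℝ] X₀}
include H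

theorem move (ha : a ∈ A) (hb : b ∈ A) (hs : s ∈ A) (ht : t ∈ A)
    (h1 : ∀ r ∈ Icc (0 : ℝ) 1, Bijective (Op i L (a + r • s)))
    (h2 : ∀ r ∈ Icc (0 : ℝ) 1, Bijective (Op i L (b + r • t))) : sf (a + s) (b + t) = sf a b := by
  have e1 := H.hom a ha _ (A.add_mem ha hs) (by simpa using h1)
  have e2 := H.hom b hb _ (A.add_mem hb ht) (by simpa using h2)
  have z : (0 : ℝ) ∈ Icc (0 : ℝ) 1 := ⟨le_rfl, zero_le_one⟩
  have o : (1 : ℝ) ∈ Icc (0 : ℝ) 1 := ⟨zero_le_one, le_rfl⟩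
  have a0 := h1 0 z
  have a1 := h1 1 o
  have b0 := h2 0 z
  have b1 := h2 1 o
  simp only [zero_smul, add_zero, one_smul] at a0 a1 b0 b1
  have e3 := H.add a ha _ (A.add_mem ha hs) _ (A.add_mem hb ht) a0 a1 b1
  have e4 := H.add a ha b hb _ (A.add_mem hb ht) a0 b0 b1
  omega

theorem near (ha : a ∈ A) (hb : b ∈ A) (hs : s ∈ A) (h1 : Bijective (Op i L a))
    (h2 : Bijective (Op i L b)) : ∀ᶠ δ in 𝓝 (0 : ℝ), sf (a + δ • s) (b - δ • s) = sf a b := by
  have k : ∀ {a}, Bijective (Op i L a) → ∀ᶠ δ in 𝓝 (0 : ℝ), ∀ r, |r| ≤ |δ| →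
      Bijective (Op i L (a + r • s)) := fun {a} h => by
    obtain ⟨ε, hε, e⟩ := Metric.eventually_nhds_iff.1 (((show Continuous fun r : ℝ =>
      Op i L (a + r • s) by unfold Op; fun_prop).continuousAt (x := 0)).eventually
        (isOpen_bij.mem_nhds (by simpa using h)))
    exact Metric.eventually_nhds_iff.2 ⟨ε, hε, fun δ hδ r hr => e (by
      rw [Real.dist_0_eq_abs] at hδ ⊢; exact hr.trans_lt hδ)⟩
  have m : ∀ r ∈ Icc (0 : ℝ) 1, ∀ δ : ℝ, |r * δ| ≤ |δ| := fun r hr δ => by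
    rw [abs_mul, abs_of_nonneg hr.1]; exact mul_le_of_le_one_left (abs_nonneg _) hr.2
  filter_upwards [k h1, k h2] with δ e1 e2
  rw [sub_eq_add_neg, ← neg_smul]
  exact H.move ha hb (A.smul_mem _ hs) (A.smul_mem _ hs)
    (fun r hr => by rw [smul_smul]; exact e1 _ (m r hr δ))
    fun r hr => by rw [smul_smul]; exact e2 _ ((m r hr _).trans_eq (abs_neg δ))

end SF

namespace GM.Ax
variable {Bc Bw B2 : Type} {Q : GM Bc Bw B2} (H : Q.Ax) {q : Q.Fd} {o : Q.X} (hq : q ∈ Q.Rl)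
  (hs : Q.Sol q o) (hb : Bijective (Q.σ o ∘L Q.d o 0)) (B : Q.Bij q o)
include H hq hs hb B

theorem nd_of : Q.ND q o := fun u hu => by
  obtain ⟨η, e⟩ := hb.2 (Q.σ o u)
  have d := H.dF_dd hq hs (η, 0)
  refine ⟨(η, 0), sub_eq_zero.1 (congrArg Prod.fst (H.op.injZ (z := (_, 0)) (z' := 0)
    (congrArg _ (B.1 ?_))))⟩
  rw [H.op_j1 (Rl_le hq), ext_apply, map_sub, hu, d, map_sub, ← e, dd_apply]
  simp [Prod.mk_zero_zero]

theorem bij_t {t : Q.X₀ o →L[ℝ] Q.X₀ o} (ht : t ∈ symA _) (h0 : ∀ e, t (Q.j0 o (e, 0)) = 0) :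
    Bijective (Op (Q.i o) (Q.L0 o) (Q.hs q o + t)) := by
  refine (H.sf o).bij_of_inj fun v hv => B.1 ?_
  have a : ∀ h, ⟪Q.i o v, Q.j0 o (0, h)⟫_ℝ = 0 := fun h => by
    obtain ⟨η, rfl⟩ := hb.2 h
    have d := H.dF_dd hq hs (η, 0)
    have s := (H.sf o).symOp ((symA _).add_mem (H.hs_sym (Rl_le hq) o) ht) v (Q.j1 o (Q.d o 0 η, 0))
    rw [dd_apply, zero_smul, add_zero] at d
    rw [hv, inner_zero_left, Op_add, add_apply, H.op_j1 (Rl_le hq), ext_apply, d,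
      ContinuousLinearMap.comp_apply, H.op.ij, map_zero, map_zero, h0, add_zero, add_zero] at s
    exact s.symm
  have b : ∀ y, ‖t (Q.i o v)‖ ≤ ‖t‖ * (2 * ‖Q.i o v - y‖) := fun y => by
    refine (H.op.den0 o).induction_on y (isClosed_le (by fun_prop) (by fun_prop)) fun ⟨e, h⟩ => ?_
    have c : ‖Q.j0 o (0, h)‖ ≤ ‖Q.i o v - Q.j0 o (e, h)‖ := by
      refine le_of_inner' ?_
      rw [inner_sub_left, a, H.op.split o e h, inner_add_left, H.op.orth, real_inner_self_eq_norm_sq]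
      ring
    rw [show t (Q.i o v) = t (Q.i o v - Q.j0 o (e, h) + Q.j0 o (0, h)) by
      rw [H.op.split o e h, sub_add_eq_sub_sub, sub_add_cancel, map_sub, h0, sub_zero]]
    exact (t.le_opNorm _).trans (mul_le_mul_of_nonneg_left ((norm_add_le _ _).trans (by linarith))
      (norm_nonneg _))
  have := b (Q.i o v)
  rw [sub_self, norm_zero, mul_zero, mul_zero, norm_le_zero_iff] at this
  rw [map_zero, ← hv, Op_add, add_apply, ContinuousLinearMap.comp_apply, this, add_zero]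

end GM.Ax

end Crest.Agent.X212.Crt72
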