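import Crest.Agent.X212.Crt72.Mor

/-!
# Row 212, CRIT (helper72): the local theory in a chart
-/

set_option autoImplicit false
set_option linter.unusedSectionVars false
noncomputable section
open Set Filter Topology Function
open scoped ContDiff InnerProductSpace

namespace Crest.Agent.X212.Crt72
open Fred93 Sard93
open ContinuousLinearMap (fst snd inl inr)

section
variable {Z Y P : Type*} [NormedAddCommGroup Z] [NormedSpace ℝ Z] [CompleteSpace Z]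
  [NormedAddCommGroup Y] [NormedSpace ℝ Y] [CompleteSpace Y]
  [NormedAddCommGroup P] [NormedSpace ℝ P] [CompleteSpace P]

theorem cont_prod {X : Type*} [TopologicalSpace X] {f : X → Z →L[ℝ] Y} {g : X → Z →L[ℝ] P}
    (hf : Continuous f) (hg : Continuous g) : Continuous fun x => (f x).prod (g x) :=
  (ContinuousLinearMap.prodₗᵢ ℝ).continuous.comp (hf.prodMk hg)

/-- local Sard with one more multiplier -/
theorem sard_ext {B : Y →L[ℝ] Z →L[ℝ] ℝ} {ι T : Z →L[ℝ] Y} (h : SY B ι T) (hn : ∀ z, 0 ≤ B (ι z) z)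
    {π : Z →L[ℝ] Z}
    {π' : Y →L[ℝ] Y} (hp : PJ B ι T π π') (hp' : ∀ y, π' (π' y) = π' y) {Φ : Z × P → Y}
    (hΦ : ContDiff ℝ ∞ Φ) {p₀ : P} (h0 : Φ (0, p₀) = 0) (hT : dE Φ (0, p₀) = T)
    (hπ : ∀ p, π' (Φ (0, p)) = Φ (0, p)) {w : Z} (hw : π w = w) (c : ℝ)
    (ho : ∀ k (s : ℝ), T k + s • ι w = 0 → B (ι w) k + c * s = 0 → π k = k →
      (∀ e, B (fderiv ℝ Φ (0, p₀) (0, e)) k = 0) → k = 0 ∧ s = 0) :
    ∃ N ∈ 𝓝 ((0 : Z), p₀), ∀ᶠ p in residual P, ∀ z, (z, p) ∈ N → π z = z → Φ (z, p) = 0 →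
      B (ι w) z = 0 → ∀ n, π n = n → dE Φ (z, p) n = 0 → B (ι w) n = 0 → n = 0 := by
  let B₁ : Y × ℝ →L[ℝ] Z × ℝ →L[ℝ] ℝ := B.bilinearComp (fst ℝ Y ℝ) (fst ℝ Z ℝ) +
    (ContinuousLinearMap.mul ℝ ℝ).bilinearComp (snd ℝ Y ℝ) (snd ℝ Z ℝ)
  have hB : ∀ y z, B₁ y z = B y.1 z.1 + y.2 * z.2 := fun _ _ => rfl
  let K : Z × ℝ →L[ℝ] Y × ℝ := ((snd ℝ Z ℝ).smulRight (ι w)).prod (B (ι w) ∘L fst ℝ Z ℝ + c • snd ℝ Z ℝ)
  have hK : ∀ z, K z = (z.2 • ι w, B (ι w) z.1 + c * z.2) := fun _ => rfl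
  let T₁ : Z × ℝ →L[ℝ] Y × ℝ := inl ℝ Y ℝ ∘L T ∘L fst ℝ Z ℝ + K
  have hT₁ : ∀ z, T₁ z = (T z.1 + z.2 • ι w, B (ι w) z.1 + c * z.2) := fun z => by
    simp [T₁, hK]
  let m : (Z × ℝ) × P →L[ℝ] Z × P := (fst ℝ Z ℝ).prodMap (ContinuousLinearMap.id ℝ P)
  let Ψ : (Z × ℝ) × P → Y × ℝ := fun z => inl ℝ Y ℝ (Φ (m z)) + (K ∘L fst ℝ _ P) z
  have hd : ∀ z x, fderiv ℝ Ψ z x = (fderiv ℝ Φ (m z) (m x), 0) + K x.1 := fun z x =>
    congrArg (fun l : (Z × ℝ) × P →L[ℝ] Y × ℝ => l x)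
      (((inl ℝ Y ℝ).hasFDerivAt.comp z ((hΦ.differentiable
        (by simp) _).hasFDerivAt.comp z m.hasFDerivAt)).add (K ∘L fst ℝ _ P).hasFDerivAt).fderiv
  have hw' : ∀ z, B (ι w) (π z) = B (ι w) z := fun z => by rw [← hp.B, hp.ι, hw]
  obtain ⟨N, hN, hr⟩ := sard_pj (B := B₁) (ι := ι.prodMap (ContinuousLinearMap.id ℝ ℝ)) (T := T₁)
    (π := π.prodMap (ContinuousLinearMap.id ℝ ℝ)) (π' := π'.prodMap (ContinuousLinearMap.id ℝ ℝ))
    (Φ := Ψ) (p₀ := p₀)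
    ⟨fun z z' => by simp only [hB, hT₁, map_add, map_smul, add_apply, smul_apply, smul_eq_mul,
        h.symT z.1]; ring,
      fun z z' => by simp [hB, h.symι z.1, mul_comm],
      fun z hz => by
        have h1 := (add_eq_zero_iff_of_nonneg (hn z.1) (mul_self_nonneg z.2)).1 hz
        exact Prod.ext (h.pos _ h1.1) (mul_self_eq_zero.1 h1.2),
      ((h.fr.prodMap_id (G := ℝ)).add_compact (T := (snd ℝ Z ℝ).smulRight (ι w, c - 1) +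
        (B (ι w) ∘L fst ℝ Z ℝ).smulRight (0, 1)) ((cpt_smulRight _ _).add
          (cpt_smulRight _ _))).congr fun z => by ext <;> simp [hT₁]; ring⟩
    ⟨fun z => Prod.ext (hp.pp _) rfl, fun z => by simp [hT₁, hp.T, hp.ι, hw, hw'],
      fun z => Prod.ext (hp.ι _) rfl, fun y z => by simp [hB, hp.B]⟩ (fun y => Prod.ext (hp' _) rfl)
    (((inl ℝ Y ℝ).contDiff.comp (hΦ.comp m.contDiff)).add
      (K ∘L fst ℝ _ P).contDiff) (by simp [Ψ, m, h0])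
    (ContinuousLinearMap.ext fun z => by simp [dE_apply, hd, hT₁, hK, m, ← hT])
    (fun p => by simp [Ψ, m, hπ]) fun k h1 h2 h3 => by
      rw [hT₁, Prod.mk_eq_zero] at h1
      have := ho k.1 k.2 h1.1 h1.2 (congrArg Prod.fst h2) fun e => by
        simpa [hd, hB, m] using h3 e
      exact Prod.ext this.1 this.2
  have hc : Continuous fun z : Z × P => ((z.1, (0 : ℝ)), z.2) := by fun_prop
  refine ⟨_, hc.continuousAt.preimage_mem_nhds hN, ?_⟩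
  filter_upwards [hr] with p hp1 z h1 h2 h3 h4 n h5 h6 h7
  exact congrArg Prod.fst (hp1 (z, 0) h1 (by simp [h2]) (by simp [Ψ, m, h3, hK, h4]) (n, 0)
    (by simp [h5]) (by simpa [dE_apply, hd, hK, m, h7] using h6))

end

namespace GM
variable {Bc Bw B2 : Type} {Q : GM Bc Bw B2}

variable (Q) in
/-- a chart at `o` for the stratum `P` -/
structure Ch (o : Q.X) (w : Q.C o) (π : Q.C o →L[ℝ] Q.C o) (P : Q.C o → Prop) (t : Prop) :
    Prop where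
  sl : ∀ N ∈ 𝓝 (0 : Q.C o), ∀ᶠ v in 𝓝 0, ∃ η, Q.act o η v ∈ N ∧ Q.σ o (Q.act o η v) = 0 ∧
    Q.b o (Q.ic o w) (Q.act o η v) = 0
  inv : ∀ η v, P v → P (Q.act o η v)
  near : ∀ᶠ v in 𝓝 0, Q.σ o v = 0 → P v → π v = v ∧ ∀ u, (t → Q.Tn o v u) → ∃ η n,
    u = Q.dd o v η + n ∧ π n = n ∧ Q.σ o n = 0 ∧ Q.b o (Q.ic o w) n = 0
  tn : ∀ n, π n = n → t → Q.Tn o 0 n
  tr : ∀ η, Q.σ o (Q.dd o 0 η) = 0 → Q.b o (Q.ic o w) (Q.dd o 0 η) = 0 → Q.dd o 0 η = 0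

variable (Q) in
/-- the data for the local Sard theorem -/
def Ch2 (o : Q.X) (w : Q.C o) (π : Q.C o →L[ℝ] Q.C o) : Prop :=
  ∃ (c : ℝ) (πM : Q.M o →L[ℝ] Q.M o) (πE : Q.E o →L[ℝ] Q.E o) (πH : Q.H o →L[ℝ] Q.H o),
    (∀ q ∈ Q.Rl, PJ (Q.BB o) (Q.ι o) (Q.ext o (fderiv ℝ (Q.F q o) 0)) (π.prodMap πM)
      (πE.prodMap πH) ∧ πE (Q.F q o 0) = Q.F q o 0) ∧
    (∀ y, πE.prodMap πH (πE.prodMap πH y) = πE.prodMap πH y) ∧ π w = w ∧
    ∀ u m (s : ℝ), (∀ η, Q.b o (Q.D o m + s • Q.ic o w) (Q.dd o 0 η) = 0) →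
      Q.b o (Q.ic o w) u + c * s = 0 → m = 0 ∧ s = 0

variable (Q) in
/-- all linear conditions -/
def lo {κ : Type} (o : Q.X) (w : Q.C o) (π : Q.C o →L[ℝ] Q.C o) (A : Q.C o →L[ℝ] Q.E o)
    (R : κ → Q.C o →L[ℝ] ℝ) : Q.C o →L[ℝ] (Q.E o × Q.H o) × (Q.C o × ℝ) × (κ → ℝ) :=
  (A.prod (Q.σ o)).prod (((ContinuousLinearMap.id ℝ _ - π).prod (Q.b o (Q.ic o w))).prod
    (ContinuousLinearMap.pi R))

theorem lo_apply {κ : Type} (o : Q.X) (w π A) (R : κ → Q.C o →L[ℝ] ℝ) (u) : Q.lo o w π A R u =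
    ((A u, Q.σ o u), (u - π u, Q.b o (Q.ic o w) u), fun j => R j u) := rfl

/-- the empty family -/
def nil : Empty → Q.Fd := Empty.elim

/-- finite dimensional families of perturbations -/
def fam {κ : Type} [Fintype κ] (q : Q.Fd) (g : κ → Q.Fd) (p : κ → ℝ) : Q.Fd := q + ∑ w, p w • g w

theorem fam_mem {κ : Type} [Fintype κ] {q : Q.Fd} {g : κ → Q.Fd} {S : Subalgebra ℝ Q.Fd}
    (hq : q ∈ S) (hg : ∀ w, g w ∈ S) (p) : fam q g p ∈ S :=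
  add_mem hq (sum_mem fun w _ => S.smul_mem (hg w) _)

theorem Ch.sl' {o w π P t} (C : Q.Ch o w π P t) {X : Type*} [TopologicalSpace X] {p₀ : X}
    {R : Q.C o × X → Prop} (h : ∀ᶠ z in 𝓝 (0, p₀), R z) :
    ∀ᶠ z in 𝓝 ((0 : Q.C o), p₀), ∃ η, R (Q.act o η z.1, z.2) ∧ Q.σ o (Q.act o η z.1) = 0 ∧
      Q.b o (Q.ic o w) (Q.act o η z.1) = 0 := by
  obtain ⟨N, hN, U, hU, hs⟩ := mem_nhds_prod_iff.1 h
  filter_upwards [prod_mem_nhds (C.sl N hN) hU] with z hz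
  obtain ⟨η, h1, h2⟩ := hz.1
  exact ⟨η, hs (mk_mem_prod h1 hz.2), h2⟩

namespace Ax
variable (H : Q.Ax) {κ κ' : Type} [Fintype κ] [Fintype κ'] {q : Q.Fd} {g : κ → Q.Fd}
  {g' : κ' → Q.Fd} {o : Q.X} {w : Q.C o} {π : Q.C o →L[ℝ] Q.C o} {P : Q.C o → Prop} {t : Prop}
include H

theorem F_fam (hq : q ∈ Q.Bl) (hg : ∀ w, g w ∈ Q.Bl) (p o v) :
    Q.F (fam q g p) o v = Q.F q o v + ∑ w, p w • Q.gr (g w) o v := by
  rw [F, fam, H.gr_add hq (sum_mem fun w _ => Subalgebra.smul_mem _ (hg w) _), H.gr_sum _ hg]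
  simp [F, add_assoc]

theorem sm_fam (hq : q ∈ Q.Bl) (hg : ∀ w, g w ∈ Q.Bl) (o) :
    ContDiff ℝ ∞ fun z : Q.C o × (κ → ℝ) => Q.F (fam q g z.2) o z.1 := by
  simp only [H.F_fam hq hg]
  exact ((H.sm_F hq o).comp contDiff_fst).add (ContDiff.sum fun w _ =>
    ((contDiff_apply ℝ ℝ w).comp contDiff_snd).smul ((H.sm_gr (hg w) o).comp contDiff_fst))

theorem low (hq : q ∈ Q.Rl) (C : Q.Ch o w π P t) (hO : Q.On t q g' o 0) : ∃ c > (0 : ℝ), ∀ u,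
    ‖u‖ ≤ c * ‖Q.lo o w π (fderiv ℝ (Q.F q o) 0) (fun j => Q.b o (Q.gr (g' j) o 0)) u‖ := by
  have e : ∀ A, A.prod (Q.σ o) = Q.ext o A ∘L inl ℝ (Q.C o) (Q.M o) := fun A => by
    ext <;> simp [ext_apply]
  rw [lo, e]
  refine low_of_fr (H.sy (Rl_le hq) o).fr.1 _ (fun u => by simp) _ fun u h1 h2 => ?_
  have h3 : π u = u := (sub_eq_zero.1 (congrArg (·.1.1) h2)).symm
  obtain ⟨η, rfl⟩ := hO u (by simpa [ext_apply] using congrArg Prod.fst h1) (C.tn u h3)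
    fun j => congrFun (congrArg Prod.snd h2) j
  exact C.tr η (congrArg Prod.snd h1) (congrArg (·.1.2) h2)

theorem on_of (hq : q ∈ Q.Rl) (hg' : ∀ w, g' w ∈ Q.Rl) {v} (hv : Q.F q o v = 0)
    (h1 : ∀ u, (t → Q.Tn o v u) → ∃ η n,
      u = Q.dd o v η + n ∧ π n = n ∧ Q.σ o n = 0 ∧ Q.b o (Q.ic o w) n = 0)
    (h2 : ∀ n, fderiv ℝ (Q.F q o) v n = 0 → π n = n → Q.σ o n = 0 → Q.b o (Q.ic o w) n = 0 →
      (∀ j, Q.b o (Q.gr (g' j) o v) n = 0) → n = 0) : Q.On t q g' o v := fun u a1 a2 a3 => by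
  obtain ⟨η, n, rfl, b1, b2, b3⟩ := h1 u a2
  rw [h2 n (by rwa [map_add, H.dF_dd hq hv, zero_add] at a1) b1 b2 b3 fun j => by
    simpa [H.gr_dd (hg' j)] using a3 j, add_zero]
  exact ⟨η, rfl⟩

/-- **openness** -/
theorem on_open (hq : q ∈ Q.Rl) (hg : ∀ w, g w ∈ Q.Rl) (hg' : ∀ w, g' w ∈ Q.Rl)
    (C : Q.Ch o w π P t) {p₀ : κ → ℝ} (hO : Q.On t (fam q g p₀) g' o 0) :
    ∀ᶠ z in 𝓝 ((0 : Q.C o), p₀), P z.1 → Q.F (fam q g z.2) o z.1 = 0 →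
      Q.On t (fam q g z.2) g' o z.1 := by
  obtain ⟨c, hc, hl⟩ := H.low (fam_mem hq hg p₀) C hO
  have hs := H.sm_fam (Rl_le hq) (fun w => Rl_le (hg w)) o
  have e : ∀ z : Q.C o × (κ → ℝ), fderiv ℝ (Q.F (fam q g z.2) o) z.1 = dE _ z := fun z =>
    (dE_eq_fderiv (hs.differentiable (by simp) _)).symm
  have hA : Continuous fun z : Q.C o × (κ → ℝ) => Q.lo o w π (fderiv ℝ (Q.F (fam q g z.2) o) z.1)
      fun j => Q.b o (Q.gr (g' j) o z.1) := by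
    have h1 : Continuous fun z : Q.C o × (κ → ℝ) => fderiv ℝ (Q.F (fam q g z.2) o) z.1 := by
      simp only [e]; exact (hs.continuous_fderiv (by simp)).clm_comp continuous_const
    have h2 : ∀ j, Continuous fun z : Q.C o × (κ → ℝ) => Q.b o (Q.gr (g' j) o z.1) := fun j =>
      (Q.b o).continuous.comp ((H.sm_gr (Rl_le (hg' j)) o).continuous.comp continuous_fst)
    exact cont_prod (cont_prod h1 continuous_const) (cont_prod continuous_const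
      ((ContinuousLinearMap.piEquivL ℝ _ _).continuous.comp (continuous_pi h2)))
  have h1 := (hA.tendsto (0, p₀)).eventually (ev_inj hc hl)
  filter_upwards [C.sl' (h1.and (continuous_fst.continuousAt.eventually C.near))] with z hz h2 h3
  obtain ⟨η, ⟨h4, h5⟩, h6, -⟩ := hz
  obtain ⟨A, hA⟩ := H.gr.mor o η
  have hm := fam_mem hq hg z.2
  refine H.on_mor hA (H.gr.ph o η) hm hg' (H.on_of hm hg'
    ((H.eqv_zero (H.eqv_F hA (H.gr.ph o η) hm) _).2 h3) (h5 h6 (C.inv η _ h2)).2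
    fun n a1 a2 a3 a4 a5 => h4 n ?_)
  simp [lo_apply, a1, a2, a3, a4, a5, Prod.mk_zero_zero, Pi.zero_def]

/-- **isolation** -/
theorem iso (hq : q ∈ Q.Rl) (C : Q.Ch o w π P t) (h0 : Q.F q o 0 = 0) (hO : Q.On t q nil o 0) :
    ∀ᶠ v in 𝓝 (0 : Q.C o), P v → Q.F q o v = 0 → ∃ η, Q.act o η v = 0 := by
  obtain ⟨c, hc, hl⟩ := H.low hq C hO
  have hd : HasStrictFDerivAt (fun z : Q.C o × ℝ => (Q.F q o z.1, Q.σ o z.1))
      ((fderiv ℝ (Q.F q o) 0).prod (Q.σ o) ∘L fst ℝ _ _) (0, 0) :=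
    (((H.sm_F (Rl_le hq) o).contDiffAt.hasStrictFDerivAt (by simp)).prodMk
      (Q.σ o).hasStrictFDerivAt).comp (0, 0) hasStrictFDerivAt_fst
  have h1 := eq_of_low hd (fun _ => by simp [h0]) hc hl
  have h2 := (Continuous.prodMk_left (0 : ℝ)).continuousAt.eventually
    (C.sl' (h1.and (continuous_fst.continuousAt.eventually C.near)))
  filter_upwards [h2] with v hv h3 h4
  obtain ⟨η, ⟨h5, h6⟩, h7, h8⟩ := hv
  obtain ⟨A, hA⟩ := H.gr.mor o η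
  refine ⟨η, h5 (Prod.ext ((H.eqv_zero (H.eqv_F hA (H.gr.ph o η) hq) _).2 h4) h7) ?_⟩
  exact Prod.ext (Prod.ext (sub_eq_zero.2 (h6 h7 (C.inv η _ h3)).1.symm) h8) (Subsingleton.elim _ _)

/-- **local Sard** -/
theorem loc (hq : q ∈ Q.Rl) (hg : ∀ w, g w ∈ Q.Rl) (C : Q.Ch o w π P t) (C2 : Q.Ch2 o w π)
    {p₀ : κ → ℝ} (h0 : Q.F (fam q g p₀) o 0 = 0) (hO : Q.On t (fam q g p₀) g o 0) :
    ∃ N ∈ 𝓝 ((0 : Q.C o), p₀), ∀ᶠ p in residual (κ → ℝ), ∀ v, (v, p) ∈ N → P v →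
      Q.F (fam q g p) o v = 0 → Q.On t (fam q g p) nil o v := by
  obtain ⟨c, πM, πE, πH, a1, a2, a3, a4⟩ := C2
  have hm := fam_mem hq hg
  have hs := H.sm_fam (Rl_le hq) (fun w => Rl_le (hg w)) o
  let m : (Q.C o × Q.M o) × (κ → ℝ) →L[ℝ] Q.C o × (κ → ℝ) :=
    (fst ℝ _ _).prodMap (ContinuousLinearMap.id ℝ _)
  let Φ : (Q.C o × Q.M o) × (κ → ℝ) → Q.E o × Q.H o := fun z =>
    inl ℝ (Q.E o) (Q.H o) (Q.F (fam q g (m z).2) o (m z).1) + (Q.ext o 0 ∘L fst ℝ _ _) z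
  have hd : ∀ z x, fderiv ℝ Φ z x = (fderiv ℝ (fun z : Q.C o × (κ → ℝ) =>
      Q.F (fam q g z.2) o z.1) (m z) (m x), 0) + Q.ext o 0 x.1 := fun z x =>
    congrArg (fun l : (Q.C o × Q.M o) × (κ → ℝ) →L[ℝ] Q.E o × Q.H o => l x)
      (((inl ℝ (Q.E o) (Q.H o)).hasFDerivAt.comp z ((hs.differentiable
        (by simp) _).hasFDerivAt.comp z m.hasFDerivAt)).add
        (Q.ext o 0 ∘L fst ℝ _ _).hasFDerivAt).fderiv
  have hE : ∀ z p, dE Φ (z, p) = Q.ext o (fderiv ℝ (Q.F (fam q g p) o) z.1) := fun z p =>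
    ContinuousLinearMap.ext fun x => by
      rw [dE_apply, hd, ← dE_eq_fderiv (G := fun z : Q.C o × (κ → ℝ) => Q.F (fam q g z.2) o z.1)
        (hs.differentiable (by simp) _), ext_apply o _ x.1 x.2, ext_apply o _ x.1 x.2]
      simp [m, dE_apply]
  have hP : ∀ e, fderiv ℝ (fun z : Q.C o × (κ → ℝ) => Q.F (fam q g z.2) o z.1) (0, p₀) (0, e) =
      ∑ w, e w • Q.gr (g w) o 0 := fun e => by
    have h1 := (hs.differentiable (by simp) (0, p₀)).hasFDerivAt.comp p₀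
      (hasFDerivAt_prodMk_right 0 p₀)
    have h2 : HasFDerivAt (fun p => Q.F q o 0 + ∑ w, p w • Q.gr (g w) o 0) (∑ w,
        (ContinuousLinearMap.proj w : (κ → ℝ) →L[ℝ] ℝ).smulRight (Q.gr (g w) o 0)) p₀ :=
      (HasFDerivAt.fun_sum fun w _ => (hasFDerivAt_apply w p₀).smul_const _).const_add _
    simpa [sum_apply] using congrArg (fun l : (κ → ℝ) →L[ℝ] Q.E o => l e) (h1.unique
      (h2.congr_of_eventuallyEq (.of_forall fun p =>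
        H.F_fam (Rl_le hq) (fun w => Rl_le (hg w)) p o 0)))
  have hw : ∀ z, Q.BB o (Q.ι o (w, 0)) z = Q.b o (Q.ic o w) z.1 := fun z => by
    rw [← H.op.pair']; simp [ι]
  obtain ⟨N, hN, hr⟩ := sard_ext (H.sy (Rl_le (hm p₀)) o) (fun z => by
      rw [BB_apply, H.op.ij']; exact real_inner_self_nonneg) (a1 _ (hm p₀)).1 a2 (Φ := Φ)
    (((inl ℝ (Q.E o) (Q.H o)).contDiff.comp (hs.comp m.contDiff)).add
      (Q.ext o 0 ∘L fst ℝ _ (κ → ℝ)).contDiff)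
    (by simp [Φ, m, h0]) (hE 0 p₀) (fun p => by simp [Φ, m, (a1 _ (hm p)).2]) (w := (w, 0))
    (by simp [a3]) c fun k s b1 b2 b3 b4 => by
      have c1 := congrArg Prod.fst b1
      have c2 : Q.σ o k.1 = 0 := by simpa [ext_apply o _ k.1 k.2, ι] using congrArg Prod.snd b1
      simp only [ext_apply o _ k.1 k.2, ι, Prod.fst_add, Prod.smul_fst, Prod.fst_zero,
        ContinuousLinearMap.coe_prodMap', Prod.map_fst] at c1
      rw [hw] at b2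
      obtain ⟨c3, rfl⟩ := a4 k.1 k.2 s (fun η => by
        rw [add_assoc, add_eq_zero_iff_neg_eq] at c1
        rw [← c1, map_neg, neg_apply, H.sym_dF (Rl_le (hm p₀)), H.dF_dd (hm p₀) h0]
        simp) b2
      obtain ⟨η, c4⟩ := hO k.1 (by simpa [c3] using c1) (C.tn _ (congrArg Prod.fst b3)) fun j => by
        classical
        have := b4 (Pi.single j 1)
        rw [hd] at this
        simpa [m, hP, H.op.pair', Pi.single_apply] using this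
      exact ⟨Prod.ext (c4 ▸ C.tr η (c4 ▸ c2) (by simpa [c4] using b2)) c3, rfl⟩
  have hc : Continuous fun z : Q.C o × (κ → ℝ) => ((z.1, (0 : Q.M o)), z.2) := by fun_prop
  refine ⟨_, C.sl' ((Eventually.and (hc.continuousAt.preimage_mem_nhds hN))
    (continuous_fst.continuousAt.eventually C.near)), ?_⟩
  filter_upwards [hr] with p hp v hv h2 h3
  obtain ⟨η, ⟨h4, h5⟩, h6, h7⟩ := hv
  obtain ⟨A, hA⟩ := H.gr.mor o η
  have h8 := (H.eqv_zero (H.eqv_F hA (H.gr.ph o η) (hm p)) _).2 h3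
  have h9 := h5 h6 (C.inv η _ h2)
  refine H.on_mor hA (H.gr.ph o η) (hm p) (fun e => e.elim) (H.on_of (hm p) (fun e => e.elim) h8
    h9.2 fun n a1 a2 a3 a4 _ => congrArg Prod.fst (hp (_, 0) h4 (by simp [h9.1])
      (by simp [Φ, m, h8, ext_apply, h6]) ((hw _).trans h7) (n, 0) (by simp [a2])
      (by simp [hE, ext_apply, a1, a3]) ((hw _).trans a4)))

end Ax

end GM

end Crest.Agent.X212.Crt72
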