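import Crest.Agent.X212.Crt72.Three
import Crest.Agent.X212.Ms1.Ms

/-!
# Row 212, CRIT (helper72): masses and the main theorem for gradient models
-/

set_option autoImplicit false
set_option linter.unusedSectionVars false
noncomputable section
open Set Filter Topology Function Module
open scoped ContDiff InnerProductSpace

namespace Crest.Agent.X212.Crt72.GM
variable {Bc Bw B2 : Type} {Q : GM Bc Bw B2}

namespace Ax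
variable (H : Q.Ax) {q : Q.Fd} {ι : Type} [Fintype ι] {x : ι → Q.X}
include H

/-- masses in the ideal `N` -/
theorem mass (hq : q ∈ Q.Rl) {ξ : ∀ m, Q.L (x m)} {l : ℝ} (c : ℝ) (S : ∀ m, Q.Spl (x m) (ξ m) l)
    {N : Submodule ℝ Q.Fd} (hN : ∀ r ∈ N, r ∈ Q.Rl) {Ψ : ∀ m, Set (Q.X₀ (x m))}
    (h1 : ∀ m, ∀ ψ ∈ Ψ m, (c • Q.X0 _ (ξ m)) ((c • Q.X0 _ (ξ m)) ψ) = -ψ)
    (h2 : ∀ m, ∀ ψ ∈ Ψ m, ∀ δ > (0 : ℝ), ∃ r ∈ N, ‖Q.hs r (x m) - rk (c • Q.X0 _ (ξ m)) ψ‖ ≤ δ ∧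
      ∀ m', m' ≠ m → ‖Q.hs r (x m')‖ ≤ δ)
    (h3 : ∀ m (ε : ℝ), ε = 1 ∨ ε = -1 → ∀ R, ∃ ψ ∈ Ψ m, Q.Sgn (x m) ψ ε R) :
    ((∀ m z, Q.ext _ (fderiv ℝ (Q.F q (x m)) 0) z = 0 → (∀ ψ ∈ Ψ m, ⟪ψ, Q.i _ (Q.j1 _ z)⟫_ℝ = 0 ∧
      ⟪(c • Q.X0 _ (ξ m)) ψ, Q.i _ (Q.j1 _ z)⟫_ℝ = 0) → z = 0) → ∃ r ∈ N, ∀ m, Q.Bij (q + r) (x m)) ∧
    ((∀ m, Q.Bij q (x m)) → ∀ n : ι → ℤ, ∃ r ∈ N, ∀ m, Q.Bij (q + r) (x m) ∧
      Q.sf _ (Q.hs q (x m)) (Q.hs (q + r) (x m)) = 2 * n m) := by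
  let 𝒲 : Submodule ℝ (∀ m, Q.X₀ (x m) →L[ℝ] Q.X₀ (x m)) :=
    { carrier := {K | ∃ r ∈ N, K = fun m => Q.hs r (x m)}
      add_mem' := by
        rintro _ _ ⟨a, ha, rfl⟩ ⟨b, hb, rfl⟩
        exact ⟨_, add_mem ha hb, funext fun m => (H.hs_add (Rl_le (hN a ha)) (Rl_le (hN b hb)) _).symm⟩
      zero_mem' := ⟨0, zero_mem _, funext fun m => by
        simpa using (H.hs_smul 0 (zero_mem _) (x m)).symm⟩
      smul_mem' := by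
        rintro s _ ⟨a, ha, rfl⟩
        exact ⟨_, N.smul_mem s ha, funext fun m => (H.hs_smul s (Rl_le (hN a ha)) _).symm⟩ }
  obtain ⟨a1, a2⟩ := Ms1.ms ι _ _ (fun m => Q.i (x m)) (fun m => Q.L0 (x m)) (fun m => Q.sf (x m))
    (fun m => c • Q.X1 _ (ξ m)) (fun m => c • Q.X0 _ (ξ m)) 𝒲 Ψ
    { sf := fun m => H.sf _
      iJ := fun m u => by simp [(S m).i]
      LJ := fun m u => by simp [H.L0_X (S m)]
      skew := fun m a b => by simp [real_inner_smul_left, real_inner_smul_right, (S m).skew]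
      sym := by
        rintro _ ⟨r, hr, rfl⟩ m
        exact ⟨H.hs_sym (Rl_le (hN r hr)) _, fun y => by simp [H.hs_X (S m) (hN r hr)]⟩
      nrm := h1
      app := fun m ψ h δ hδ => (h2 m ψ h δ hδ).elim fun r hr => ⟨_, ⟨r, hr.1, rfl⟩, hr.2⟩
      sgn := h3 } (fun m => Q.hs q (x m)) fun m => H.hs_sym (Rl_le hq) _
  refine ⟨fun h => ?_, fun h n => ?_⟩
  · obtain ⟨_, ⟨r, hr, rfl⟩, b⟩ := a1 fun m k hk hψ => by
      obtain ⟨z, b1, rfl⟩ := H.ker_j1 (Rl_le hq) hk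
      rw [h m z b1 hψ, map_zero]
    exact ⟨r, hr, fun m => by rw [Bij, H.hs_add (Rl_le hq) (Rl_le (hN r hr))]; exact b m⟩
  · obtain ⟨_, ⟨r, hr, rfl⟩, b⟩ := a2 (fun m y => by simp [H.hs_X (S m) hq]) h n
    exact ⟨r, hr, fun m => by rw [Bij, H.hs_add (Rl_le hq) (Rl_le (hN r hr))]; exact b m⟩

theorem massI (hq : q ∈ Q.Rl) (e : Q.Cls q (Q.PI · 0) x) (hs : ∀ m, Q.SI (x m)) :
    ((∀ m, Q.On True q nil (x m) 0) → ∃ r ∈ H.Nv Q.PI False, ∀ m, Q.Bij (q + r) (x m)) ∧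
    ((∀ m, Q.Bij q (x m)) → ∀ n : ι → ℤ, ∃ r ∈ H.Nv Q.PI False, ∀ m, Q.Bij (q + r) (x m) ∧
      Q.sf _ (Q.hs q (x m)) (Q.hs (q + r) (x m)) = 2 * n m) := by
  have S := fun m => H.sp.I (x m) (e.1 m).1
  obtain ⟨a1, a2⟩ := H.mass hq 1 S (N := H.Nv Q.PI False) (fun r hr => hr.1)
    (Ψ := fun m => {ψ | Q.X0 _ 0 (Q.X0 _ 0 ψ) = -ψ}) (fun m ψ h => by simpa using h)
    (fun m ψ h δ hδ => by
      obtain ⟨T, c, K, b1, b2⟩ := H.im ι x (fun n => ⟨(e.1 n).1, hs n⟩) e.2.1 m ψ h δ hδ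
      have b3 : ∀ m, Q.hs (∑ j ∈ T, c j • Q.f (.sw j)) (x m) = K m := fun m =>
        H.hs_eq (sum_mem fun j _ => Subalgebra.smul_mem _ (f_mem _) _) (by
          rw [H.gr_sum _ fun j => f_mem _, Finset.sum_apply]
          simp only [H.gr_f, Pi.smul_apply]
          rw [(HasFDerivAt.sum fun j _ => ((H.sm.sm (.sw j) _).differentiable (by simp)
            0).hasFDerivAt.const_smul (c j)).fderiv]
          exact b1 m)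
      exact ⟨_, sum_mem (t := T) fun j _ => Submodule.smul_mem _ (c j) (H.sw_nv j), by
        simpa only [b3, one_smul] using b2⟩)
    fun m ε hε R => H.sg.I _ (e.1 m).1 ε hε R
  refine ⟨fun h => a1 fun m z b1 b2 => ?_, a2⟩
  have hb := H.op.bij _ (.inr (hs m))
  obtain ⟨c1, c2, c3⟩ := H.ker_z hq (e.1 m).2 hb b1
  have c4 := (b2 (Q.X0 _ 0 (Q.X0 _ 0 (Q.i _ (Q.j1 _ z)))) (by simp [(S m).cube])).1
  rw [(S m).skew, neg_eq_zero, inner_self_eq_zero, ← (S m).i, ← (S m).j1 z.1 z.2] at c4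
  exact Prod.ext (H.tan_zero (S m) one_ne_zero hb (h m) c2 c3
    (congrArg Prod.fst (H.op.injZ (z' := 0) (by simpa using c4)))) c1

theorem massS (hq : q ∈ Q.Rl) (e : Q.Cls q (Q.PS · 0) x) :
    ((∀ m, Q.On True q nil (x m) 0) →
      ∃ r ∈ H.Nv Q.PI True ⊓ H.Nv Q.Fixv False, ∀ m, Q.Bij (q + r) (x m)) ∧
    ((∀ m, Q.Bij q (x m)) → ∀ n : ι → ℤ, ∃ r ∈ H.Nv Q.PI True ⊓ H.Nv Q.Fixv False,
      ∀ m, Q.Bij (q + r) (x m) ∧ Q.sf _ (Q.hs q (x m)) (Q.hs (q + r) (x m)) = 2 * n m) := by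
  classical
  choose ξ hξ using fun m => (e.1 m).1.2
  have S := fun m => H.sp.S (x m) (ξ m) (e.1 m).1.1 (hξ m)
  have hJ : ∀ m j, ((1 / 2 : ℝ) • Q.X0 _ (ξ m)) (Q.j0 _ (Q.τ (.re j) (x m) 0, 0)) =
      Q.j0 _ (Q.τ (.im j) (x m) 0, 0) ∧ ((1 / 2 : ℝ) • Q.X0 _ (ξ m))
        (Q.j0 _ (Q.τ (.im j) (x m) 0, 0)) = -Q.j0 _ (Q.τ (.re j) (x m) 0, 0) := fun m j => by
    simp only [smul_apply, ← (S m).j0, H.s_X (S m) j, map_zero, ← map_smul, ← map_neg, Prod.smul_mk,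
      smul_smul, smul_zero, Prod.neg_mk, neg_zero]
    norm_num
  obtain ⟨a1, a2⟩ := H.mass hq (1 / 2) S (N := H.Nv Q.PI True ⊓ H.Nv Q.Fixv False)
    (fun r hr => hr.1.1) (Ψ := fun m => range fun j => Q.j0 _ (Q.τ (.re j) (x m) 0, 0))
    (by rintro m _ ⟨j, rfl⟩; rw [(hJ m j).1, (hJ m j).2])
    (by
      rintro m _ ⟨j, rfl⟩ δ hδ
      have b1 : ∀ m', m' ≠ m → ∃ k, Q.f (.sw k) (x m') 0 ≠ Q.f (.sw k) (x m) 0 := fun m' h => by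
        by_contra hn
        push Not at hn
        refine h (e.2.1 _ _ (H.dr.sep _ _ (e.1 m').1.1 fun k hk => ?_))
        rcases k with k | k | k | k
        exacts [(hk k rfl).elim, hn k, by simp [H.s_fix (e.1 _).1.2], by simp [H.s_fix (e.1 _).1.2]]
      choose k hk using b1
      let χ : Q.Fd := (1 / 2 : ℝ) • ∏ a : {m' // m' ≠ m},
        (Q.f (.sw (k a a.2)) (x m) 0 - Q.f (.sw (k a a.2)) (x a) 0)⁻¹ •
          (Q.f (.sw (k a a.2)) - algebraMap ℝ _ (Q.f (.sw (k a a.2)) (x a) 0))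
      have b2 : χ ∈ Q.Rl := Subalgebra.smul_mem _ (prod_mem fun m' _ => Subalgebra.smul_mem _
        (sub_mem (sw_mem _) (algebraMap_mem _ _)) _) _
      have b3 : χ (x m) 0 = 1 / 2 := by
        simp only [χ, Pi.smul_apply, Finset.prod_apply, smul_eq_mul]
        rw [Finset.prod_eq_one, mul_one]
        exact fun a _ => inv_mul_cancel₀ (sub_ne_zero.2 (hk a.1 a.2).symm)
      have b4 : ∀ m', m' ≠ m → χ (x m') 0 = 0 := fun m' h => by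
        simp only [χ, Pi.smul_apply, Finset.prod_apply, smul_eq_mul]
        rw [Finset.prod_eq_zero (Finset.mem_univ ⟨m', h⟩) (by simp), mul_zero]
      have b5 : ∀ o v, fderiv ℝ (Q.gr (Q.hr j j) o) v = _ := fun o v => by
        rw [hr, H.dgr_add (mul_mem (f_mem _) (f_mem _)) (mul_mem (f_mem _) (f_mem _)),
          H.dgr_mul (f_mem _) (f_mem _), H.dgr_mul (f_mem _) (f_mem _), H.gr_f, H.gr_f]
      have b6 : ∀ o v, Q.Fixv o v → fderiv ℝ (Q.gr (Q.hr j j * χ) o) v =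
          χ o v • fderiv ℝ (Q.gr (Q.hr j j) o) v := fun o v h => by
        rw [H.dgr_mul (Rl_le (hr_mem _ _)) (Rl_le b2)]
        simp [(H.hr_nv j j).2 o v h]
      have b7 : ∀ m', Q.hs (Q.hr j j * χ) (x m') = (2 * χ (x m') 0) •
          rk ((1 / 2 : ℝ) • Q.X0 _ (ξ m')) (Q.j0 _ (Q.τ (.re j) (x m') 0, 0)) := fun m' =>
        H.hs_eq (Rl_le (mul_mem (hr_mem _ _) b2)) fun z => by
          rw [b6 _ _ (e.1 m').1.2, b5, smul_apply, rk_apply, (hJ m' j).1, ← BB_apply, ← BB_apply,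
            H.op.pair', H.op.pair']
          simp only [← map_smul, ← map_add, H.s_fix (e.1 m').1.2, zero_smul, zero_add, smul_apply,
            add_apply, ContinuousLinearMap.smulRight_apply, Prod.smul_mk, Prod.mk_add_mk, smul_zero,
            add_zero]
          congr 2
          module
      have b8 := H.mul_nv (t := False) (H.hr_nv j j) b2 False.elim
      refine ⟨_, ⟨⟨b8.1, fun o v h => ⟨(b8.2 o v h.fix).1, (b8.2 o v h.fix).2.1, fun _ => ?_⟩⟩, b8⟩,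
        by simp [b7, b3, hδ.le], fun m' h => by simp [b7, b4 m' h, hδ.le]⟩
      simp [b6 o v h.fix, b5, H.sm.van (.re j) o v (by simp) h, H.sm.van (.im j) o v (by simp) h])
    fun m ε hε R => (H.sg.S _ _ (e.1 m).1.1 (hξ m) ε hε R).elim fun j h => ⟨_, ⟨j, rfl⟩, h⟩
  refine ⟨fun h => a1 fun m z b1 b2 => ?_, a2⟩
  have hb := H.op.bij _ (.inl (e.1 m).1.1)
  obtain ⟨c1, c2, c3⟩ := H.ker_z hq (e.1 m).2 hb b1
  have c4 : pk0 (Q.XC _ (ξ m)) 2 z.1 = 0 := H.tan_zero (S m) two_ne_zero hb (h m)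
    (by rw [← pk0_comm 2 (H.d_X (S m) (H.sm_F (Rl_le hq))
      fun η _ h => H.eqv_F h (H.gr.ph _ η) hq), c2, map_zero])
    (by rw [← pk0_comm 2 (H.σ_X (S m)), c3, map_zero]) (X_pk0 two_ne_zero (H.cubeC (S m)) _)
  obtain ⟨η, hη⟩ := H.dr.der _ z.1 (H.ker_smo (Rl_le hq) b1) (e.1 m).1.1 fun k hk => by
    rcases k with k | k | k | k
    · exact (hk k rfl).elim
    · rw [pk0_apply] at c4
      rw [eq_neg_of_add_eq_zero_left c4, map_neg, map_smul, ← H.gr_f, H.gr_X (S m) (sw_mem k)]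
      simp
    · exact (H.op.pair' _ _ _).symm.trans (b2 _ ⟨k, rfl⟩).1
    · rw [← H.op.pair', BB_apply, ← (hJ m k).1]
      exact (b2 _ ⟨k, rfl⟩).2
  rw [hη] at c3
  exact Prod.ext (by rw [hη, (injective_iff_map_eq_zero _).1 hb.1 η c3, map_zero]; rfl) c1

/-- **CRIT for gradient models.** -/
theorem main (R : Bc → ℝ) : ∃ q₁ ∈ Q.Rl, ∃ (ι₁ : Type) (_ : Fintype ι₁) (x₁ : ι₁ → Q.X),
    (∀ n, Q.Sol q₁ (x₁ n) ∧ Q.Bij q₁ (x₁ n)) ∧ ∀ n₁ : ι₁ → ℤ,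
    ∃ q₂ ∈ Q.Rl, ∃ (ι₂ : Type) (_ : Fintype ι₂) (x₂ : ι₂ → Q.X),
    (∀ n, Q.Sol q₂ (x₂ n) ∧ Q.Bij q₂ (x₂ n)) ∧ ∀ n₂ : ι₂ → ℤ,
    ∃ q₃ ∈ Q.Rl, ∃ (ι₃ : Type) (_ : Fintype ι₃) (x₃ : ι₃ → Q.X),
      Q.Cls q₃ (Q.PI · 0) x₁ ∧ Q.Cls q₃ (Q.PS · 0) x₂ ∧ Q.Cls q₃ (Q.PF · 0) x₃ ∧
      (∀ x, Q.Sol q₃ x → Q.ND q₃ x) ∧ (∀ n, Q.SI (x₁ n) ∧ Q.Bij q₃ (x₁ n) ∧
        Q.sf _ (Q.hs q₁ (x₁ n)) (Q.hs q₃ (x₁ n)) = 2 * n₁ n) ∧
      (∀ n, Q.Bij q₃ (x₂ n) ∧ Q.sf _ (Q.hs q₂ (x₂ n)) (Q.hs q₃ (x₂ n)) = 2 * n₂ n ∧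
        q₃ (x₂ n) 0 = q₂ (x₂ n) 0) ∧ (∀ o v, Q.PI o v → Q.gr q₃ o v = Q.gr q₁ o v) ∧
      ∃ q₀, Q.Lc R q₀ ∧ ∀ o v, Q.PI o v → q₃ o v = q₀ o v := by
  obtain ⟨q₀, h0, hL, a1, ι₁, i₁, x₁, c1⟩ := H.stageI R
  have s1 := fun n => a1 _ (c1.1 n).1 (c1.1 n).2
  obtain ⟨r₁, b1, d1⟩ := (H.massI h0 c1 fun n => (s1 n).1).1 fun n => (s1 n).2
  have h1 := add_mem h0 b1.1
  have c1 := H.cls_nv h0 b1 (fun _ => id) c1
  refine ⟨_, h1, ι₁, i₁, x₁, fun n => ⟨(c1.1 n).2, d1 n⟩, fun n₁ => ?_⟩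
  obtain ⟨r₂, b2, d2⟩ := (H.massI h1 c1 fun n => (s1 n).1).2 d1 n₁
  have h2 := add_mem h1 b2.1
  have c1 := H.cls_nv h1 b2 (fun _ => id) c1
  have nd : ∀ q ∈ Q.Rl, Q.Cls q (Q.PI · 0) x₁ → (∀ n, Q.Bij q (x₁ n)) → ∀ y, Q.PI y 0 → Q.Sol q y →
      Q.SI y ∧ Q.On False q nil y 0 := fun q hq c d y e1 e2 => by
    obtain ⟨n, hn⟩ := c.2.2 y e1 e2
    exact ⟨H.gr.SI _ _ (H.gr.symm _ _ hn) (s1 n).1, H.on_cls hq c
      (fun n => H.on_of_bij hq (c.1 n).2 (H.op.bij _ (.inr (s1 n).1)) (d n)) e1 e2⟩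
  obtain ⟨r₃, b3, a3, ι₂, i₂, x₂, c2⟩ := H.stageS h2 (nd _ h2 c1 fun n => (d2 n).1)
  have h3 := add_mem h2 b3.1
  obtain ⟨r₄, b4, d4⟩ := (H.massS h3 c2).1 fun n => a3 _ (c2.1 n).1 (c2.1 n).2
  have h4 := add_mem h3 b4.1.1
  have c2 := H.cls_nv h3 b4.2 (fun _ h => h.2) c2
  refine ⟨_, h4, ι₂, i₂, x₂, fun n => ⟨(c2.1 n).2, d4 n⟩, fun n₂ => ?_⟩
  obtain ⟨r₅, b5, d5⟩ := (H.massS h4 c2).2 d4 n₂
  have h5 := add_mem h4 b5.1.1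
  have c2 := H.cls_nv h4 b5.2 (fun _ h => h.2) c2
  have c1 := H.cls_nv h4 b5.1 (fun _ => id) (H.cls_nv h3 b4.1 (fun _ => id)
    (H.cls_nv h2 b3 (fun _ => id) c1))
  have e5 : ∀ n, Q.hs (q₀ + r₁ + r₂ + r₃ + r₄ + r₅) (x₁ n) = Q.hs (q₀ + r₁ + r₂) (x₁ n) := fun n => by
    rw [H.hs_nv h4 b5.1 (c1.1 n).1, H.hs_nv h3 b4.1 (c1.1 n).1, H.hs_nv h2 b3 (c1.1 n).1]
  have nd5 : ∀ y, Q.Fixv y 0 → Q.Sol (q₀ + r₁ + r₂ + r₃ + r₄ + r₅) y →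
      Bijective (Q.σ y ∘L Q.d y 0) ∧ Q.On False (q₀ + r₁ + r₂ + r₃ + r₄ + r₅) nil y 0 :=
    fun y e1 e2 => by
      by_cases h : Q.J y 0 = 0
      · have := nd _ h5 c1 (fun n => by rw [Bij, e5]; exact (d2 n).1) y h e2
        exact ⟨H.op.bij _ (.inr this.1), this.2⟩
      · exact ⟨H.op.bij _ (.inl h), H.on_cls h5 c2 (fun n => H.on_of_bij h5 (c2.1 n).2
          (H.op.bij _ (.inl (c2.1 n).1.1)) (d5 n).1) ⟨h, e1⟩ e2⟩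
  obtain ⟨r₆, b6, a6, ι₃, i₃, x₃, c3⟩ := H.stageF h5 nd5
  refine ⟨_, add_mem h5 b6.1, ι₃, i₃, x₃, H.cls_nv h5 b6 (fun _ => PI.fix) c1,
    H.cls_nv h5 b6 (fun _ h => h.2) c2, c3, fun y e u hu => ?_, fun n => ?_, fun n => ?_,
    fun o v h => ?_, q₀, hL, fun o v h => ?_⟩
  · by_cases h : Q.Fixv y 0
    · exact H.on_nv h5 b6 h (nd5 y h ((H.F_nv h5 b6 h).2.1.symm.trans e)).2 u hu False.elim
        fun e => e.elim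
    · exact a6 y h e u hu False.elim fun e => e.elim
  · rw [Bij, H.hs_nv h5 b6 (c1.1 n).1.fix, e5]
    exact ⟨(s1 n).1, d2 n⟩
  · rw [Bij, H.hs_nv h5 b6 (c2.1 n).1.2, (H.F_nv h5 b6 (c2.1 n).1.2).2.2,
      (H.F_nv h4 b5.2 (c2.1 n).1.2).2.2]
    exact ⟨(d5 n).1, (d5 n).2, rfl⟩
  · rw [(H.F_nv h5 b6 h.fix).1, (H.F_nv h4 b5.1 h).1, (H.F_nv h3 b4.1 h).1, (H.F_nv h2 b3 h).1,
      (H.F_nv h1 b2 h).1]
  · rw [(H.F_nv h5 b6 h.fix).2.2, (H.F_nv h4 b5.1 h).2.2, (H.F_nv h3 b4.1 h).2.2,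
      (H.F_nv h2 b3 h).2.2, (H.F_nv h1 b2 h).2.2, (H.F_nv h0 b1 h).2.2]

end Ax

end Crest.Agent.X212.Crt72.GM
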