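import Crest.Agent.X212.Crt72.Alg

/-!
# Row 212, CRIT (helper72): morphisms, the infinitesimal symmetries, the splitting at fixed points
-/

set_option autoImplicit false
set_option linter.unusedSectionVars false
noncomputable section
open Set Filter Topology Function
open scoped ContDiff InnerProductSpace

namespace Crest.Agent.X212.Crt72

section pj
variable {V W : Type*} [NormedAddCommGroup V] [NormedSpace ℝ V] [NormedAddCommGroup W]
  [NormedSpace ℝ W]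

/-- the projector onto the kernel of `X`, `X ^ 3 = -l ^ 2 X` -/
def pk0 (X : V →L[ℝ] V) (l : ℝ) : V →L[ℝ] V := ContinuousLinearMap.id ℝ V + (l ^ 2)⁻¹ • X ∘L X

theorem pk0_apply (X : V →L[ℝ] V) (l : ℝ) (v : V) : pk0 X l v = v + (l ^ 2)⁻¹ • X (X v) := rfl

theorem pk0_of {X : V →L[ℝ] V} (l : ℝ) {v : V} (h : X v = 0) : pk0 X l v = v := by
  simp [pk0_apply, h]

theorem X_pk0 {X : V →L[ℝ] V} {l : ℝ} (hl : l ≠ 0) (h : ∀ v, X (X (X v)) = -(l ^ 2) • X v) (v : V) :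
    X (pk0 X l v) = 0 := by
  rw [pk0_apply, map_add, map_smul, h, smul_smul, mul_neg, inv_mul_cancel₀ (pow_ne_zero 2 hl)]
  simp

theorem pk0_comm {X : V →L[ℝ] V} {X' : W →L[ℝ] W} (l : ℝ) {T : V →L[ℝ] W}
    (h : ∀ v, T (X v) = X' (T v)) (v : V) : pk0 X' l (T v) = T (pk0 X l v) := by
  simp [pk0_apply, h]

end pj

namespace GM
variable {Bc Bw B2 : Type} {Q : GM Bc Bw B2}

variable (Q) in
/-- fixed by the circle -/
def Fixv (o : Q.X) (v : Q.C o) : Prop := ∃ ξ, Q.d o v ξ = Q.J o v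

variable (Q) in
/-- tangent to the fixed points -/
def Tn (o : Q.X) (v u : Q.C o) : Prop :=
  ∀ ξ, Q.d o v ξ = Q.J o v → Q.d o (v + u) ξ = Q.J o (v + u)

variable (Q) in
/-- kernel elements (tangent if `t`) killed by the family `g` are trivial -/
def On (t : Prop) (q : Q.Fd) {κ : Type} (g : κ → Q.Fd) (o : Q.X) (v : Q.C o) : Prop :=
  ∀ u, fderiv ℝ (Q.F q o) v u = 0 → (t → Q.Tn o v u) → (∀ w, Q.b o (Q.gr (g w) o v) u = 0) →
    ∃ η, u = Q.dd o v η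

/-- weak equivariance -/
def Eqv {o o' : Q.X} (T : Q.C o → Q.C o') (A : Q.C o ≃L[ℝ] Q.C o') (G : ∀ o, Q.C o → Q.E o) :
    Prop := ∀ v u, Q.b o' (G o' (T v)) (A u) = Q.b o (G o v) u

variable {o o' : Q.X} {T : Q.C o → Q.C o'} {A : Q.C o ≃L[ℝ] Q.C o'} {ζ : ℂ}

namespace Mor
variable (h : Q.Mor T A)
include h

theorem der (v) : HasFDerivAt T (A : Q.C o →L[ℝ] Q.C o') v := by
  rw [show T = fun v => T 0 + A v from funext fun v => by rw [← h.aff, zero_add]]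
  exact A.hasFDerivAt.const_add _

theorem J_iff (v) : Q.J o' (T v) = 0 ↔ Q.J o v = 0 := by rw [← h.J, map_eq_zero_iff _ A.injective]

theorem fix_iff (v) : Q.Fixv o' (T v) ↔ Q.Fixv o v := by
  refine ⟨fun ⟨ξ, e⟩ => ?_, fun ⟨ξ, e⟩ => ?_⟩
  · obtain ⟨η, hη⟩ := h.d' ξ
    exact ⟨η, A.injective (by rw [hη, e, h.J])⟩
  · obtain ⟨η, hη⟩ := h.d ξ
    exact ⟨η, by rw [← hη, e, h.J]⟩

theorem tn {v u} (e : Q.Tn o v u) : Q.Tn o' (T v) (A u) := fun ξ hξ => by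
  obtain ⟨η, hη⟩ := h.d' ξ
  rw [← h.aff, ← hη, ← h.J, e η (A.injective (by rw [hη, hξ, h.J]))]

theorem dd' (v η') : ∃ η, A (Q.dd o v η) = Q.dd o' (T v) η' := by
  obtain ⟨η, hη⟩ := h.d' η'.1
  exact ⟨(η, η'.2), by rw [dd_apply, dd_apply, map_add, map_smul, hη, h.J]⟩

theorem inv (hp : Q.Ph T ζ) {q : Q.Fd} (hq : q ∈ Q.Rl) (v) : q o' (T v) = q o v := by
  have hz : ζ.re * ζ.re + ζ.im * ζ.im = 1 := by
    rw [← Complex.normSq_apply, Complex.normSq_eq_norm_sq, hp.1, one_pow]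
  have e1 : ∀ j, Q.f (.re j) o' (T v) = ζ.re * Q.f (.re j) o v - ζ.im * Q.f (.im j) o v :=
    fun j => congrArg Complex.re (hp.2 j v)
  have e2 : ∀ j, Q.f (.im j) o' (T v) = ζ.re * Q.f (.im j) o v + ζ.im * Q.f (.re j) o v :=
    fun j => congrArg Complex.im (hp.2 j v)
  induction hq using Algebra.adjoin_induction with
  | mem x hx =>
    rcases hx with ((⟨j, rfl⟩ | ⟨j, rfl⟩) | ⟨j, rfl⟩) | ⟨j, rfl⟩
    · exact h.cy j v
    · exact h.sw j v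
    · simp only [Pi.add_apply, Pi.mul_apply, e1, e2]
      linear_combination (Q.f (.re j.1) o v * Q.f (.re j.2) o v +
        Q.f (.im j.1) o v * Q.f (.im j.2) o v) * hz
    · simp only [Pi.sub_apply, Pi.mul_apply, e1, e2]
      linear_combination (Q.f (.re j.1) o v * Q.f (.im j.2) o v -
        Q.f (.im j.1) o v * Q.f (.re j.2) o v) * hz
  | algebraMap c => rfl
  | add x y _ _ hx hy => simp only [Pi.add_apply, hx, hy]
  | mul x y _ _ hx hy => simp only [Pi.mul_apply, hx, hy]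

end Mor

namespace Ax
variable (H : Q.Ax) {p q : Q.Fd}
include H

theorem eqv_gr (h : Q.Mor T A) (hp : Q.Ph T ζ) (hq : q ∈ Q.Rl) : Eqv T A (Q.gr q) := fun v u => by
  have h1 := (H.dq (Rl_le hq) o' (T v)).comp v (h.der v)
  rw [show q o' ∘ T = q o from funext (h.inv hp hq)] at h1
  exact congrArg (fun l : Q.C o →L[ℝ] ℝ => l u) (h1.unique (H.dq (Rl_le hq) o v))

theorem eqv_F (h : Q.Mor T A) (hp : Q.Ph T ζ) (hq : q ∈ Q.Rl) : Eqv T A (Q.F q) := fun v u => by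
  simp only [F, map_add, add_apply, h.F0, H.eqv_gr h hp hq v u]

theorem eqv_zero {G} (h : Eqv T A G) (v) : G o' (T v) = 0 ↔ G o v = 0 :=
  ⟨fun e => H.op.sepE fun u => by rw [← h, e]; simp, fun e => H.op.sepE fun u => by
    rw [← A.apply_symm_apply u, h, e]; simp⟩

theorem eqv_ker {G} (h : Q.Mor T A) (hG : Eqv T A G) (hd : ∀ o, ContDiff ℝ ∞ (G o)) {v u}
    (e : fderiv ℝ (G o) v u = 0) : fderiv ℝ (G o') (T v) (A u) = 0 := H.op.sepE fun w => by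
  have h1 := (((Q.b o').flip w).hasFDerivAt.comp _
    ((hd o').differentiable (by simp) _).hasFDerivAt).comp v (h.der v)
  have h2 := ((Q.b o).flip (A.symm w)).hasFDerivAt.comp v
    ((hd o).differentiable (by simp) _).hasFDerivAt
  have h3 := congrArg (fun l : Q.C o →L[ℝ] ℝ => l u) (h1.unique (h2.congr_of_eventuallyEq
    (.of_forall fun x => by simpa using hG x (A.symm w))))
  simpa [e] using h3

theorem on_mor (h : Q.Mor T A) (hp : Q.Ph T ζ) (hq : q ∈ Q.Rl) {t κ} {g : κ → Q.Fd}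
    (hg : ∀ w, g w ∈ Q.Rl) {v} (e : Q.On t q g o' (T v)) : Q.On t q g o v := fun u h1 h2 h3 => by
  obtain ⟨η', h4⟩ := e (A u) (H.eqv_ker h (H.eqv_F h hp hq) (H.sm_F (Rl_le hq)) h1)
    (fun ht => h.tn (h2 ht)) fun w => (H.eqv_gr h hp (hg w) v u).trans (h3 w)
  obtain ⟨η, h5⟩ := h.dd' v η'
  exact ⟨η, A.injective (h4.trans h5.symm)⟩

/-! ### infinitesimal symmetries -/

theorem der_act (o v η) : HasDerivAt (fun s : ℝ => Q.act o (s • η) v) (Q.dd o v η) 0 := by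
  have h1 : HasDerivAt (fun s : ℝ => (s • η, v)) (η, 0) 0 := by
    simpa using ((hasDerivAt_id (0 : ℝ)).smul_const η).prodMk (hasDerivAt_const 0 v)
  simpa [Function.comp_def] using
    (H.gr.strict o v).hasFDerivAt.comp_hasDerivAt_of_eq 0 h1 (by simp)

theorem lie {G : ∀ o, Q.C o → Q.E o} (hd : ∀ o, ContDiff ℝ ∞ (G o))
    (hG : ∀ η A, Q.Mor (Q.act o η) A → Eqv (Q.act o η) A G) (v u η) :
    Q.b o (fderiv ℝ (G o) v (Q.dd o v η)) u + Q.b o (G o v) (Q.dd o (v + u) η - Q.dd o v η) = 0 := by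
  have h1 := ((Q.b o).hasFDerivAt.comp_hasDerivAt 0
    (((hd o).differentiable (by simp) v).hasFDerivAt.comp_hasDerivAt_of_eq 0 (H.der_act o v η)
      (by simp [H.gr.act0]))).clm_apply ((H.der_act o (v + u) η).sub (H.der_act o v η))
  have h2 := h1.unique ((hasDerivAt_const 0 (Q.b o (G o v) u)).congr_of_eventuallyEq
    (.of_forall fun s => by
      obtain ⟨A, hA⟩ := H.gr.mor o (s • η)
      simpa [hA.aff] using hG _ A hA v u))
  simpa [H.gr.act0] using h2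

theorem lie_F (hq : q ∈ Q.Rl) (v u η) : Q.b o (fderiv ℝ (Q.F q o) v (Q.dd o v η)) u +
    Q.b o (Q.F q o v) (Q.dd o (v + u) η - Q.dd o v η) = 0 :=
  H.lie (H.sm_F (Rl_le hq)) (fun η _ h => H.eqv_F h (H.gr.ph o η) hq) v u η

theorem dF_dd (hq : q ∈ Q.Rl) {v} (hv : Q.F q o v = 0) (η) :
    fderiv ℝ (Q.F q o) v (Q.dd o v η) = 0 :=
  H.op.sepE fun u => by simpa [hv] using H.lie_F hq v u η

theorem dq_act (hq : q ∈ Q.Bl) (v η) : HasDerivAt (fun s : ℝ => q o (Q.act o (s • η) v))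
    (Q.b o (Q.gr q o v) (Q.dd o v η)) 0 :=
  (H.dq hq o v).comp_hasDerivAt_of_eq 0 (H.der_act o v η) (by simp [H.gr.act0])

theorem gr_dd (hq : q ∈ Q.Rl) (v η) : Q.b o (Q.gr q o v) (Q.dd o v η) = 0 :=
  (H.dq_act (Rl_le hq) v η).unique ((hasDerivAt_const 0 (q o v)).congr_of_eventuallyEq
    (.of_forall fun _ => (H.gr.mor o _).choose_spec.inv (H.gr.ph o _) hq v))

theorem s_dd (j) (v η) : Q.b o (Q.τ (.re j) o v) (Q.dd o v η) = -(2 * η.2) * Q.f (.im j) o v ∧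
    Q.b o (Q.τ (.im j) o v) (Q.dd o v η) = 2 * η.2 * Q.f (.re j) o v := by
  have h0 : HasDerivAt (fun s : ℝ => Complex.exp (2 * (s * η.2 : ℝ) * Complex.I) * Q.s j o v)
      (2 * η.2 * Complex.I * Q.s j o v) 0 := by
    simpa using ((((((hasDerivAt_id (0 : ℝ)).mul_const η.2).ofReal_comp).const_mul
      (2 : ℂ)).mul_const Complex.I).cexp).mul_const (Q.s j o v)
  have h1 : HasDerivAt (fun s : ℝ => Q.s j o (Q.act o (s • η) v)) _ 0 :=
    h0.congr_of_eventuallyEq (.of_forall fun s => (H.gr.ph o (s • η)).2 j v)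
  have h2 := (H.dq_act (f_mem (.re j)) v η).unique
    (Complex.reCLM.hasFDerivAt.comp_hasDerivAt 0 h1)
  have h3 := (H.dq_act (f_mem (.im j)) v η).unique
    (Complex.imCLM.hasFDerivAt.comp_hasDerivAt 0 h1)
  rw [H.gr_f] at h2 h3
  exact ⟨by simpa [s] using h2, by simpa [s] using h3⟩

theorem s_fix {v} (hv : Q.Fixv o v) (j) : Q.f (.re j) o v = 0 ∧ Q.f (.im j) o v = 0 := by
  obtain ⟨ξ, hξ⟩ := hv
  have h := H.s_dd j v (-ξ, 1)
  rw [dd_apply, map_neg, hξ, one_smul, neg_add_cancel, map_zero, map_zero] at h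
  constructor <;> linarith [h.1, h.2]

/-! ### the splitting -/

variable {ξ : Q.L o} {l : ℝ} (S : Q.Spl o ξ l)
include S

theorem dd_X (v) : Q.dd o v (-ξ, 1) = Q.XC o ξ v := by
  rw [dd_apply, S.C, map_neg, one_smul, neg_add_eq_sub]

theorem skewY (y z) : Q.BB o ((Q.XE o ξ).prodMap (Q.XH o ξ) y) z =
    -Q.BB o y ((Q.XC o ξ).prodMap (Q.XM o ξ) z) := by
  rw [BB_apply, BB_apply]
  exact (congrArg (⟪·, _⟫_ℝ) (S.j0 y.1 y.2)).trans ((S.skew _ _).trans (by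
    rw [← S.i, ← S.j1 z.1 z.2]; rfl))

theorem skewE (e u) : Q.b o (Q.XE o ξ e) u = -Q.b o e (Q.XC o ξ u) := by
  simpa [H.op.pair'] using H.skewY S (e, 0) (u, 0)

theorem ι_X (z) : Q.ι o ((Q.XC o ξ).prodMap (Q.XM o ξ) z) =
    (Q.XE o ξ).prodMap (Q.XH o ξ) (Q.ι o z) := H.op.inj0 o (by
  rw [← H.op.ij']
  exact (congrArg _ (S.j1 z.1 z.2)).trans ((S.i _).trans (by rw [H.op.ij']; exact (S.j0 _ _).symm)))

theorem cubeY (y) : (Q.XE o ξ).prodMap (Q.XH o ξ) ((Q.XE o ξ).prodMap (Q.XH o ξ)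
    ((Q.XE o ξ).prodMap (Q.XH o ξ) y)) = -(l ^ 2) • (Q.XE o ξ).prodMap (Q.XH o ξ) y :=
  H.op.inj0 o (by
    have e : ∀ y, Q.j0 o ((Q.XE o ξ).prodMap (Q.XH o ξ) y) = Q.X0 o ξ (Q.j0 o y) :=
      fun y => S.j0 y.1 y.2
    rw [map_smul, e, e, e, S.cube])

theorem cubeZ (z) : (Q.XC o ξ).prodMap (Q.XM o ξ) ((Q.XC o ξ).prodMap (Q.XM o ξ)
    ((Q.XC o ξ).prodMap (Q.XM o ξ) z)) = -(l ^ 2) • (Q.XC o ξ).prodMap (Q.XM o ξ) z :=
  H.op.injι o (by rw [map_smul, H.ι_X S, H.ι_X S, H.ι_X S, H.cubeY S])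

theorem cubeC (u) : Q.XC o ξ (Q.XC o ξ (Q.XC o ξ u)) = -(l ^ 2) • Q.XC o ξ u :=
  congrArg Prod.fst (H.cubeZ S (u, 0))

theorem σ_X (u) : Q.σ o (Q.XC o ξ u) = Q.XH o ξ (Q.σ o u) := by
  have h : ∀ z, Q.BB o (0, Q.σ o (Q.XC o ξ u)) z = Q.BB o (0, Q.XH o ξ (Q.σ o u)) z := fun z => by
    have h1 := H.skewY S (0, Q.σ o u) (0, z.2)
    simp only [ContinuousLinearMap.coe_prodMap', Prod.map_apply, map_zero] at h1
    rw [H.op.BB_split _ _ _ z.1 z.2, H.op.BB_split _ _ _ z.1 z.2, h1, H.adj, H.adj, S.D, H.skewE S,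
      neg_neg]
  exact congrArg Prod.snd (H.op.extY h)

theorem lie_X {G : ∀ o, Q.C o → Q.E o} (hd : ∀ o, ContDiff ℝ ∞ (G o))
    (hG : ∀ η A, Q.Mor (Q.act o η) A → Eqv (Q.act o η) A G) (v) :
    fderiv ℝ (G o) v (Q.XC o ξ v) = Q.XE o ξ (G o v) := H.op.extE fun u => by
  have h := H.lie hd hG v u (-ξ, 1)
  rw [H.dd_X S, H.dd_X S, map_add (Q.XC o ξ), add_sub_cancel_left] at h
  rw [H.skewE S, eq_neg_iff_add_eq_zero, h]

theorem d_X {G : ∀ o, Q.C o → Q.E o} (hd : ∀ o, ContDiff ℝ ∞ (G o))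
    (hG : ∀ η A, Q.Mor (Q.act o η) A → Eqv (Q.act o η) A G) (u) :
    fderiv ℝ (G o) 0 (Q.XC o ξ u) = Q.XE o ξ (fderiv ℝ (G o) 0 u) := by
  have h1 := (((contDiff_infty_iff_fderiv.1 (hd o)).2.differentiable (by simp)
    0).hasFDerivAt.clm_apply (Q.XC o ξ).hasFDerivAt).unique
    (((Q.XE o ξ).hasFDerivAt.comp 0 ((hd o).differentiable (by simp)
      0).hasFDerivAt).congr_of_eventuallyEq (.of_forall (H.lie_X S hd hG)))
  simpa using congrArg (fun l : Q.C o →L[ℝ] Q.E o => l u) h1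

theorem X_F0 (hq : q ∈ Q.Rl) : Q.XE o ξ (Q.F q o 0) = 0 := by
  rw [← H.lie_X S (H.sm_F (Rl_le hq)) (fun η _ h => H.eqv_F h (H.gr.ph o η) hq), map_zero, map_zero]

theorem gr_X (hq : q ∈ Q.Rl) (u) : Q.b o (Q.gr q o 0) (Q.XC o ξ u) = 0 := by
  rw [← neg_eq_zero, ← H.skewE S,
    ← H.lie_X S (H.sm_gr (Rl_le hq)) (fun η _ h => H.eqv_gr h (H.gr.ph o η) hq)]
  simp

theorem ext_X (hq : q ∈ Q.Rl) (z) :
    Q.ext o (fderiv ℝ (Q.F q o) 0) ((Q.XC o ξ).prodMap (Q.XM o ξ) z) =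
      (Q.XE o ξ).prodMap (Q.XH o ξ) (Q.ext o (fderiv ℝ (Q.F q o) 0) z) := by
  refine (ext_apply o _ (Q.XC o ξ z.1) (Q.XM o ξ z.2)).trans ?_
  rw [ext_apply o _ z.1 z.2, H.σ_X S, S.D,
    H.d_X S (H.sm_F (Rl_le hq)) (fun η _ h => H.eqv_F h (H.gr.ph o η) hq), ← map_add]
  rfl

theorem hs_X (hq : q ∈ Q.Rl) (x) : Q.hs q o (Q.X0 o ξ x) = Q.X0 o ξ (Q.hs q o x) :=
  ext_dense (H.op.den o) (f := fun x => Q.hs q o (Q.X0 o ξ x))
    (g := fun x => Q.X0 o ξ (Q.hs q o x)) (by fun_prop) (by fun_prop) (fun z => by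
      rw [← S.i, ← S.j1 z.1 z.2, H.hs_spec (Rl_le hq), H.hs_spec (Rl_le hq), ← S.j0, map_zero,
        H.d_X S (H.sm_gr (Rl_le hq)) (fun η _ h => H.eqv_gr h (H.gr.ph o η) hq)]) x

theorem L0_X (y) : Q.L0 o (Q.X1 o ξ y) = Q.X0 o ξ (Q.L0 o y) :=
  ext_dense (H.op.den1 o) (f := fun y => Q.L0 o (Q.X1 o ξ y))
    (g := fun y => Q.X0 o ξ (Q.L0 o y)) (by fun_prop) (by fun_prop) (fun z => by
      have h := H.ext_X S (zero_mem _) z
      rw [show Q.F 0 o = Q.F0 o from funext fun v => by simp [F, H.gr_zero]] at h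
      rw [← S.j1 z.1 z.2, H.op.L0, H.op.L0]
      exact (congrArg _ h).trans (S.j0 _ _)) y

theorem s_X (j) : Q.XE o ξ (Q.τ (.re j) o 0) = (2 : ℝ) • Q.τ (.im j) o 0 ∧
    Q.XE o ξ (Q.τ (.im j) o 0) = (-2 : ℝ) • Q.τ (.re j) o 0 := by
  have key : ∀ (a b : Bs Bc Bw B2) (c : ℝ), (∀ v, Q.b o (Q.τ a o v) (Q.XC o ξ v) = c * Q.f b o v) →
      Q.XE o ξ (Q.τ a o 0) = (-c) • Q.τ b o 0 := fun a b c h => H.op.extE fun u => by
    have h1 := (((Q.b o).hasFDerivAt.comp 0 ((H.sm.sm a o).differentiable (by simp)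
      0).hasFDerivAt).clm_apply (Q.XC o ξ).hasFDerivAt).unique
      (((H.sm.grad b o 0).const_mul c).congr_of_eventuallyEq (.of_forall h))
    simpa [H.skewE S] using congrArg (fun l : Q.C o →L[ℝ] ℝ => l u) h1
  exact ⟨by simpa using key _ _ (-2) fun v => by simpa [H.dd_X S] using (H.s_dd j v (-ξ, 1)).1,
    key _ _ 2 fun v => by simpa [H.dd_X S] using (H.s_dd j v (-ξ, 1)).2⟩

end Ax

end GM

end Crest.Agent.X212.Crt72
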