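import Crest.Agent.X212.Crt72.Iv4
import Crest.Agent.X212.Crt72.Lk1

/-!
# Row 212, MIXV (helper72): the index of the mixed cylinder is the spectral flow
-/

set_option autoImplicit false
set_option linter.unusedSectionVars false
noncomputable section
open scoped Manifold ContDiff Topology InnerProductSpace BoundedContinuousFunction
open MeasureTheory Set Function Filter Real

namespace Crest.Agent.X212.Crt72
open An An.Pre Sob92 Ell97 Cyf70 Nk89 Map77 Mod61 Wz78 Op78 Nd18 Dec35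

theorem SF.near0 {X₁ X₀ : Type*} [NormedAddCommGroup X₁] [NormedSpace ℝ X₁] [CompleteSpace X₁]
    [NormedAddCommGroup X₀] [InnerProductSpace ℝ X₀] [CompleteSpace X₀] {i L : X₁ →L[ℝ] X₀}
    {A : Submodule ℝ (X₀ →L[ℝ] X₀)} {sf : (X₀ →L[ℝ] X₀) → (X₀ →L[ℝ] X₀) → ℤ} (H : SF i L A sf)
    {a b s : X₀ →L[ℝ] X₀} (ha : a ∈ A) (hb : b ∈ A) (hs : s ∈ A)
    (B : ∀ (τ : ℝ) v, Op i L (a + τ • (b - a)) v = 0 → v = 0) :
    ∀ᶠ δ in 𝓝 (0 : ℝ), sf (a + δ • s) (b - δ • s) = 0 :=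
  have B := fun τ => H.bij_of_inj (B τ)
  (H.near ha hb hs (by simpa using B 0) (by simpa using B 1)).mono fun _ e =>
    e.trans (H.hom a ha b hb fun s _ => B s)

theorem cmp_path {X X' : Type*} [NormedAddCommGroup X] [NormedSpace ℝ X] [NormedAddCommGroup X']
    [NormedSpace ℝ X'] {p : X →L[ℝ] X'} {ι : X' →L[ℝ] X} {a b : X →L[ℝ] X} (τ : ℝ)
    (ha : ∀ v, ι (p (a (ι v))) = a (ι v)) (hb : ∀ v, ι (p (b (ι v))) = b (ι v)) :
    p ∘L (a + τ • (b - a)) ∘L ι = p ∘L a ∘L ι + τ • (p ∘L b ∘L ι - p ∘L a ∘L ι) ∧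
      ∀ v, ι (p ((a + τ • (b - a)) (ι v))) = (a + τ • (b - a)) (ι v) :=
  ⟨by ext; simp, fun v => by simp [ha, hb]⟩

section gen
variable {E3 : Type} [NormedAddCommGroup E3] [NormedSpace ℝ E3] [FiniteDimensional ℝ E3]
  [MeasurableSpace E3] [BorelSpace E3]
  {H3 : Type} [TopologicalSpace H3] {I3 : ModelWithCorners ℝ E3 H3} [I3.Boundaryless]
  {Y : Type} [TopologicalSpace Y] [ChartedSpace H3 Y] [IsManifold I3 ∞ Y] [T2Space Y]
  [MeasurableSpace Y] [BorelSpace Y] [SecondCountableTopology Y] [CompactSpace Y]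
  {κ : Type} [Fintype κ] {lam : Type} [Fintype lam] {O' : Set (Y × ℝ)}
  {D : YD I3 Y κ lam} {β : YC Y κ lam} {N N' : ND Y lam}
  {K K' : HZ D β 0 →L[ℝ] HZ D β 0} {σ σ' : ℝ →ᵇ ℝ} {r : ℝ}

section mv
variable (F : Fr I3 Y κ) {n : ℕ} (p : Y → CL (Cf (Option κ) (Fin n)) (Cf (Option κ) (Fin n)))
  (L : F.H 1 p →L[ℝ] F.H 0 p) (a b : F.H 0 p →L[ℝ] F.H 0 p)

/-- the kernel has no spinor-free vector -/
def NK : Prop := ∀ (τ : ℝ) (w : F.H 1 p), (∀ X : F.H 0 p →L[ℝ] F.H 0 p, (∀ s : Sec I3 p,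
  (∀ y, fp (s.1 y) = 0) → X (F.toH 0 _ s) = 0) → X (F.incl 1 0 _ w) = 0) →
    Op (F.incl 1 0 _) L (a + τ • (b - a)) w = 0 → w = 0

/-- the index is the spectral flow -/
def SQ (P : ℝ → ℤ → Prop) : Prop := ∀ s s' r, Stp s s' r → ∃ j ∈ symA _, ∀ᶠ δ in 𝓝[>] (0 : ℝ),
  P δ (sf (F.incl 1 0 _) L (Ψ F.toPre 1 _) (TH F _) s (a + δ • j) (b - δ • j))

end mv

theorem Hs0.sym_k (h : Hs0 O' D β) (n : Hn N K) : kS' O' K ∈ SymA _ := fun x y => by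
  obtain ⟨_, _, t, e⟩ := h.tk n
  exact (congrArg (⟪· x, y⟫_ℝ) e).symm.trans ((t.kk_symm x y).trans (congrArg (⟪x, · y⟫_ℝ) e))

theorem Hs0.sf_zero (h : Hs0 O' D β) (hO : O' = ∅) (n : Hn N K) (n' : Hn N' K') (hσ : Stp σ σ' r)
    (H : NK D.F (AZ D β).p (Cyf70.LH D.F (AZ D β) 0) (kk (KZ K)) (kk (KZ K'))) :
    ∀ᶠ δ in 𝓝 (0 : ℝ), sfS O' D β σ (kS' O' K + δ • jY' O' D β) (kS' O' K' - δ • jY' O' D β) = 0 := by
  subst hO
  refine (h.cz.cyO.isSF hσ).near0 (h.sym_k n) (h.sym_k n') h.sym_j fun τ v hv => ?_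
  obtain ⟨e, c⟩ := cmp_path τ (h.kk_ι n.kp n.K) (h.kk_ι n'.kp n'.K)
  have z : ιY ∅ D β 1 v = 0 := by
    refine H τ _ (fun X hX => ?_) ((h.op_ι c v).trans ((congrArg _ ((congrArg
      (fun k => Op (D.F.incl 1 0 _) (Cyf70.LH D.F (AS ∅ D β) 0) k v) e).trans hv)).trans (map_zero _)))
    rw [h.incl_ι]
    induction D.F.incl 1 0 _ v using H_ind with
    | hP => exact isClosed_eq (by fun_prop) (by fun_prop)
    | h u =>
      rw [h.ι_toH]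
      exact hX _ fun y => (sp_of (u.2.2.2 y)).symm.trans
        (DFunLike.congr_fun (indicator_of_notMem (notMem_empty _) _) _)
  rw [← h.πι v, z, map_zero]

theorem sf_eq {V W : Type} [NormedAddCommGroup V] [InnerProductSpace ℝ V] [FiniteDimensional ℝ V]
    [NormedAddCommGroup W] [InnerProductSpace ℝ W] [FiniteDimensional ℝ W] {F : Fr I3 Y κ}
    {A A' : An.Op Y (Option κ) V W} (e : A = A') (hs : Sm I3 A.p)
    (pp : ∀ y v, A.p y (A.p y v) = A.p y v) (j : Y → V →L[ℝ] V) (a b : F.H 0 A'.p →L[ℝ] F.H 0 A'.p)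
    (δ : ℝ) : sf (F.incl 1 0 _) (Cyf70.LH F A 0) (Ψ F.toPre 1 A.p) (TH F _) σ
      (F.mulH 0 _ _ A.p ∘L a ∘L F.mulH 0 _ _ A.p + δ • F.mulH 0 _ _ j)
      (F.mulH 0 _ _ A.p ∘L b ∘L F.mulH 0 _ _ A.p - δ • F.mulH 0 _ _ j) =
    sf (F.incl 1 0 _) (Cyf70.LH F A' 0) (Ψ F.toPre 1 _) (TH F _) σ
      (a + δ • F.mulH 0 _ _ j) (b - δ • F.mulH 0 _ _ j) := by
  subst e
  rw [show F.mulH 0 A.p A.p A.p = .id ℝ _ from
    RepT_eq (rep_mulH (Cb_of_compact hs) (.of_left pp)) Rep_id fun u => funext u.2.2.2]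
  rfl

theorem Hs0.sf_univ (h : Hs0 O' D β) (hO : O' = univ) (δ : ℝ) :
    sfS O' D β σ (kS' O' K + δ • jY' O' D β) (kS' O' K' - δ • jY' O' D β) =
    sf (D.F.incl 1 0 _) (Cyf70.LH D.F (AZ D β) 0) (Ψ D.F.toPre 1 _) (TH D.F _) σ
      (kk (KZ K) + δ • D.F.mulH 0 (AZ D β).p (AZ D β).p fun _ => jC κ _)
      (kk (KZ K') - δ • D.F.mulH 0 (AZ D β).p (AZ D β).p fun _ => jC κ _) := by
  have e : AS O' D β = AZ D β :=
    congrArg (fun d => AC D.F d (cy β).W (cy β).Φ) (hO ▸ dS_univ)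
  unfold kS' πY ιY
  exact sf_eq e h.sm_p h.pp _ (kk (KZ K)) (kk (KZ K')) δ

theorem Hs0.sym_jZ (h : Hs0 O' D β) :
    D.F.mulH 0 (AZ D β).p (AZ D β).p (fun _ => jC κ _) ∈ symA _ := fun x y => by
  have r := rep_mulH (F := D.F.toPre) (p := (AZ D β).p) (q := (AZ D β).p) (k := 0) (Cb_const _)
    (cz_mbd h.ok h.adm h.dim).mj
  induction x, y using H_ind₂ with
  | hP => exact isClosed_eq (by fun_prop) (by fun_prop)
  | h u v =>
    rw [RepT_toH r, RepT_toH r, inner_toH, inner_toH]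
    exact integral_congr_ae (ae_of_all _ fun x => inner_jC _ _)

variable {P : ℝ → ℤ → Prop} (H : ∀ s s' r, Stp s s' r → ∀ᶠ δ in 𝓝[>] (0 : ℝ),
  P δ (sfS O' D β s (kS' O' K + δ • jY' O' D β) (kS' O' K' - δ • jY' O' D β)))
include H

theorem Hs0.sq (h : Hs0 O' D β) (hO : O' = univ) :
    SQ D.F (AZ D β).p (Cyf70.LH D.F (AZ D β) 0) (kk (KZ K)) (kk (KZ K')) P := fun s s' r hs =>
  ⟨_, h.sym_jZ, (H s s' r hs).mono fun δ a => (congrArg (P δ) (h.sf_univ hO δ)).mp a⟩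

theorem Hs0.sq0 (h : Hs0 O' D β) (hO : O' = ∅) (n : Hn N K) (n' : Hn N' K')
    (q : NK D.F (AZ D β).p (Cyf70.LH D.F (AZ D β) 0) (kk (KZ K)) (kk (KZ K'))) :
    ∀ᶠ δ in 𝓝[>] (0 : ℝ), P δ 0 :=
  exists_stp.elim fun s e => e.elim fun s' hs => ((H s s' _ hs).and (nhdsWithin_le_nhds
    (h.sf_zero hO n n' hs q))).mono fun δ a => (congrArg (P δ) a.2).mp a.1

end gen

variable {κ lam : Type} [Fintype κ] [Fintype lam] {k : ℕ} {Y : M.Mf 3} [CompactSpace Y.M]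
  {D : YD Y.I Y.M κ lam} {β : YC Y.M κ lam} {N : Bool → ND Y.M lam}
  {K : Bool → HZ D β 0 →L[ℝ] HZ D β 0}

/-- **MIXV** -/
theorem mv0 (hk : 7 ≤ k) (C : CzStmt κ lam k) (P : KpAll κ lam)
    (H : ∀ o, (XD.mk Y D (N o)).OK ∧ Gd (N o) D β ∧ IsK (N o) D β (K o)) :
    SQ D.F (AZ D β).p (Cyf70.LH D.F (AZ D β) 0) (kk (KZ (K false))) (kk (KZ (K true)))
      (fun δ => (zB D N).Ix univ (cy β) k δ) ∧
    (D.Zr β → NK D.F (AZ D β).p (Cyf70.LH D.F (AZ D β) 0) (kk (KZ (K false))) (kk (KZ (K true))) →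
      ∀ᶠ δ in 𝓝[>] (0 : ℝ), (zB D N).Ix ∅ (cy β) k δ 0) := by
  have n : ∀ o, Hn (N o) (K o) := fun o => ⟨P Y _ D β ⟨(H o).1.ok, (H o).1.nd,
    (H o).2.1.crit.sol.toAdm, (H o).2.1.crit.tmp⟩, (H o).2.2, (H o).2.1.crit, (H o).2.1.nd⟩
  have h := fun f => hs0 (f := f) (H true).1.ok (n true).kp.adm
  have I := fun f hf σ σ' r hσ => (ix_mix (f := f) (σ := σ) (σ' := σ') (r := r) hk C
    (fun o => (H o).1) (H true).2.1.irr hf n hσ).mono fun _ a => a.2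
  exact ⟨Hs0.sq (P := fun δ => (zB D N).Ix (spO true univ) (cy β) k δ) (I true (.inl rfl))
    (h true (.inl rfl)) rfl, fun z => Hs0.sq0 (P := fun δ => (zB D N).Ix (spO false univ) (cy β) k δ)
      (I false (.inr z)) (h false (.inr z)) rfl (n false) (n true)⟩

end Crest.Agent.X212.Crt72
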