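import Crest.Agent.X212.Crt72.Cht
import Crest.Agent.X212.Fin93.Main

/-!
# Row 212, CRIT (helper72): one stage of the perturbation
-/

set_option autoImplicit false
set_option linter.unusedSectionVars false
noncomputable section
open Set Filter Topology Function Module
open scoped ContDiff InnerProductSpace

namespace Crest.Agent.X212.Crt72

theorem exists_finset_sep {V W : Type*} [AddCommGroup V] [Module ℝ V] (K : Submodule ℝ V)
    [FiniteDimensional ℝ K] (l : W → V →ₗ[ℝ] ℝ) (h : ∀ k ∈ K, (∀ w, l w k = 0) → k = 0) :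
    ∃ J : Finset W, ∀ k ∈ K, (∀ w ∈ J, l w k = 0) → k = 0 := by
  classical
  let N : Finset W → Submodule ℝ V := fun J => K ⊓ ⨅ w ∈ J, (l w).ker
  have hN : ∀ J k, k ∈ N J ↔ k ∈ K ∧ ∀ w ∈ J, l w k = 0 := fun J k => by simp [N]
  obtain ⟨J, hJ⟩ := exists_minimalFor_of_wellFoundedLT (fun _ => True)
    (fun J => finrank ℝ (N J)) ⟨∅, trivial⟩
  refine ⟨J, fun k h1 h2 => h k h1 fun w => ?_⟩
  have : FiniteDimensional ℝ (N J) := Submodule.finiteDimensional_of_le inf_le_left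
  have h3 : N (insert w J) ≤ N J := fun x hx =>
    (hN _ _).2 ⟨((hN _ _).1 hx).1, fun a ha => ((hN _ _).1 hx).2 a (Finset.mem_insert_of_mem ha)⟩
  have h4 := Submodule.eq_of_le_of_finrank_le h3 (hJ.le_of_le trivial (Submodule.finrank_mono h3))
  exact ((hN _ _).1 (h4 ▸ (hN _ _).2 ⟨h1, h2⟩)).2 w (Finset.mem_insert_self _ _)

namespace GM
variable {Bc Bw B2 : Type} {Q : GM Bc Bw B2}

variable (Q) in
/-- the neighbourhoods of a point -/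
def Near (o : Q.X) : Filter Q.X :=
  map Prod.snd (comap Prod.fst (𝓝 (0 : Q.C o)) ⊓ 𝓟 {z | Q.Rep o z.1 z.2})

theorem near_prod {X : Type*} [TopologicalSpace X] {p₀ : X} {o : Q.X} {N : Set (Q.C o × X)}
    (hN : N ∈ 𝓝 (0, p₀)) :
    {z : X × Q.X | ∃ v, Q.Rep o v z.2 ∧ (v, z.1) ∈ N} ∈ 𝓝 p₀ ×ˢ Q.Near o := by
  obtain ⟨V, hV, U, hU, hs⟩ := mem_nhds_prod_iff.1 hN
  refine mem_of_superset (prod_mem_prod hU (show {x | ∃ v ∈ V, Q.Rep o v x} ∈ Q.Near o from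
    mem_inf_principal.2 (mem_of_superset (preimage_mem_comap hV) fun z h1 h2 => ⟨_, h1, h2⟩))) ?_
  rintro ⟨p, x⟩ ⟨h1, v, h2, h3⟩
  exact ⟨v, h3, hs (mk_mem_prod h2 h1)⟩

variable (Q) in
/-- a complete list of the critical points in a stratum -/
def Cls (q : Q.Fd) (P : Q.X → Prop) {ι : Type} (x : ι → Q.X) : Prop :=
  (∀ n, P (x n) ∧ Q.Sol q (x n)) ∧ (∀ n m, Q.eqv (x n) (x m) → n = m) ∧
    ∀ y, P y → Q.Sol q y → ∃ n, Q.eqv y (x n)

/-- the affine space of a stage -/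
def Sp {W : Type} (q₀ : Q.Fd) (g : W → Q.Fd) (q : Q.Fd) : Prop :=
  ∃ r ∈ Submodule.span ℝ (range g), q = q₀ + r

variable (Q) in
/-- the hypotheses of a stage -/
structure Stg (P : ∀ o, Q.C o → Prop) (q₀ : Q.Fd) {W : Type} (g : W → Q.Fd) (Adm : Q.Fd → Prop) :
    Prop where
  q0 : q₀ ∈ Q.Rl
  hg : ∀ w, g w ∈ Q.Rl
  inv : ∀ o o' (T : Q.C o → Q.C o') A, Q.Mor T A → ∀ v, P o v → P o' (T v)
  adm0 : Adm q₀
  adm : ∀ (J : Finset W) p₀, Adm (fam q₀ (fun w : J => g w) p₀) →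
    ∀ᶠ p in 𝓝 p₀, Adm (fam q₀ (fun w : J => g w) p)
  ch : ∀ q, Sp q₀ g q → Adm q → ∀ o, P o 0 → Q.Sol q o →
    ∃ w π, Q.Ch o w π (P o) True ∧ Q.Ch2 o w π
  den : ∀ q, Sp q₀ g q → Adm q → ∀ o, P o 0 → Q.Sol q o → ∀ u ∈ Q.Smo o,
    fderiv ℝ (Q.F q o) 0 u = 0 → Q.Tn o 0 u → (∀ w, Q.b o (Q.gr (g w) o 0) u = 0) →
    ∃ η, u = Q.dd o 0 η
  lim : ∀ q, Sp q₀ g q → Adm q → ∀ o, ¬P o 0 → Q.Sol q o → (∃ᶠ v in 𝓝 0, P o v) →
    (∃ w π, Q.Ch o w π (fun _ => True) False) ∧ Q.On False q nil o 0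

theorem sp_fam {W : Type} (q₀ : Q.Fd) (g : W → Q.Fd) (J : Finset W) (p) :
    Sp q₀ g (fam q₀ (fun w : J => g w) p) :=
  ⟨_, sum_mem fun _ _ => Submodule.smul_mem _ _ (Submodule.subset_span ⟨_, rfl⟩), rfl⟩

theorem fam_nil (q : Q.Fd) (p) : fam q nil p = q := by simp [fam]

theorem On.mono {t t' : Prop} {q κ κ'} {g : κ → Q.Fd} {g' : κ' → Q.Fd} {o v} (h : Q.On t q g o v)
    (ht : t → t') (hg : ∀ w, ∃ w', g w = g' w') : Q.On t' q g' o v := fun u h1 h2 h3 =>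
  h u h1 (fun e => h2 (ht e)) fun w => (hg w).choose_spec ▸ h3 _

namespace Ax
variable (H : Q.Ax) {P : ∀ o, Q.C o → Prop} {q₀ : Q.Fd} {W : Type} {g : W → Q.Fd}
  {Adm : Q.Fd → Prop}
include H

theorem rep_sol {q} (hq : q ∈ Q.Rl) {o v x} (h : Q.Rep o v x) (hx : Q.Sol q x) : Q.F q o v = 0 := by
  obtain ⟨T, A, ζ, c1, c2, rfl⟩ := H.gr.rep o _ _ h
  exact (H.eqv_zero (H.eqv_F c1 c2 hq) 0).2 hx

theorem rep_on {q} (hq : q ∈ Q.Rl) {o v x} (h : Q.Rep o v x) {t κ} {g : κ → Q.Fd}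
    (hg : ∀ w, g w ∈ Q.Rl) (hO : Q.On t q g o v) : Q.On t q g x 0 := by
  obtain ⟨T, A, ζ, c1, c2, rfl⟩ := H.gr.rep o _ _ h
  exact H.on_mor c1 c2 hq hg hO

theorem rep_P (S : Q.Stg P q₀ g Adm) {o v x} (h : Q.Rep o v x) (hx : P x 0) : P o v := by
  obtain ⟨T, A, ζ, c1, -, rfl⟩ := H.gr.rep o _ _ h
  exact S.inv _ _ T A c1 0 hx

/-- finitely many generators suffice -/
theorem on_fin (S : Q.Stg P q₀ g Adm) {q} (hq : q ∈ Q.Rl) (h1 : Sp q₀ g q) (h2 : Adm q) {o}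
    (h3 : P o 0) (h4 : Q.Sol q o) : ∃ J : Finset W, Q.On True q (fun w : J => g w) o 0 := by
  obtain ⟨w, π, C, -⟩ := S.ch q h1 h2 o h3 h4
  have := (H.sy (Rl_le hq) o).fr.1.finite_ker
  let R := ((ContinuousLinearMap.id ℝ _ - π).prod (Q.b o (Q.ic o w))).prodMap
    (ContinuousLinearMap.id ℝ (Q.M o))
  have : FiniteDimensional ℝ ((Q.ext o (fderiv ℝ (Q.F q o) 0)).ker ⊓ R.ker :) :=
    Submodule.finiteDimensional_of_le inf_le_left
  obtain ⟨J, hJ⟩ := exists_finset_sep ((Q.ext o (fderiv ℝ (Q.F q o) 0)).ker ⊓ R.ker)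
    (fun j => (Q.b o (Q.gr (g j) o 0) ∘L ContinuousLinearMap.fst ℝ _ (Q.M o)).toLinearMap)
    fun k hk hw => by
      have a1 : k.2 = 0 := congrArg Prod.snd hk.2
      obtain ⟨η, hη⟩ := S.den q h1 h2 o h3 h4 k.1 (H.ker_smo (Rl_le hq) hk.1)
        (by simpa [ext_apply o _ k.1 k.2, a1] using congrArg Prod.fst hk.1)
        (C.tn _ (sub_eq_zero.1 (congrArg (·.1.1) hk.2)).symm trivial) hw
      exact Prod.ext (hη ▸ C.tr η (hη ▸ congrArg Prod.snd hk.1) (hη ▸ congrArg (·.1.2) hk.2)) a1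
  refine ⟨J, H.on_of hq (fun w : J => S.hg w) h4 (C.near.self_of_nhds (map_zero _) h3).2
    fun n a1 a2 a3 a4 a5 => congrArg Prod.fst (hJ (n, 0) ⟨?_, ?_⟩ fun w hw => a5 ⟨w, hw⟩)⟩
  · simp [ext_apply, a1, a3]
  · simp [R, a2, a4]

theorem lim_dich (S : Q.Stg P q₀ g Adm) {q} (h1 : Sp q₀ g q) (h2 : Adm q) {ι : Type}
    {𝒰 : Ultrafilter ι} {o} {v : ι → Q.C o} {x : ι → Q.X} (h3 : Q.Sol q o)
    (hv : Tendsto v 𝒰 (𝓝 0)) (hr : ∀ᶠ n in (𝒰 : Filter ι), Q.Rep o (v n) (x n))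
    (hx : ∀ᶠ n in (𝒰 : Filter ι), P (x n) 0) (h : ¬P o 0) :
    (∃ w π, Q.Ch o w π (fun _ => True) False) ∧ Q.On False q nil o 0 :=
  S.lim q h1 h2 o h h3 (hv.frequently ((hr.and hx).mono fun _ h => H.rep_P S h.1 h.2).frequently)

theorem stage_reg (S : Q.Stg P q₀ g Adm) : ∃ q ∈ Q.Rl, Sp q₀ g q ∧ Adm q ∧
    ∀ x, P x 0 → Q.Sol q x → Q.On True q nil x 0 := by
  classical
  have hm := fun (J : Finset W) => fam_mem S.q0 (g := fun w : J => g w) fun w => S.hg w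
  let D : Fin93.Dat Q.Fd (Finset W) Unit (fun J => J → ℝ) fun _ => Q.X :=
    ⟨fun J => fam q₀ fun w : J => g w, fun _ => 0, Adm, fun _ q x => P x 0 ∧ Q.Sol q x,
      fun _ q x => Q.On True q nil x 0, fun _ q x J => Q.On True q (fun w : J => g w) x 0,
      fun _ => Q.Near⟩
  have op : ∀ (J : Finset W) p₀ o {κ : Type} [Fintype κ] (g' : κ → Q.Fd), (∀ w, g' w ∈ Q.Rl) →
      Adm (D.ι J p₀) → D.Sol () (D.ι J p₀) o → Q.On True (D.ι J p₀) g' o 0 →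
      ∀ᶠ z in 𝓝 p₀ ×ˢ Q.Near o, D.Sol () (D.ι J z.1) z.2 → Q.On True (D.ι J z.1) g' z.2 0 := by
    intro J p₀ o κ _ g' hg' h1 h2 h3
    obtain ⟨w, π, C, -⟩ := S.ch _ (sp_fam q₀ g J p₀) h1 o h2.1 h2.2
    filter_upwards [near_prod (H.on_open S.q0 (fun w => S.hg _) hg' C h3)] with z ⟨v, a1, a2⟩ a3
    exact H.rep_on (hm J _) a1 hg' (a2 (H.rep_P S a1 a3.1) (H.rep_sol (hm J _) a1 a3.2))
  have hD : D.Hyp :=
    { stage := fun J J' h p => by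
        obtain ⟨p', hp⟩ := Fin93.ext0_stage J J' h p
        exact ⟨p', by simp only [D, fam, ← Fin93.ext0_sum, hp]⟩
      adm := S.adm
      mono := fun _ _ _ _ _ h hO => hO.mono id fun w => ⟨⟨w, h w.2⟩, rfl⟩
      dens := fun _ J p x h1 h2 => .inr (H.on_fin S (hm J p) (sp_fam q₀ g J p) h1 h2.1 h2.2)
      onto := fun _ J p o J' h1 h2 h3 => (op J p o _ (fun w => S.hg _) h1 h2 h3).curry.self_of_nhds
      reg := fun _ J p o h1 h2 h3 => op J p o nil (fun e => e.elim) h1 h2 h3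
      loc := fun _ J p₀ o h1 h2 h3 => by
        obtain ⟨w, π, C, C2⟩ := S.ch _ (sp_fam q₀ g J p₀) h1 o h2.1 h2.2
        obtain ⟨N, hN, hr⟩ := H.loc S.q0 (fun w => S.hg _) C C2 h2.2 h3
        refine ⟨_, near_prod hN, hr.mono fun p hp x ⟨v, a1, a2⟩ a3 => ?_⟩
        exact H.rep_on (hm J _) a1 (fun e => e.elim)
          (hp v a2 (H.rep_P S a1 a3.1) (H.rep_sol (hm J _) a1 a3.2))
      comp := fun _ J p₀ h1 _ 𝒰 h2 h3 => by
        obtain ⟨o, v, a1, a2, a3⟩ := H.cpt S.q0 (fun w => S.hg _) 𝒰 h2 (h3.mono fun _ h => h.2)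
        by_cases h : P o 0
        · exact .inr ⟨o, ⟨h, a3⟩, tendsto_map.comp (f := fun n => (v n, n.2))
            (tendsto_inf.2 ⟨tendsto_comap_iff.2 a1, tendsto_principal.2 a2⟩)⟩
        obtain ⟨⟨w, π, C⟩, b⟩ := H.lim_dich S (sp_fam q₀ g J p₀) h1 a3 a1 a2
          (h3.mono fun _ h => h.1) h
        left
        filter_upwards [(a1.prodMk_nhds h2).eventually
          (H.on_open S.q0 (fun w => S.hg _) (fun e => e.elim) C b), a2, h3] with z c1 c2 c3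
        exact (H.rep_on (hm J _) c2 (fun e => e.elim)
          (c1 trivial (H.rep_sol (hm J _) c2 c3.2))).mono False.elim fun e => e.elim }
  obtain ⟨J, -, p, h1, h2⟩ := hD.exists_good (J₀ := ∅) (p₀ := 0) (by simpa [D, fam] using S.adm0)
  exact ⟨_, hm J p, sp_fam q₀ g J p, h1, fun x a b => h2 () x ⟨a, b⟩⟩

theorem stage_fin (S : Q.Stg P q₀ g Adm) {q} (hq : q ∈ Q.Rl) (h1 : Sp q₀ g q) (h2 : Adm q)
    (h3 : ∀ x, P x 0 → Q.Sol q x → Q.On True q nil x 0) :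
    ∃ (ι : Type) (_ : Fintype ι) (x : ι → Q.X), Q.Cls q (P · 0) x := by
  let s : Setoid {y // P y 0 ∧ Q.Sol q y} := ⟨fun a b => Q.eqv a.1 b.1,
    fun _ => H.gr.refl _, H.gr.symm _ _, H.gr.trans _ _ _⟩
  let x : Quotient s → Q.X := fun n => n.out.1
  have hs : ∀ n m, Q.eqv (x n) (x m) → n = m := fun n m h => Quotient.out_equiv_out.1 h
  have : Finite (Quotient s) := by
    by_contra hi
    have := not_finite_iff_infinite.1 hi
    obtain ⟨o, v, a1, a2, a3⟩ := H.cpt hq (g := nil) (fun e => e.elim) (hyperfilter (Quotient s))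
      (p := fun _ => 0) tendsto_const_nhds (x := x) (.of_forall fun n => by
        rw [fam_nil]; exact n.out.2.2)
    rw [fam_nil] at a3
    have key : ∀ᶠ n in (hyperfilter (Quotient s) : Filter _), ∃ η, Q.act o η (v n) = 0 := by
      by_cases h : P o 0
      · obtain ⟨w, π, C, -⟩ := S.ch q h1 h2 o h a3
        filter_upwards [a1.eventually (H.iso hq C a3 (h3 o h a3)), a2] with n b1 b2
        exact b1 (H.rep_P S b2 n.out.2.1) (H.rep_sol hq b2 n.out.2.2)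
      · obtain ⟨⟨w, π, C⟩, b⟩ := H.lim_dich S h1 h2 a3 a1 a2 (.of_forall fun n => n.out.2.1) h
        filter_upwards [a1.eventually (H.iso hq C a3 b), a2] with n b1 b2
        exact b1 trivial (H.rep_sol hq b2 n.out.2.2)
    have h4 : {n | Q.eqv (x n) o} ∈ hyperfilter (Quotient s) := by
      filter_upwards [key, a2] with n ⟨η, b1⟩ b2 using H.gr.orb o _ _ η b2 b1
    exact Set.Finite.notMem_hyperfilter (Set.Subsingleton.finite fun n b1 m b2 =>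
      hs n m (H.gr.trans _ _ _ b1 (H.gr.symm _ _ b2))) h4
  exact ⟨_, Fintype.ofFinite _, x, fun n => n.out.2, hs, fun y a b =>
    ⟨Quotient.mk s ⟨y, a, b⟩, H.gr.symm _ _ (Quotient.mk_out (s := s) ⟨y, a, b⟩)⟩⟩

/-- **One stage.** -/
theorem stage (S : Q.Stg P q₀ g Adm) : ∃ q ∈ Q.Rl, Sp q₀ g q ∧ Adm q ∧
    (∀ x, P x 0 → Q.Sol q x → Q.On True q nil x 0) ∧
    ∃ (ι : Type) (_ : Fintype ι) (x : ι → Q.X), Q.Cls q (P · 0) x := by
  obtain ⟨q, h1, h2, h3, h4⟩ := H.stage_reg S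
  exact ⟨q, h1, h2, h3, h4, H.stage_fin S h1 h2 h3 h4⟩

end Ax

end GM

end Crest.Agent.X212.Crt72
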