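import Crest.Agent.X212.Crt72.Mass

/-! Existence of crossings, the bicommutant lemma, and the two ways of shifting the spectral flow
by one complex dimension: a star algebra of words (type I) and rank one masses (type S). -/

set_option autoImplicit false
set_option linter.unusedSectionVars false

noncomputable section

namespace Crest.Agent.X212.Crt72

open Set Filter Topology Function Module
open scoped InnerProductSpace
open Fred93 (Fr)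

variable {X₁ X₀ : Type*} [NormedAddCommGroup X₁] [NormedSpace ℝ X₁] [CompleteSpace X₁]
  [NormedAddCommGroup X₀] [InnerProductSpace ℝ X₀] [CompleteSpace X₀]

/-- the inverse of a bijective operator. -/
theorem exists_inv {T : X₁ →L[ℝ] X₀} (h : Bijective T) :
    ∃ S : X₀ →L[ℝ] X₁, (∀ y, T (S y) = y) ∧ ∀ u, S (T u) = u :=
  let e := ContinuousLinearEquiv.ofBijective T (LinearMap.ker_eq_bot.2 h.1)
    (LinearMap.range_eq_top.2 h.2)
  ⟨e.symm, e.apply_symm_apply, e.symm_apply_apply⟩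

/-- a nonnegative symmetric bijective operator is coercive. -/
theorem coercive_of_bij {T : X₀ →L[ℝ] X₀} (hs : ∀ x y, ⟪T x, y⟫_ℝ = ⟪x, T y⟫_ℝ)
    (hp : ∀ x, 0 ≤ ⟪T x, x⟫_ℝ) (hb : Bijective T) : ∃ c > (0 : ℝ), ∀ x, c * ‖x‖ ^ 2 ≤ ⟪T x, x⟫_ℝ := by
  obtain ⟨S, h1, -⟩ := exists_inv hb
  refine ⟨(‖S‖ + 1)⁻¹, by positivity, fun x => ?_⟩
  have hS : 0 < ‖S‖ + 1 := by positivity
  set t := (‖S‖ + 1)⁻¹ with ht
  have ht0 : 0 < t := by positivity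
  have ht1 : t * (‖S‖ + 1) = 1 := inv_mul_cancel₀ hS.ne'
  have a1 := hp (x - t • S x)
  have a2 : ⟪x, S x⟫_ℝ ≤ ‖S‖ * ‖x‖ ^ 2 := (real_inner_le_norm _ _).trans (by
    nlinarith [mul_le_mul_of_nonneg_left (S.le_opNorm x) (norm_nonneg x)])
  have a3 : ⟪T x, S x⟫_ℝ = ‖x‖ ^ 2 := by rw [hs, h1, real_inner_self_eq_norm_sq]
  simp only [map_sub, map_smul, h1, inner_sub_left, inner_sub_right, real_inner_smul_left,
    real_inner_smul_right, a3, real_inner_self_eq_norm_sq] at a1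
  have a4 : t * (t * ⟪x, S x⟫_ℝ) ≤ t * (t * ((‖S‖ + 1) * ‖x‖ ^ 2)) :=
    mul_le_mul_of_nonneg_left (mul_le_mul_of_nonneg_left (by nlinarith [sq_nonneg ‖x‖]) ht0.le) ht0.le
  rw [← mul_assoc t (‖S‖ + 1), ht1] at a4
  linarith

/-- the first crossing of `T + t g²`. -/
theorem exists_cross {i T : X₁ →L[ℝ] X₀} (hi : IsCompactOperator i) (hT : Bijective T)
    (hs : ∀ u v, ⟪T u, i v⟫_ℝ = ⟪i u, T v⟫_ℝ) {g : X₀ →L[ℝ] X₀}
    (hg : ∀ x y, ⟪g x, y⟫_ℝ = ⟪x, g y⟫_ℝ) (hgi : Injective g) {v : X₁} (hv : ⟪T v, i v⟫_ℝ < 0) :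
    ∃ τ > (0 : ℝ), ¬ Bijective (T + (τ • (g * g)).comp i) ∧
      ∀ t ∈ Ico 0 τ, Bijective (T + (t • (g * g)).comp i) := by
  obtain ⟨S, h1, h2⟩ := exists_inv hT
  have hne : ∃ τ ≥ (0 : ℝ), ¬ Bijective (T + (τ • (g * g)).comp i) := by
    by_contra hc
    push Not at hc
    let K : X₀ →L[ℝ] X₀ := g.comp (i.comp (S.comp g))
    have hK : IsCompactOperator K := (hi.comp_clm (S.comp g)).clm_comp g
    have hR : ∀ x y, ⟪i (S x), y⟫_ℝ = ⟪x, i (S y)⟫_ℝ := fun x y => by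
      rw [← h1 y, ← hs, h1, h2]
    have hKs : ∀ x y, ⟪K x, y⟫_ℝ = ⟪x, K y⟫_ℝ := fun x y => by
      simp only [K, ContinuousLinearMap.comp_apply]
      rw [hg, hR, hg]
    have hbij : ∀ t ≥ (0 : ℝ), Bijective (ContinuousLinearMap.id ℝ X₀ + t • K) := fun t ht => by
      have : Injective (ContinuousLinearMap.id ℝ X₀ + t • K) := by
        rw [injective_iff_map_eq_zero]
        intro u hu
        have hu' : u + t • g (i (S (g u))) = 0 := hu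
        have e : (T + (t • (g * g)).comp i) (S (g u)) = 0 := by
          have := congrArg g hu'
          rw [map_add, map_smul, map_zero] at this
          simpa [h1] using this
        have e2 := congrArg T ((injective_iff_map_eq_zero _).1 (hc t ht).1 _ e)
        rw [h1, map_zero] at e2
        exact hgi (e2.trans (map_zero g).symm)
      exact ⟨this, (Fr.id_add (hK.smul t)).surj_of_inj this⟩
    have hd : DenseRange g := by
      have : (g : X₀ →ₗ[ℝ] X₀).range.topologicalClosure = ⊤ := by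
        rw [Submodule.topologicalClosure_eq_top_iff, Submodule.eq_bot_iff]
        intro x hx
        refine hgi ((ext_inner_left ℝ fun y => ?_).trans (map_zero g).symm)
        rw [← hg, inner_zero_right]
        exact hx _ ⟨y, rfl⟩
      exact Submodule.dense_iff_topologicalClosure_eq_top.2 this
    obtain ⟨u, hu⟩ : ∃ u, ⟪K u, u⟫_ℝ < 0 := by
      have ho : IsOpen {w : X₀ | ⟪i (S w), w⟫_ℝ < 0} := isOpen_lt (by fun_prop) continuous_const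
      obtain ⟨u, hu⟩ := hd.exists_mem_open ho ⟨T v, by simpa [h2, real_inner_comm] using hv⟩
      exact ⟨u, by simpa [K, hg] using hu⟩
    let Z : Set ℝ := {t | 0 ≤ t ∧ ∀ x, 0 ≤ ⟪x + t • K x, x⟫_ℝ}
    have hZc : IsClosed Z := by
      have : IsClosed {t : ℝ | ∀ x, 0 ≤ ⟪x + t • K x, x⟫_ℝ} := by
        simp only [ofPred_forall]
        exact isClosed_iInter fun x => isClosed_le continuous_const (by fun_prop)
      exact isClosed_Ici.inter this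
    have hZ0 : (0 : ℝ) ∈ Z := ⟨le_rfl, fun x => by simp⟩
    have hZb : BddAbove Z := ⟨‖u‖ ^ 2 / -⟪K u, u⟫_ℝ, fun t ht => by
      have := ht.2 u
      rw [inner_add_left, real_inner_smul_left, real_inner_self_eq_norm_sq] at this
      rw [le_div_iff₀ (by linarith)]
      linarith⟩
    have hm := hZc.csSup_mem ⟨0, hZ0⟩ hZb
    obtain ⟨c, hc0, hc⟩ := coercive_of_bij (T := ContinuousLinearMap.id ℝ X₀ + sSup Z • K)
      (fun x y => by simp [inner_add_left, inner_add_right, real_inner_smul_left,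
        real_inner_smul_right, hKs]) hm.2 (hbij _ hm.1)
    have hδ : 0 < c / (‖K‖ + 1) := by positivity
    have : sSup Z + c / (‖K‖ + 1) ∈ Z := ⟨by linarith [hm.1], fun x => by
      have a1 : c * ‖x‖ ^ 2 ≤ ⟪x + sSup Z • K x, x⟫_ℝ := hc x
      have a2 : -((‖K‖ + 1) * ‖x‖ ^ 2) ≤ ⟪K x, x⟫_ℝ := by
        have := (abs_le.1 (abs_real_inner_le_norm (K x) x)).1
        nlinarith [mul_le_mul_of_nonneg_right (K.le_opNorm x) (norm_nonneg x), sq_nonneg ‖x‖]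
      have a3 := mul_le_mul_of_nonneg_left a2 hδ.le
      rw [mul_neg, ← mul_assoc, div_mul_cancel₀ _ (by positivity)] at a3
      rw [add_smul, ← add_assoc, inner_add_left, real_inner_smul_left]
      linarith⟩
    linarith [le_csSup hZb this]
  let N : Set ℝ := {τ | 0 ≤ τ ∧ ¬ Bijective (T + (τ • (g * g)).comp i)}
  have hNc : IsClosed N := isClosed_Ici.inter ((isOpen_bij.preimage
    (f := fun τ : ℝ => T + (τ • (g * g)).comp i) (continuous_const.add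
      ((continuous_id.smul continuous_const).clm_comp continuous_const))).isClosed_compl)
  have hNb : BddBelow N := ⟨0, fun t ht => ht.1⟩
  have hm := hNc.csInf_mem hne hNb
  refine ⟨sInf N, lt_of_le_of_ne hm.1 fun h => hm.2 (by rw [← h]; simpa using hT), hm.2,
    fun t ht => ?_⟩
  by_contra hc
  exact not_lt.2 (csInf_le hNb ⟨ht.1, hc⟩) ht.2

/-- **Bicommutant lemma** for a nondegenerate star algebra `𝒜` (no unit needed). -/
theorem bicomm {𝒜 : Submodule ℝ (X₀ →L[ℝ] X₀)} (hm : ∀ a ∈ 𝒜, ∀ b ∈ 𝒜, a * b ∈ 𝒜)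
    (hst : ∀ a ∈ 𝒜, ∃ b ∈ 𝒜, ∀ x y, ⟪a x, y⟫_ℝ = ⟪x, b y⟫_ℝ)
    (hnd : ∀ w, (∀ a ∈ 𝒜, a w = 0) → w = 0) {T : X₀ →L[ℝ] X₀}
    (hT : ∀ S : X₀ →L[ℝ] X₀, (∀ a ∈ 𝒜, S * a = a * S) → S * T = T * S)
    {κ : Type*} [Fintype κ] (v : κ → X₀) {δ : ℝ} (hδ : 0 < δ) :
    ∃ a ∈ 𝒜, ∀ j, ‖a (v j) - T (v j)‖ < δ := by
  classical
  let e := PiLp.continuousLinearEquiv 2 ℝ fun _ : κ => X₀
  let dg : (X₀ →L[ℝ] X₀) → PiLp 2 (fun _ : κ => X₀) →L[ℝ] PiLp 2 (fun _ : κ => X₀) := fun a =>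
    (e.symm : (κ → X₀) →L[ℝ] _).comp ((ContinuousLinearMap.pi fun j =>
      a.comp (ContinuousLinearMap.proj j)).comp (e : _ →L[ℝ] κ → X₀))
  have hdg : ∀ a x j, dg a x j = a (x j) := fun _ _ _ => rfl
  let x₀ : PiLp 2 (fun _ : κ => X₀) := e.symm v
  let ev : (X₀ →L[ℝ] X₀) →ₗ[ℝ] PiLp 2 (fun _ : κ => X₀) :=
    { toFun := fun a => dg a x₀
      map_add' := fun a b => by ext j; simp [hdg]
      map_smul' := fun r a => by ext j; simp [hdg] }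
  let M := (𝒜.map ev).topologicalClosure
  have : CompleteSpace M := (𝒜.map ev).isClosed_topologicalClosure.completeSpace_coe
  have hM : ∀ a ∈ 𝒜, ∀ x ∈ M, dg a x ∈ M := fun a ha x hx => by
    refine closure_minimal (t := dg a ⁻¹' M) ?_
      ((𝒜.map ev).isClosed_topologicalClosure.preimage (dg a).continuous) hx
    rintro _ ⟨b, hb, rfl⟩
    exact subset_closure ⟨a * b, hm a ha b hb, by ext j; rfl⟩
  have hM' : ∀ a ∈ 𝒜, ∀ x ∈ Mᗮ, dg a x ∈ Mᗮ := fun a ha x hx y hy => by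
    obtain ⟨b, hb, hab⟩ := hst a ha
    rw [← hx _ (hM b hb y hy)]
    simp only [PiLp.inner_apply, hdg]
    exact Finset.sum_congr rfl fun j _ => by rw [real_inner_comm, hab, real_inner_comm]
  have hcomm : ∀ a ∈ 𝒜, ∀ x, M.starProjection (dg a x) = dg a (M.starProjection x) :=
    fun a ha x => Submodule.eq_starProjection_of_mem_orthogonal
      (hM a ha _ (M.starProjection_apply_mem x))
      (by rw [← map_sub]; exact hM' a ha _ (M.sub_starProjection_mem_orthogonal x))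
  have hx₀ : M.starProjection x₀ = x₀ := by
    refine (sub_eq_zero.1 ?_).symm
    ext j
    refine hnd _ fun a ha => ?_
    have h1 : dg a (x₀ - M.starProjection x₀) = 0 := by
      rw [map_sub, ← hcomm a ha, Submodule.starProjection_eq_self_iff.2
        (show dg a x₀ ∈ M from subset_closure ⟨a, ha, rfl⟩), sub_self]
    exact congrArg (fun y => y j) h1
  let sg : κ → X₀ →L[ℝ] PiLp 2 (fun _ : κ => X₀) := fun k =>
    (e.symm : (κ → X₀) →L[ℝ] _).comp (ContinuousLinearMap.single ℝ (fun _ => X₀) k)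
  have hsg : ∀ a k y, dg a (sg k y) = sg k (a y) := fun a k y => by
    ext j
    by_cases h : j = k
    · subst h; simp [hdg, sg, e]
    · simp [hdg, sg, e, h]
  have hsum : ∀ x : PiLp 2 (fun _ : κ => X₀), x = ∑ k, sg k (x k) := fun x => by
    ext j
    simp [sg, e, Pi.single_apply]
  have hTc : ∀ x, M.starProjection (dg T x) = dg T (M.starProjection x) := fun x => by
    have key : ∀ k y, M.starProjection (dg T (sg k y)) = dg T (M.starProjection (sg k y)) := by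
      intro k y
      ext j
      let S : X₀ →L[ℝ] X₀ := (ContinuousLinearMap.proj j).comp
        ((e : _ →L[ℝ] κ → X₀).comp (M.starProjection.comp (sg k)))
      have hS : ∀ z, S z = M.starProjection (sg k z) j := fun _ => rfl
      have := hT S fun a ha => by
        ext z
        rw [mul_apply_eq_comp, mul_apply_eq_comp, hS, hS, ← hsg, hcomm a ha, hdg]
      have h2 := congrArg (fun R : X₀ →L[ℝ] X₀ => R y) this
      simpa only [mul_apply_eq_comp, hS, hsg, hdg] using h2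
    rw [hsum x]
    simp only [map_sum, key]
  have hmem : dg T x₀ ∈ M := by
    rw [← Submodule.starProjection_eq_self_iff, hTc, hx₀]
  obtain ⟨_, ⟨a, ha, rfl⟩, h⟩ := Metric.mem_closure_iff.1 hmem δ hδ
  refine ⟨a, ha, fun j => ?_⟩
  rw [dist_comm, dist_eq_norm] at h
  exact lt_of_le_of_lt (PiLp.norm_apply_le (ev a - dg T x₀) j) h

/-- approximation in operator norm on a finite dimensional subspace. -/
theorem bicomm' {𝒜 : Submodule ℝ (X₀ →L[ℝ] X₀)} (hm : ∀ a ∈ 𝒜, ∀ b ∈ 𝒜, a * b ∈ 𝒜)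
    (hst : ∀ a ∈ 𝒜, ∃ b ∈ 𝒜, ∀ x y, ⟪a x, y⟫_ℝ = ⟪x, b y⟫_ℝ)
    (hnd : ∀ w, (∀ a ∈ 𝒜, a w = 0) → w = 0) {T : X₀ →L[ℝ] X₀}
    (hT : ∀ S : X₀ →L[ℝ] X₀, (∀ a ∈ 𝒜, S * a = a * S) → S * T = T * S)
    (V : Submodule ℝ X₀) [FiniteDimensional ℝ V] {δ : ℝ} (hδ : 0 < δ) :
    ∃ a ∈ 𝒜, ∀ x ∈ V, ‖a x - T x‖ ≤ δ * ‖x‖ := by
  let b := stdOrthonormalBasis ℝ V
  have hn : (0 : ℝ) < finrank ℝ V + 1 := by positivity
  obtain ⟨a, ha, h⟩ := bicomm hm hst hnd hT (fun j => (b j : X₀)) (div_pos hδ hn)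
  refine ⟨a, ha, fun x hx => ?_⟩
  have e : x = ∑ j, b.repr ⟨x, hx⟩ j • (b j : X₀) := by
    have := congrArg Subtype.val (b.sum_repr ⟨x, hx⟩)
    simpa using this.symm
  have e2 : a x - T x = ∑ j, b.repr ⟨x, hx⟩ j • (a (b j) - T (b j)) := by
    conv_lhs => rw [e]
    simp only [map_sum, map_smul, smul_sub, Finset.sum_sub_distrib]
  rw [e2]
  refine (norm_sum_le _ _).trans ((Finset.sum_le_card_nsmul _ _
    (‖x‖ * (δ / (finrank ℝ V + 1))) fun j _ => ?_).trans ?_)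
  · rw [norm_smul]
    refine mul_le_mul ?_ (h j).le (norm_nonneg _) (norm_nonneg _)
    exact (PiLp.norm_apply_le (b.repr ⟨x, hx⟩) j).trans (b.repr.norm_map ⟨x, hx⟩).le
  · rw [Finset.card_univ, Fintype.card_fin, nsmul_eq_mul, mul_left_comm, mul_comm δ]
    refine mul_le_mul_of_nonneg_left ?_ (norm_nonneg _)
    rw [← mul_div_assoc, div_le_iff₀ hn]
    nlinarith

/-- a complex structure on both levels. -/
structure CS (i : X₁ →L[ℝ] X₀) (J₁ : X₁ →L[ℝ] X₁) (J : X₀ →L[ℝ] X₀) : Prop where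
  iJ : ∀ u, i (J₁ u) = J (i u)
  sq : ∀ x, J (J x) = -x
  skew : ∀ x y, ⟪J x, y⟫_ℝ = -⟪x, J y⟫_ℝ

theorem CS.inner_self {i : X₁ →L[ℝ] X₀} {J₁ : X₁ →L[ℝ] X₁} {J : X₀ →L[ℝ] X₀} (h : CS i J₁ J)
    (x : X₀) : ⟪J x, x⟫_ℝ = 0 := by
  have := h.skew x x
  rw [real_inner_comm (J x)] at this
  linarith

theorem CS.inner_J {i : X₁ →L[ℝ] X₀} {J₁ : X₁ →L[ℝ] X₁} {J : X₀ →L[ℝ] X₀} (h : CS i J₁ J)
    (x y : X₀) : ⟪J x, J y⟫_ℝ = ⟪x, y⟫_ℝ := by rw [h.skew, h.sq, inner_neg_right, neg_neg]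

theorem CS.finrank_line {i : X₁ →L[ℝ] X₀} {J₁ : X₁ →L[ℝ] X₁} {J : X₀ →L[ℝ] X₀} (h : CS i J₁ J)
    {k : X₁} (hk : i k ≠ 0) : finrank ℝ (Submodule.span ℝ {k, J₁ k}) = 2 := by
  have hl : LinearIndependent ℝ ![k, J₁ k] := by
    rw [LinearIndependent.pair_iff]
    intro s t hst
    have e := congrArg i hst
    rw [map_add, map_smul, map_smul, map_zero, h.iJ] at e
    have a1 := congrArg (fun y => ⟪y, i k⟫_ℝ) e
    have a2 := congrArg (fun y => ⟪J (i k), y⟫_ℝ) e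
    have hp := real_inner_self_pos.2 hk
    simp only [inner_add_left, inner_add_right, real_inner_smul_left, real_inner_smul_right,
      h.inner_self, h.inner_J, inner_zero_left, inner_zero_right, mul_zero, add_zero, zero_add,
      mul_eq_zero, hp.ne', or_false] at a1 a2
    exact ⟨a1, a2⟩
  have := finrank_span_eq_card hl
  rwa [Matrix.range_cons_cons_empty, Fintype.card_fin] at this

/-- the projector onto a complex subspace is complex linear. -/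
theorem IsPj.comm {i : X₁ →L[ℝ] X₀} {J₁ : X₁ →L[ℝ] X₁} {J : X₀ →L[ℝ] X₀} (h : CS i J₁ J)
    {K : Submodule ℝ X₁} {P : X₀ →L[ℝ] X₀} (hP : IsPj i K P) (hK : ∀ k ∈ K, J₁ k ∈ K) :
    J * P = P * J := by
  have key : ∀ x, P (J (P x)) = J (P x) := fun x => by
    obtain ⟨k, hk, e⟩ := hP.mem x
    rw [e, ← h.iJ, hP.fix _ (hK k hk)]
  ext x
  refine ext_inner_right ℝ fun y => ?_
  rw [mul_apply_eq_comp, mul_apply_eq_comp, ← key, hP.symm, h.skew, hP.symm, key, hP.symm, h.skew]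

namespace SF

variable {i L : X₁ →L[ℝ] X₀} {A : Submodule ℝ (X₀ →L[ℝ] X₀)}
  {sf : (X₀ →L[ℝ] X₀) → (X₀ →L[ℝ] X₀) → ℤ} (H : SF i L A sf)
  {J₁ : X₁ →L[ℝ] X₁} {J : X₀ →L[ℝ] X₀} (hJ : CS i J₁ J)
include H hJ

/-- **Type I step**: `𝒜` is an irreducible star algebra of complex linear operators. -/
theorem stepI (hL : ∀ u, L (J₁ u) = J (L u)) {𝒜 : Submodule ℝ (X₀ →L[ℝ] X₀)}
    (hm : ∀ a ∈ 𝒜, ∀ b ∈ 𝒜, a * b ∈ 𝒜) (hst : ∀ a ∈ 𝒜, ∃ b ∈ 𝒜, ∀ x y, ⟪a x, y⟫_ℝ = ⟪x, b y⟫_ℝ)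
    (hA : ∀ a ∈ 𝒜, (∀ x y, ⟪a x, y⟫_ℝ = ⟪x, a y⟫_ℝ) → a ∈ A) (hc : ∀ a ∈ 𝒜, a * J = J * a)
    (hirr : ∀ S : X₀ →L[ℝ] X₀, (∀ a ∈ 𝒜, S * a = a * S) → ∃ α β : ℝ, S = α • 1 + β • J)
    {g : X₀ →L[ℝ] X₀} (hg𝒜 : g ∈ 𝒜) (hg : ∀ x y, ⟪g x, y⟫_ℝ = ⟪x, g y⟫_ℝ) (hgi : Injective g)
    {σ : ℝ} (hσ : σ = 1 ∨ σ = -1) {a : X₀ →L[ℝ] X₀} (ha : a ∈ A) (haJ : a * J = J * a)
    (hb : Bijective (Op i L a)) {v : X₁} (hv : σ * ⟪Op i L a v, i v⟫_ℝ < 0) :
    ∃ c ∈ 𝒜, c ∈ A ∧ Bijective (Op i L (a + c)) ∧ sf a (a + c) = if σ = 1 then 2 else -2 := by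
  have hσ2 : σ * σ = 1 := by rcases hσ with rfl | rfl <;> norm_num
  have hσ0 : σ ≠ 0 := by rcases hσ with rfl | rfl <;> norm_num
  have hsm : ∀ T : X₁ →L[ℝ] X₀, Bijective (σ • T) ↔ Bijective T := fun T =>
    (Bijective.of_comp_iff' (MulAction.bijective₀ (α := X₀) hσ0) T)
  have hgg : ∀ x y, ⟪(g * g) x, y⟫_ℝ = ⟪x, (g * g) y⟫_ℝ := fun x y => by
    rw [mul_apply_eq_comp, mul_apply_eq_comp, hg, hg]
  have hggA : g * g ∈ A := hA _ (hm g hg𝒜 g hg𝒜) hgg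
  obtain ⟨τ, hτ, hn, hinv⟩ := exists_cross H.cpt ((hsm _).2 hb) (fun u w => by
    simp only [smul_apply, real_inner_smul_left, real_inner_smul_right, H.symOp ha]) hg hgi
    (v := v) (by simpa only [smul_apply, real_inner_smul_left] using hv)
  have e : ∀ t : ℝ, σ • Op i L a + (t • (g * g)).comp i = σ • Op i L (a + (σ * t) • (g * g)) :=
    fun t => by
      ext u
      simp only [Op_add, add_apply, smul_apply, ContinuousLinearMap.comp_apply, smul_add, smul_smul,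
        ← mul_assoc, hσ2, one_mul]
  simp only [e, hsm] at hn hinv
  set a' := a + (σ * τ) • (g * g) with ha'
  have hfin := (H.frOp a').1.finite_ker
  have ha'J : a' * J = J * a' := by
    rw [ha', add_mul, mul_add, haJ, smul_mul_assoc, mul_smul_comm, hc _ (hm g hg𝒜 g hg𝒜)]
  have hKJ : ∀ k ∈ (Op i L a').ker, J₁ k ∈ (Op i L a').ker := fun k hk => by
    have hk' : L k + a' (i k) = 0 := hk
    show L (J₁ k) + a' (i (J₁ k)) = 0
    rw [hL, hJ.iJ, ← mul_apply_eq_comp, ha'J, mul_apply_eq_comp, ← map_add, hk', map_zero]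
  obtain ⟨k₀, hk₀, hk0⟩ : ∃ k, Op i L a' k = 0 ∧ k ≠ 0 := by
    by_contra h
    push Not at h
    exact hn (H.bij_of_inj h)
  have hi0 : ∀ k : X₁, k ≠ 0 → i k ≠ 0 := fun k hk h => hk (H.inj (h.trans (map_zero i).symm))
  let K₀ : Submodule ℝ X₁ := Submodule.span ℝ {k₀, J₁ k₀}
  have hK₀ : K₀ ≤ (Op i L a').ker := Submodule.span_le.2 (by
    rintro _ (rfl | rfl)
    exacts [hk₀, hKJ _ hk₀])
  have hK₀J : ∀ k ∈ K₀, J₁ k ∈ K₀ := fun k hk => by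
    obtain ⟨s, t, rfl⟩ := Submodule.mem_span_pair.1 hk
    refine Submodule.mem_span_pair.2 ⟨-t, s, H.inj ?_⟩
    simp only [map_add, map_smul, hJ.iJ, hJ.sq]; module
  have hf0 : FiniteDimensional ℝ K₀ := Submodule.finiteDimensional_of_le hK₀
  obtain ⟨P₀, hP₀⟩ := exists_isPj i K₀
  let K' : Submodule ℝ X₁ := (Op i L a').ker ⊓ (P₀.comp i).ker
  have hsup : K₀ ⊔ K' = (Op i L a').ker := le_antisymm (sup_le hK₀ inf_le_left) fun k hk => by
    obtain ⟨p, hp, e⟩ := hP₀.mem (i k)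
    refine Submodule.mem_sup.2 ⟨p, hp, k - p, ⟨Submodule.sub_mem _ hk (hK₀ hp), ?_⟩, by abel⟩
    show P₀ (i (k - p)) = 0
    rw [map_sub, map_sub, e, hP₀.fix p hp, sub_self]
  have ho : ∀ p ∈ K₀, ∀ q ∈ K', ⟪i p, i q⟫_ℝ = 0 := fun p hp q hq => by
    rw [← hP₀.fix p hp, hP₀.symm, show P₀ (i q) = 0 from hq.2, inner_zero_right]
  obtain ⟨c₀, hc₀, happ⟩ := bicomm' hm hst (fun w hw => hgi ((hw g hg𝒜).trans (map_zero g).symm))
    (T := (2 : ℝ) • P₀ - 1) (fun S hS => by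
      obtain ⟨α, β, rfl⟩ := hirr S hS
      simp only [add_mul, mul_add, mul_sub, sub_mul, smul_mul_assoc, mul_smul_comm, one_mul,
        mul_one, hP₀.comm hJ hK₀J]
      module) ((Op i L a').ker.map (i : X₁ →ₗ[ℝ] X₀)) (δ := 1 / 2) (by norm_num)
  obtain ⟨c₁, hc₁, hadj⟩ := hst c₀ hc₀
  have hcs : ∀ x y, ⟪(c₀ + c₁) x, y⟫_ℝ = ⟪x, (c₀ + c₁) y⟫_ℝ := fun x y => by
    rw [add_apply, add_apply, inner_add_left, inner_add_right, hadj, add_comm, real_inner_comm y,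
      ← hadj, real_inner_comm]
  have hcq : ∀ x, ⟪(c₀ + c₁) x, x⟫_ℝ = 2 * ⟪c₀ x, x⟫_ℝ := fun x => by
    rw [add_apply, inner_add_left, real_inner_comm x (c₁ x), ← hadj]; ring
  have hest : ∀ k ∈ (Op i L a').ker, |⟪c₀ (i k), i k⟫_ℝ - ⟪((2 : ℝ) • P₀ - 1) (i k), i k⟫_ℝ| ≤
      1 / 2 * ‖i k‖ ^ 2 := fun k hk => by
    rw [← inner_sub_left]
    refine (abs_real_inner_le_norm _ _).trans ?_
    nlinarith [mul_le_mul_of_nonneg_right (happ (i k) ⟨k, hk, rfl⟩) (norm_nonneg (i k))]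
  have p1 : ∀ k ∈ K₀, k ≠ 0 → 0 < ⟪(c₀ + c₁) (i k), i k⟫_ℝ := fun k hk h0 => by
    have a1 := abs_le.1 (hest k (hK₀ hk))
    have a2 := norm_pos_iff.2 (hi0 k h0)
    simp only [sub_apply, smul_apply, one_apply_eq_self, hP₀.fix k hk, inner_sub_left,
      real_inner_smul_left, real_inner_self_eq_norm_sq] at a1
    rw [hcq]; nlinarith [a1.1]
  have p2 : ∀ k ∈ K', k ≠ 0 → ⟪(c₀ + c₁) (i k), i k⟫_ℝ < 0 := fun k hk h0 => by
    have a1 := abs_le.1 (hest k hk.1)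
    have a2 := norm_pos_iff.2 (hi0 k h0)
    simp only [sub_apply, smul_apply, one_apply_eq_self, show P₀ (i k) = 0 from hk.2, smul_zero,
      inner_sub_left, inner_zero_left, real_inner_self_eq_norm_sq] at a1
    rw [hcq]; nlinarith [a1.2]
  have hbp : ∀ k ∈ (Op i L a').ker, k ≠ 0 → 0 < ⟪(g * g) (i k), i k⟫_ℝ := fun k _ h0 => by
    rw [mul_apply_eq_comp, hg]
    exact real_inner_self_pos.2 fun h => hi0 k h0 (hgi (h.trans (map_zero g).symm))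
  have hcm := 𝒜.add_mem hc₀ hc₁
  have hr : finrank ℝ K₀ = 2 := hJ.finrank_line (hi0 k₀ hk0)
  rcases hσ with rfl | rfl
  · obtain ⟨ε, -, b1, f1⟩ := H.step ha hggA (hA _ hcm hcs) hτ (Or.inl rfl) hinv hbp hsup ho p1 p2
    refine ⟨(1 * τ) • (g * g) + ε • (c₀ + c₁), 𝒜.add_mem (𝒜.smul_mem _ (hm g hg𝒜 g hg𝒜))
      (𝒜.smul_mem _ hcm), A.add_mem (A.smul_mem _ hggA) (A.smul_mem _ (hA _ hcm hcs)), ?_⟩
    rw [← add_assoc]
    exact ⟨b1, by simpa [hr] using f1⟩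
  · obtain ⟨ε, -, b1, f1⟩ := H.step ha hggA (A.neg_mem (hA _ hcm hcs)) hτ (Or.inr rfl) hinv hbp
      ((sup_comm _ _).trans hsup) (fun p hp q hq => by rw [real_inner_comm, ho q hq p hp])
      (fun k hk h0 => by simpa only [neg_apply, inner_neg_left, neg_pos] using p2 k hk h0)
      (fun k hk h0 => by simpa only [neg_apply, inner_neg_left, neg_lt_zero] using p1 k hk h0)
    refine ⟨(-1 * τ) • (g * g) + ε • -(c₀ + c₁), 𝒜.add_mem (𝒜.smul_mem _ (hm g hg𝒜 g hg𝒜))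
      (𝒜.smul_mem _ (𝒜.neg_mem hcm)), A.add_mem (A.smul_mem _ hggA)
      (A.smul_mem _ (A.neg_mem (hA _ hcm hcs))), ?_⟩
    rw [← add_assoc]
    refine ⟨b1, ?_⟩
    rw [if_neg (by norm_num)] at f1 ⊢
    rw [f1, hr]; rfl

end SF

/-- the complex rank one operator `ψ ψ^*`. -/
def rk (J : X₀ →L[ℝ] X₀) (ψ : X₀) : X₀ →L[ℝ] X₀ :=
  (innerSL ℝ ψ).smulRight ψ + (innerSL ℝ (J ψ)).smulRight (J ψ)

theorem rk_apply (J : X₀ →L[ℝ] X₀) (ψ x : X₀) :
    rk J ψ x = ⟪ψ, x⟫_ℝ • ψ + ⟪J ψ, x⟫_ℝ • J ψ := rfl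

/-- **Type S step**: a complex rank one mass. -/
theorem SF.stepS {i L : X₁ →L[ℝ] X₀} {A : Submodule ℝ (X₀ →L[ℝ] X₀)}
    {sf : (X₀ →L[ℝ] X₀) → (X₀ →L[ℝ] X₀) → ℤ} (H : SF i L A sf)
    {J₁ : X₁ →L[ℝ] X₁} {J : X₀ →L[ℝ] X₀} (hJ : CS i J₁ J) {a : X₀ →L[ℝ] X₀} (ha : a ∈ A)
    (hT : ∀ u, Op i L a (J₁ u) = J (Op i L a u)) (hb : Bijective (Op i L a))
    {Ψ : Set X₀} (hΨ : ∀ ψ ∈ Ψ, rk J ψ ∈ A) {σ : ℝ} (hσ : σ = 1 ∨ σ = -1) {v : X₁}
    (hv : σ * ⟪Op i L a v, i v⟫_ℝ < 0) (hcl : Op i L a v ∈ closure Ψ) :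
    ∃ ψ ∈ Ψ, ∃ t : ℝ, Bijective (Op i L (a + t • rk J ψ)) ∧
      sf a (a + t • rk J ψ) = if σ = 1 then 2 else -2 := by
  obtain ⟨S, h1, h2⟩ := exists_inv hb
  have ho : IsOpen {w : X₀ | σ * ⟪w, i (S w)⟫_ℝ < 0} := isOpen_lt (by fun_prop) continuous_const
  obtain ⟨ψ, hm, hψ⟩ := mem_closure_iff.1 hcl _ ho (by simpa only [mem_ofPred_eq, h2] using hv)
  set φ := S ψ with hφ
  set m := σ * ⟪ψ, i φ⟫_ℝ with hmd
  have hm : m < 0 := hm
  have hTφ : Op i L a φ = ψ := h1 ψ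
  have hTJ : Op i L a (J₁ φ) = J ψ := by rw [hT, hTφ]
  have o1 : ⟪J ψ, i φ⟫_ℝ = 0 := by
    have := H.symOp ha (J₁ φ) φ
    rw [hTJ, hTφ, hJ.iJ, hJ.skew (i φ)] at this
    linarith [real_inner_comm (J ψ) (i φ)]
  have o2 : ⟪ψ, J (i φ)⟫_ℝ = 0 := by linarith [hJ.skew ψ (i φ)]
  have hker : ∀ (t : ℝ) u, Op i L (a + (σ * t) • rk J ψ) u = 0 ↔
      u = -(σ * t * ⟪ψ, i u⟫_ℝ) • φ + -(σ * t * ⟪J ψ, i u⟫_ℝ) • J₁ φ := fun t u => by
    rw [← hb.1.eq_iff, Op_add, add_apply, map_add, map_smul, map_smul, hTφ, hTJ,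
      ContinuousLinearMap.comp_apply, smul_apply, rk_apply, add_eq_zero_iff_eq_neg]
    constructor <;> intro h <;> rw [h] <;> module
  have hev : ∀ x y : ℝ, σ * ⟪ψ, i (x • φ + y • J₁ φ)⟫_ℝ = x * m ∧
      σ * ⟪J ψ, i (x • φ + y • J₁ φ)⟫_ℝ = y * m := fun x y => by
    simp only [map_add, map_smul, inner_add_right, real_inner_smul_right, hJ.iJ, o1, o2, hJ.inner_J,
      hmd]
    constructor <;> ring
  have hτ : 0 < -m⁻¹ := neg_pos.2 (inv_lt_zero.2 hm)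
  have hσ2 : σ * σ = 1 := by rcases hσ with rfl | rfl <;> norm_num
  have hinv : ∀ t ∈ Ico 0 (-m⁻¹), Bijective (Op i L (a + (σ * t) • rk J ψ)) := fun t ht =>
    H.bij_of_inj fun u hu => by
      have e := (hker t u).1 hu
      have e2 := hev (-(σ * t * ⟪ψ, i u⟫_ℝ)) (-(σ * t * ⟪J ψ, i u⟫_ℝ))
      rw [← e] at e2
      have hpos : 0 < 1 + t * m := by
        have := mul_lt_mul_of_neg_right ht.2 hm
        rw [neg_mul, inv_mul_cancel₀ hm.ne] at this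
        linarith
      have a1 : σ * ⟪ψ, i u⟫_ℝ = 0 := (mul_eq_zero.1 (show σ * ⟪ψ, i u⟫_ℝ * (1 + t * m) = 0 by
        linear_combination e2.1)).resolve_right hpos.ne'
      have a2 : σ * ⟪J ψ, i u⟫_ℝ = 0 := (mul_eq_zero.1 (show σ * ⟪J ψ, i u⟫_ℝ * (1 + t * m) = 0 by
        linear_combination e2.2)).resolve_right hpos.ne'
      rw [e, mul_right_comm, a1, mul_right_comm σ t, a2]; simp
  have hK : Submodule.span ℝ {φ, J₁ φ} = (Op i L (a + (σ * -m⁻¹) • rk J ψ)).ker := by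
    ext u
    rw [Submodule.mem_span_pair, LinearMap.mem_ker, ContinuousLinearMap.coe_coe, hker]
    refine ⟨?_, fun h => ⟨_, _, h.symm⟩⟩
    rintro ⟨x, y, rfl⟩
    rw [mul_right_comm, (hev x y).1, mul_right_comm σ, (hev x y).2]
    congr 2 <;> field_simp [hm.ne]
  have hbp : ∀ k ∈ Submodule.span ℝ {φ, J₁ φ}, k ≠ 0 → 0 < ⟪rk J ψ (i k), i k⟫_ℝ := fun k hk h0 => by
    obtain ⟨x, y, rfl⟩ := Submodule.mem_span_pair.1 hk
    rw [rk_apply, inner_add_left, real_inner_smul_left, real_inner_smul_left]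
    obtain ⟨e1, e2⟩ := hev x y
    have e3 : ∀ p : ℝ, p * p = (σ * p) * (σ * p) := fun p => by linear_combination -(p * p) * hσ2
    rw [e3 ⟪ψ, _⟫_ℝ, e3 ⟪J ψ, _⟫_ℝ, e1, e2]
    have : x ≠ 0 ∨ y ≠ 0 := by
      by_contra h
      push Not at h
      exact h0 (by rw [h.1, h.2]; simp)
    rcases this with h | h
    · nlinarith [mul_self_pos.2 (mul_ne_zero h hm.ne), mul_self_nonneg (y * m)]
    · nlinarith [mul_self_pos.2 (mul_ne_zero h hm.ne), mul_self_nonneg (x * m)]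
  have hr : finrank ℝ (Submodule.span ℝ {φ, J₁ φ}) = 2 := hJ.finrank_line fun h => hm.ne (by
    rw [hmd, h, inner_zero_right, mul_zero])
  refine ⟨ψ, hψ, ?_⟩
  rcases hσ with rfl | rfl
  · obtain ⟨ε, -, b1, f1⟩ := H.step ha (hΨ ψ hψ) (hΨ ψ hψ) hτ (Or.inl rfl) hinv (hK ▸ hbp)
      (K₂ := ⊥) ((sup_bot_eq _).trans hK) (by simp) hbp (by simp)
    refine ⟨1 * -m⁻¹ + ε, ?_⟩
    rw [add_smul, ← add_assoc]
    exact ⟨b1, by simpa [hr] using f1⟩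
  · obtain ⟨ε, -, b1, f1⟩ := H.step ha (hΨ ψ hψ) (A.neg_mem (hΨ ψ hψ)) hτ (Or.inr rfl) hinv
      (hK ▸ hbp) (K₁ := ⊥) ((bot_sup_eq _).trans hK) (by simp) (by simp)
      (fun k hk h0 => by simpa only [neg_apply, inner_neg_left, neg_lt_zero] using hbp k hk h0)
    refine ⟨-1 * -m⁻¹ + -ε, ?_⟩
    rw [add_smul, ← add_assoc, neg_smul, ← smul_neg]
    refine ⟨b1, ?_⟩
    rw [if_neg (by norm_num)] at f1 ⊢
    rw [f1, hr]; rfl

end Crest.Agent.X212.Crt72
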